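import Vale.Agent.P366.H177.Defs

/-! Time flat or torsion bounded centred spheres: the definition of the class. -/

noncomputable section
namespace Vale.Agent.H177
open Vale.Agent.P366.Stmt Vale.Agent.T4

variable {n : ℕ}

/-- `-α(∇ u)` at `x` on the centred sphere `S` through `x`; `u = tr_S K / H` and
`α = K(ν, ·) - dχ`, `χ = artanh u`, is the torsion with respect to the mean curvature vector. -/
def twistTerm (g K : Field n) (x : E n) : ℝ :=
  -sphereDot g (fun k => sphereTwist g K k x) (fun l => pd l (sphereRatio g K) x) x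

/-- `μ - u J(ν) + (1 - u ^ 2) |α| ^ 2 + |∇ log √p + u K(ν, ·)| ^ 2` at `x`. -/
def twistSlack (g K : Field n) (x : E n) : ℝ :=
  mu g K x - sphereRatio g K x * (∑ i, mom g K i x * nrm g len i x) +
    (1 - sphereRatio g K x ^ 2) *
      sphereDot g (fun k => sphereTwist g K k x) (fun l => sphereTwist g K l x) x +
    sphereAccel g K x

/-- The condition on `K`: for `R ≤ |x|` each centred sphere `S` has either no untrapped point, that
is `H ≤ |tr_S K|` on all of `S`, or it is untrapped, `|tr_S K| < H` on all of `S`, and (i) it is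
time flat, or (ii) the integral of `K(ν, ∇ u)` is at most `θ(r)` times the integral of
`μ - u J(ν) + (1 - u ^ 2) |K(ν, ·)| ^ 2 + |∇ log √p + u K(ν, ·)| ^ 2`, or (iii) the integral of
`-α(∇ u)` is at most `θ(r)` times the integral of
`μ - u J(ν) + (1 - u ^ 2) |α| ^ 2 + |∇ log √p + u K(ν, ·)| ^ 2`. -/
def TorsionClass (g K : Field n) (θ : ℝ → ℝ) (R : ℝ) : Prop := ∀ r, R ≤ r →
  (∀ x, len x = r → sphereMean g x ≤ |trS g K len x|) ∨
    ((∀ x, len x = r → |trS g K len x| < sphereMean g x) ∧
      (TimeFlat g K r ∨
        sph (vol n) r (sphereTorsion g K) ≤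
          θ r * sph (vol n) r (fun x => sphereSlack g K x + sphereAccel g K x) ∨
        sph (vol n) r (twistTerm g K) ≤ θ r * sph (vol n) r (twistSlack g K)))

end Vale.Agent.H177
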