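import Vale.Agent.P366.H177.Final4
import Vale.Agent.P366.H177.DefC

/-! Torsion bounds with respect to the mean curvature vector. -/

open MeasureTheory Metric Filter Topology Set
open scoped ContDiff ENNReal Matrix

noncomputable section
namespace Vale.Agent.H177
open Vale.Agent.P366.Stmt Vale.Agent.P366.T2 Vale.Agent.T4
open Vale.Agent.P366 (sphI sphM av norm_smul_sph integrable_sph sphI_congr sphI_continuousOn
  cont_smul_sph1)

variable {n : ℕ}

section

variable {G g K : Field n} {B : Bg n}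

/-- the gradient of the ratio -/
lemma pd_ratio (h : Lapse G g B.R) (hF : B.Fits0 G) (hK : ∀ i j, Smooth (fun x => K x i j))
    {x : E n} (hx : B.R < len x) (hlt : |kpf G g K x| < B.H (len x)) (k : Fin n) :
    pd k (sphereRatio g K) x = (B.H (len x))⁻¹ * pd k (kpf G g K) x -
      kpf G g K x * deriv B.H (len x) / B.H (len x) ^ 2 * nx k x := by
  have hx0 := h.ne_zero hx.le
  have hH : 0 < B.H (len x) := (abs_nonneg _).trans_lt hlt
  have hHd := (B.H_diff _ hx.le).hasDerivAt
  have h2 : HasDerivAt (fun r => (B.H r)⁻¹) (-deriv B.H (len x) / B.H (len x) ^ 2) (len x) :=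
    hHd.inv hH.ne'
  have h3 := (HP.of_diff (k := k) (diff_kpf92 h hK hx.le)).mul (HP.radial hx0 h2 k)
  have hev : sphereRatio g K =ᶠ[𝓝 x] fun y => kpf G g K y * (B.H (len y))⁻¹ := by
    filter_upwards [(isOpen_out B.R).mem_nhds hx] with y hy
    rw [sphereRatio_eq92 h hF (le_of_lt hy), div_eq_mul_inv]
  rw [(h3.congr hev).pd]
  unfold nx
  field_simp
  ring

lemma Sm_lin (h : Lapse G g B.R) {x : E n} (hx : B.R ≤ len x) (v w : Fin n → ℝ) (c d : ℝ) :
    ∑ k, ∑ l, Sm G k l x * v k * (c * w l - d * nx l x) =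
      c * ∑ k, ∑ l, Sm G k l x * v k * w l := by
  have e : ∀ k l, Sm G k l x * v k * (c * w l - d * nx l x) =
      c * (Sm G k l x * v k * w l) - d * v k * (Sm G k l x * nx l x) := fun k l => by ring
  simp only [e, Finset.sum_sub_distrib, ← Finset.mul_sum, h.Sm_nx hx, mul_zero,
    Finset.sum_const_zero, sub_zero]

lemma Sm_comm (h : Lapse G g B.R) {x : E n} (hx : B.R ≤ len x) (v w : Fin n → ℝ) :
    ∑ k, ∑ l, Sm G k l x * v k * w l = ∑ k, ∑ l, Sm G k l x * w k * v l := by
  rw [Finset.sum_comm]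
  refine Finset.sum_congr rfl fun k _ => Finset.sum_congr rfl fun l _ => ?_
  rw [h.Sm_symm hx l k]
  ring

lemma tors_eq_sum (h : Lapse G g B.R) {x : E n} (hx : B.R ≤ len x) :
    ∑ k, ∑ l, Sm G k l x * bf g K k x * pd l (kpf G g K) x = tors G g K x := by
  unfold tors S2
  rw [Finset.sum_comm]
  refine Finset.sum_congr rfl fun k _ => Finset.sum_congr rfl fun l _ => ?_
  rw [h.Sm_symm hx l k]; ring

/-- the torsion term with respect to the mean curvature vector -/
lemma twistTerm_eq (h : Lapse G g B.R) (hF : B.Fits0 G) (hK : ∀ i j, Smooth (fun x => K x i j))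
    (hKs : ∀ x, B.R ≤ len x → ∀ i j, K x i j = K x j i)
    {x : E n} (hx : B.R < len x) (hlt : |kpf G g K x| < B.H (len x)) :
    twistTerm g K x = -((B.H (len x))⁻¹ * Tz B G g K (len x) x) := by
  unfold twistTerm
  rw [twist_dot h hF hK hKs hx hlt]
  simp only [pd_ratio h hF hK hx hlt]
  rw [Sm_lin h hx.le, Sm_lin h hx.le, tors_eq_sum h hx.le]
  unfold Tz S2
  ring

/-- the compensating terms with respect to the mean curvature vector -/
lemma twistSlack_eq (h : Lapse G g B.R) (hF : B.Fits0 G) (hK : ∀ i j, Smooth (fun x => K x i j))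
    (hKs : ∀ x, B.R ≤ len x → ∀ i j, K x i j = K x j i)
    {x : E n} (hx : B.R < len x) (hlt : |kpf G g K x| < B.H (len x)) :
    twistSlack g K x = (2 * B.H (len x))⁻¹ *
      (slkZ B G g K x - 2 * Tz B G g K (len x) x - 2 * tors G g K x) := by
  have hH : 0 < B.H (len x) := (abs_nonneg _).trans_lt hlt
  have hw : 0 < B.H (len x) ^ 2 - kpf G g K x ^ 2 := by
    have : kpf G g K x ^ 2 < B.H (len x) ^ 2 := by
      rw [← sq_abs (kpf G g K x)]
      exact pow_lt_pow_left₀ hlt (abs_nonneg _) two_ne_zero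
    linarith
  have h1 : sphereShift g K x = S2 G (bf g K) (bf g K) x := by
    have e : sphereShift g K x = sphereDot g (fun k => sphereRow g K k x)
        (fun k => sphereRow g K k x) x := rfl
    rw [e, sphereDot_eq h hx.le]
    simp only [sphereRow_eq h hKs hx.le]
    rfl
  have h2 := slack_accel_eq h hF hKs hx.le hH
  have h3 : ∀ v : Fin n → ℝ, ∑ k, ∑ l, Sm G k l x * v k * sphereTwist g K l x =
      ∑ k, ∑ l, Sm G k l x * bf g K k x * v l -
        B.H (len x) / (B.H (len x) ^ 2 - kpf G g K x ^ 2) *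
          ∑ k, ∑ l, Sm G k l x * pd k (kpf G g K) x * v l := by
    intro v
    rw [Sm_comm h hx.le, ← twist_dot h hF hK hKs hx hlt, sphereDot_eq h hx.le]
  have h4 : sphereDot g (fun k => sphereTwist g K k x) (fun l => sphereTwist g K l x) x =
      S2 G (bf g K) (bf g K) x -
        2 * (B.H (len x) / (B.H (len x) ^ 2 - kpf G g K x ^ 2)) * tors G g K x +
        (B.H (len x) / (B.H (len x) ^ 2 - kpf G g K x ^ 2)) ^ 2 *
          S2 G (fun k y => pd k (kpf G g K) y) (fun k y => pd k (kpf G g K) y) x := by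
    rw [twist_dot h hF hK hKs hx hlt, h3, h3, tors_eq_sum h hx.le,
      Sm_comm h hx.le (fun k => pd k (kpf G g K) x) (fun k => bf g K k x), tors_eq_sum h hx.le]
    unfold S2
    ring
  have h5 : sphereSlack g K x = mu g K x -
      sphereRatio g K x * (∑ i, mom g K i x * nrm g len i x) +
      (1 - sphereRatio g K x ^ 2) * sphereShift g K x := rfl
  have h6 : twistSlack g K x = (sphereSlack g K x + sphereAccel g K x) +
      (1 - sphereRatio g K x ^ 2) *
      (sphereDot g (fun k => sphereTwist g K k x) (fun l => sphereTwist g K l x) x -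
        sphereShift g K x) := by
    rw [h5]
    unfold twistSlack
    ring
  rw [h6, h2, h4, h1, sphereRatio_eq92 h hF hx.le]
  unfold Tz
  field_simp
  ring

/-- the two conditions -/
theorem twist_ints [Nontrivial (E n)] (h : Lapse G g B.R) (hF : B.FitsW G)
    (hK : ∀ i j, Smooth (fun x => K x i j))
    (hKs : ∀ x, B.R ≤ len x → ∀ i j, K x i j = K x j i) {r : ℝ} (hr : B.R < r)
    (hHp : 0 < B.H r) (hlt : ∀ x, len x = r → |kpf G g K x| < B.H r) {θ : ℝ}
    (hT : sph (vol n) r (twistTerm g K) ≤ θ * sph (vol n) r (twistSlack g K)) :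
    -(2 * sphI (Tz B G g K r) r) ≤ θ * sphI (fun x => slkZ B G g K x - 2 * Tz B G g K r x -
      2 * tors G g K x) r := by
  have h0 : 0 < r := B.hR.trans hr
  have h1 : sphI (twistTerm g K) r = -((B.H r)⁻¹) * sphI (Tz B G g K r) r := by
    rw [sphI_congr (v := fun x => -((B.H r)⁻¹) * Tz B G g K r x) h0.le fun x hx => ?_]
    · unfold sphI
      exact integral_const_mul _ _
    · have hl : len x = r := hx
      rw [twistTerm_eq h hF.toFits0 hK hKs (by rw [hl]; exact hr) (by rw [hl]; exact hlt x hl), hl]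
      ring
  have h2 : sphI (twistSlack g K) r = (2 * B.H r)⁻¹ * sphI (fun x => slkZ B G g K x -
      2 * Tz B G g K r x - 2 * tors G g K x) r := by
    rw [sphI_congr (v := fun x => (2 * B.H r)⁻¹ * (slkZ B G g K x -
      2 * Tz B G g K r x - 2 * tors G g K x)) h0.le fun x hx => ?_]
    · unfold sphI
      exact integral_const_mul _ _
    · have hl : len x = r := hx
      rw [twistSlack_eq h hF.toFits0 hK hKs (by rw [hl]; exact hr) (by rw [hl]; exact hlt x hl),
        hl]
  rw [sph_eq_sphI, sph_eq_sphI, h1, h2] at hT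
  have h5 := mul_le_mul_of_nonneg_left hT (by positivity : (0 : ℝ) ≤ 2 * B.H r)
  have e1 : 2 * B.H r * (-((B.H r)⁻¹) * sphI (Tz B G g K r) r) =
      -(2 * sphI (Tz B G g K r) r) := by
    field_simp
  have e2 : ∀ I : ℝ, 2 * B.H r * (θ * ((2 * B.H r)⁻¹ * I)) = θ * I := by
    intro I
    field_simp
  rw [e1, e2] at h5
  exact h5

end

end Vale.Agent.H177
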