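import Vale.Agent.P366.H177.Alpha

/-! Torsion bounds with respect to the mean curvature vector: the averaged inequality and its
equality case. -/

open MeasureTheory Metric Filter Topology Set
open scoped ContDiff ENNReal Matrix

noncomputable section
namespace Vale.Agent.H177
open Vale.Agent.P366.Stmt Vale.Agent.P366.T2 Vale.Agent.T4
open Vale.Agent.P366 (sphI sphM av norm_smul_sph integrable_sph sphI_congr sphI_continuousOn
  cont_smul_sph1)

variable {n : ℕ}

section

variable {G g K : Field n} {B : Bg n}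

lemma Tz_cont [Nontrivial (E n)] (h : Lapse G g B.R)
    (hK : ∀ i j, Smooth (fun x => K x i j)) {r : ℝ} (hr : B.R < r)
    (hlt : ∀ x, len x = r → |kpf G g K x| < B.H r) :
    Continuous (fun θ : sphere (0 : E n) 1 => Tz B G g K r (r • (θ : E n))) := by
  have h0 : 0 < r := B.hR.trans hr
  have hxr : ∀ x : E n, ‖x‖ = r → len x = r ∧ B.R < len x := fun x hx => by
    have : len x = r := hx
    exact ⟨this, by rw [this]; exact hr⟩
  have hw : ∀ x : E n, ‖x‖ = r → 0 < B.H r ^ 2 - kpf G g K x ^ 2 := by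
    intro x hx
    have : kpf G g K x ^ 2 < B.H r ^ 2 := by
      rw [← sq_abs (kpf G g K x)]
      exact pow_lt_pow_left₀ (hlt x (hxr x hx).1) (abs_nonneg _) two_ne_zero
    linarith
  have cS2 : ContinuousOn (S2 G (fun k y => pd k (kpf G g K) y) (fun k y => pd k (kpf G g K) y))
      {x : E n | B.R < ‖x‖} := by
    intro x hx
    have hx' : B.R < len x := hx
    refine ContinuousAt.continuousWithinAt ?_
    have h1 : ContDiffAt ℝ ∞ (kpf G g K) x := kfun_contDiffAt h hK hx'
    show ContinuousAt (fun x => ∑ k, ∑ l, Sm G k l x * pd k (kpf G g K) x * pd l (kpf G g K) x) x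
    exact (ContDiffAt.sum fun k _ => ContDiffAt.sum fun l _ =>
      ((h.contDiffAt_Sm hx' k l).mul (contDiffAt_pd h1 k)).mul
        (contDiffAt_pd h1 l)).continuousAt
  have ck : ContinuousOn (kpf G g K) {x : E n | B.R < ‖x‖} := fun x hx =>
    (kfun_contDiffAt h hK (x := x) hx).continuousAt.continuousWithinAt
  rw [continuous_iff_continuousAt]
  intro θ
  have hx : ‖r • (θ : E n)‖ = r := norm_smul_sph h0.le θ
  have hmem : {x : E n | B.R < ‖x‖} ∈ 𝓝 (r • (θ : E n)) :=
    (isOpen_out B.R).mem_nhds (by show B.R < ‖r • (θ : E n)‖; rw [hx]; exact hr)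
  have h2 : ContinuousAt (Tz B G g K r) (r • (θ : E n)) :=
    ((contOn_tors h hK).continuousAt hmem).sub ((continuousAt_const.div
      (continuousAt_const.sub ((ck.continuousAt hmem).pow 2)) (hw _ hx).ne').mul
      (cS2.continuousAt hmem))
  exact ContinuousAt.comp (f := fun θ : sphere (0 : E n) 1 => r • (θ : E n)) h2
    (cont_smul_sph1 r).continuousAt


/-- the compensating terms with respect to the mean curvature vector, pointwise -/
lemma slkT_le (h : Lapse G g B.R) (hF : B.FitsW G) (hK : ∀ i j, Smooth (fun x => K x i j))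
    (hKs : ∀ x, B.R ≤ len x → ∀ i j, K x i j = K x j i) {r : ℝ} (hr : B.R < r)
    (hdec : ∀ x, B.R < len x → covNorm g (mom g K) x ≤ mu g K x)
    (hlt : ∀ x, len x = r → |kpf G g K x| < B.H r) {x : E n} (hx : ‖x‖ = r) :
    0 ≤ slkZ B G g K x - 2 * Tz B G g K r x - 2 * tors G g K x ∧
      slkZ B G g K x - 2 * Tz B G g K r x - 2 * tors G g K x ≤
        Fx B G g K r x - 2 * Tz B G g K r x - 2 * tors G g K x := by
  have hx1 : len x = r := hx
  have hxR : B.R < len x := by rw [hx1]; exact hr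
  have hHp : 0 < B.H r := (abs_nonneg _).trans_lt (hlt x hx1)
  have hl : |kpf G g K x| < B.H (len x) := by rw [hx1]; exact hlt _ hx1
  have hw : 0 < B.H r ^ 2 - kpf G g K x ^ 2 := by
    have : kpf G g K x ^ 2 < B.H r ^ 2 := by
      rw [← sq_abs (kpf G g K x)]
      exact pow_lt_pow_left₀ (hlt x hx1) (abs_nonneg _) two_ne_zero
    linarith
  obtain ⟨h1, -, h1'⟩ := slkZ_le (stA n) (stB n) h hF.toFits0 hK hKs hxR (hdec _ hxR) hl
  have hS : 0 ≤ S2 G (fun i y => 1 * bf g K i y +
        (-(B.H r / (B.H r ^ 2 - kpf G g K x ^ 2))) * pd i (kpf G g K) y)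
      (fun i y => 1 * bf g K i y +
        (-(B.H r / (B.H r ^ 2 - kpf G g K x ^ 2))) * pd i (kpf G g K) y) x :=
    h.S2_nonneg hxR.le _
  rw [S2_lin h hxR.le (bf g K) (fun k y => pd k (kpf G g K) y)] at hS
  have e1 : S2 G (bf g K) (fun k y => pd k (kpf G g K) y) x = tors G g K x := by
    unfold tors S2
    rw [Finset.sum_comm]
    refine Finset.sum_congr rfl fun k _ => Finset.sum_congr rfl fun l _ => ?_
    rw [h.Sm_symm hxR.le l k]; ring
  rw [e1] at hS
  have h2 := mul_nonneg (mul_nonneg (by positivity : (0 : ℝ) ≤ 2 / B.H r) hw.le) hS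
  have e2 : 2 / B.H r * (B.H r ^ 2 - kpf G g K x ^ 2) *
      (1 ^ 2 * S2 G (bf g K) (bf g K) x +
        2 * 1 * -(B.H r / (B.H r ^ 2 - kpf G g K x ^ 2)) * tors G g K x +
        (-(B.H r / (B.H r ^ 2 - kpf G g K x ^ 2))) ^ 2 *
          S2 G (fun k y => pd k (kpf G g K) y) (fun k y => pd k (kpf G g K) y) x) =
      2 / B.H r * (B.H r ^ 2 - kpf G g K x ^ 2) * S2 G (bf g K) (bf g K) x -
        2 * Tz B G g K r x - 2 * tors G g K x := by
    unfold Tz
    set w := B.H r ^ 2 - kpf G g K x ^ 2 with hwd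
    field_simp
    ring
  rw [e2] at h2
  rw [hx1] at h1
  refine ⟨by linarith, ?_⟩
  rw [Fx_eq hHp hx1]
  have h3 := hF.hII x hxR
  have h4 := w_pos h hxR.le hl
  have h5 : 0 < B.H (len x) := by rw [hx1]; exact hHp
  have h6 : 0 ≤ (1 / rad g x * B.H (len x) ^ 2 - trT G K x ^ 2) / B.H (len x) *
      (ctr G (IIf G) (IIf G) x - B.II2 (len x)) :=
    mul_nonneg (div_nonneg h4.le h5.le) (by linarith)
  linarith

lemma cont_FT [Nontrivial (E n)] (h : Lapse G g B.R)
    (hK : ∀ i j, Smooth (fun x => K x i j)) {r : ℝ} (hr : B.R < r)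
    (hlt : ∀ x, len x = r → |kpf G g K x| < B.H r) :
    Continuous fun θ : sphere (0 : E n) 1 =>
      (fun x => Fx B G g K r x - 2 * Tz B G g K r x - 2 * tors G g K x) (r • (θ : E n)) :=
  ((cont_sph h.hR.le hr (sphI_Fx (B := B) h hK hr).1).sub
    (continuous_const.mul (Tz_cont h hK hr hlt))).sub
    (continuous_const.mul (cont_sph h.hR.le hr (contOn_tors h hK)))

/-- the compensating terms with respect to the mean curvature vector, integrated -/
lemma slkT_ints [Nontrivial (E n)] (h : Lapse G g B.R) (hF : B.FitsW G)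
    (hK : ∀ i j, Smooth (fun x => K x i j))
    (hKs : ∀ x, B.R ≤ len x → ∀ i j, K x i j = K x j i) {r : ℝ} (hr : B.R < r)
    (hdec : ∀ x, B.R < len x → covNorm g (mom g K) x ≤ mu g K x)
    (hlt : ∀ x, len x = r → |kpf G g K x| < B.H r) :
    0 ≤ sphI (fun x => slkZ B G g K x - 2 * Tz B G g K r x - 2 * tors G g K x) r ∧
      sphI (fun x => slkZ B G g K x - 2 * Tz B G g K r x - 2 * tors G g K x) r ≤
        sphI (fun x => Fx B G g K r x - 2 * Tz B G g K r x - 2 * tors G g K x) r := by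
  have h0 : 0 < r := B.hR.trans hr
  have hpt : ∀ θ : sphere (0 : E n) 1, _ := fun θ =>
    slkT_le h hF hK hKs hr hdec hlt (norm_smul_sph h0.le θ)
  refine ⟨integral_nonneg fun θ => (hpt θ).1, ?_⟩
  exact integral_mono_of_nonneg (Eventually.of_forall fun θ => (hpt θ).1)
    ((cont_FT h hK hr hlt).integrable_of_hasCompactSupport
      (HasCompactSupport.of_compactSpace _)) (Eventually.of_forall fun θ => (hpt θ).2)

lemma sphI_FT [Nontrivial (E n)] (h : Lapse G g B.R)
    (hK : ∀ i j, Smooth (fun x => K x i j)) {r : ℝ} (hr : B.R < r)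
    (hlt : ∀ x, len x = r → |kpf G g K x| < B.H r) :
    sphI (fun x => Fx B G g K r x - 2 * Tz B G g K r x - 2 * tors G g K x) r =
      sphI (Fx B G g K r) r - 2 * sphI (Tz B G g K r) r - 2 * sphI (tors G g K) r := by
  have hint : ∀ {f : E n → ℝ}, Continuous (fun θ : sphere (0 : E n) 1 => f (r • (θ : E n))) →
      Integrable (fun θ : sphere (0 : E n) 1 => f (r • (θ : E n))) (sphM n) := fun hc =>
    hc.integrable_of_hasCompactSupport (HasCompactSupport.of_compactSpace _)
  have cF := cont_sph h.hR.le hr (sphI_Fx (B := B) (K := K) h hK hr).1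
  have hTc := Tz_cont h hK hr hlt
  have ct := cont_sph h.hR.le hr (contOn_tors h hK)
  have i1 : ∫ θ : sphere (0 : E n) 1, ((Fx B G g K r (r • (θ : E n)) -
      2 * Tz B G g K r (r • (θ : E n))) - 2 * tors G g K (r • (θ : E n))) ∂(sphM n) =
      (∫ θ : sphere (0 : E n) 1, (Fx B G g K r (r • (θ : E n)) -
      2 * Tz B G g K r (r • (θ : E n))) ∂(sphM n)) -
      ∫ θ : sphere (0 : E n) 1, 2 * tors G g K (r • (θ : E n)) ∂(sphM n) :=
    integral_sub ((hint cF).sub ((hint hTc).const_mul 2)) ((hint ct).const_mul 2)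
  have i2 : ∫ θ : sphere (0 : E n) 1, (Fx B G g K r (r • (θ : E n)) -
      2 * Tz B G g K r (r • (θ : E n))) ∂(sphM n) =
      (∫ θ : sphere (0 : E n) 1, Fx B G g K r (r • (θ : E n)) ∂(sphM n)) -
      ∫ θ : sphere (0 : E n) 1, 2 * Tz B G g K r (r • (θ : E n)) ∂(sphM n) :=
    integral_sub (hint cF) ((hint hTc).const_mul 2)
  rw [i2, integral_const_mul, integral_const_mul] at i1
  exact i1

/-- the bound of the torsion term -/
theorem torZ_of_twist [Nontrivial (E n)] (h : Lapse G g B.R) (hF : B.FitsW G)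
    (hK : ∀ i j, Smooth (fun x => K x i j))
    (hKs : ∀ x, B.R ≤ len x → ∀ i j, K x i j = K x j i) {r : ℝ} (hr : B.R < r)
    (hdec : ∀ x, B.R < len x → covNorm g (mom g K) x ≤ mu g K x)
    (hHp : 0 < B.H r) (hlt : ∀ x, len x = r → |kpf G g K x| < B.H r) {θ : ℝ} (hθ : θ ≤ 1)
    (hT : sph (vol n) r (twistTerm g K) ≤ θ * sph (vol n) r (twistSlack g K)) :
    TorZ B G g K r := by
  have h1 := twist_ints h hF hK hKs hr hHp hlt hT
  obtain ⟨hs0, hs1⟩ := slkT_ints h hF hK hKs hr hdec hlt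
  rw [sphI_FT h hK hr hlt] at hs1
  have h2 := mul_le_mul_of_nonneg_right hθ hs0
  unfold TorZ
  linarith

/-- **Equality in the averaged inequality, torsion bounded with respect to the mean curvature
vector.** -/
theorem avg_eqT [Nontrivial (E n)] (h : Lapse G g B.R) (hF : B.FitsW G)
    (hK : ∀ i j, Smooth (fun x => K x i j))
    (hKs : ∀ x, B.R ≤ len x → ∀ i j, K x i j = K x j i) {r : ℝ} (hr : B.R < r)
    (hdec : ∀ x, B.R < len x → covNorm g (mom g K) x ≤ mu g K x)
    (hlt : ∀ x, len x = r → |kpf G g K x| < B.H r) {θ : ℝ} (hθ : θ < 1)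
    (hT : sph (vol n) r (twistTerm g K) ≤ θ * sph (vol n) r (twistSlack g K))
    (heq : B.H r * B.Rh r - B.H r * Yav B G g K r - Yav B G g K r / B.H r * B.II2 r ≤
      Yav' B G g K r) : ∀ x : E n, len x = r → PtEqZ B G g K x := by
  intro x₀ hx₀
  have h0 : 0 < r := B.hR.trans hr
  have hω : 0 < Vale.Agent.P366.omega n := Vale.Agent.P366.omega_pos'
  have hHp : 0 < B.H r := (abs_nonneg _).trans_lt (hlt x₀ hx₀)
  obtain ⟨hFc, hI⟩ := sphI_Fx (B := B) h hK hr
  have hTc := Tz_cont h hK hr hlt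
  have hTw := twist_ints h hF hK hKs hr hHp hlt hT
  obtain ⟨hs0, hs1⟩ := slkT_ints h hF hK hKs hr hdec hlt
  have e6 : sphI (tors G g K) r = Vale.Agent.P366.omega n * av (tors G g K) r := by
    unfold av
    field_simp
  have h3 : B.H r * B.II2 r - B.II2 r / B.H r * B.H r ^ 2 = 0 := by field_simp; ring
  have h4 : Yav B G g K r / B.H r * B.II2 r = B.II2 r / B.H r * Yav B G g K r := by ring
  rw [h3, zero_mul, add_zero] at hI
  have h2 : B.H r * av (leafScal G) r ≤ B.H r * B.Rh r :=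
    mul_le_mul_of_nonneg_left (hF.hRh r hr) hHp.le
  have hI' : sphI (Fx B G g K r) r - 2 * sphI (tors G g K) r = Vale.Agent.P366.omega n *
      (B.H r * av (leafScal G) r - (Yav' B G g K r +
        B.H r * Yav B G g K r + B.II2 r / B.H r * (Yav B G g K r))) := by
    rw [hI, e6]; ring
  rw [h4] at heq
  have hle : sphI (Fx B G g K r) r - 2 * sphI (tors G g K) r ≤ 0 := by
    rw [hI']
    exact mul_nonpos_of_nonneg_of_nonpos hω.le (by linarith)
  have hw : ∀ x : E n, ‖x‖ = r → 0 < B.H r ^ 2 - kpf G g K x ^ 2 := by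
    intro x hx
    have : kpf G g K x ^ 2 < B.H r ^ 2 := by
      rw [← sq_abs (kpf G g K x)]
      exact pow_lt_pow_left₀ (hlt x hx) (abs_nonneg _) two_ne_zero
    linarith
  have hxR : ∀ x : E n, ‖x‖ = r → B.R < len x := fun x hx => by
    have : len x = r := hx
    rw [this]; exact hr
  have cF : Continuous fun θ : sphere (0 : E n) 1 => Fx B G g K r (r • (θ : E n)) :=
    cont_sph h.hR.le hr hFc
  have ct : Continuous fun θ : sphere (0 : E n) 1 => tors G g K (r • (θ : E n)) :=
    cont_sph h.hR.le hr (contOn_tors h hK)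
  -- the two nonnegative parts
  have hA : ∀ x : E n, ‖x‖ = r → 2 / B.H r * (B.H r ^ 2 - kpf G g K x ^ 2) *
      S2 G (bf g K) (bf g K) x ≤ Fx B G g K r x := by
    intro x hx
    have hx1 : len x = r := hx
    have hl : |kpf G g K x| < B.H (len x) := by rw [hx1]; exact hlt _ hx1
    obtain ⟨h1, -, h1'⟩ := slkZ_le (stA n) (stB n) h hF.toFits0 hK hKs (hxR x hx)
      (hdec _ (hxR x hx)) hl
    rw [Fx_eq hHp hx1]
    have h2 := hF.hII x (hxR x hx)
    have h3 := w_pos h (hxR x hx).le hl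
    have h4 : 0 < B.H (len x) := by rw [hx1]; exact hHp
    have h5 : 0 ≤ (1 / rad g x * B.H (len x) ^ 2 - trT G K x ^ 2) / B.H (len x) *
        (ctr G (IIf G) (IIf G) x - B.II2 (len x)) :=
      mul_nonneg (div_nonneg h3.le h4.le) (by linarith)
    rw [hx1] at h1
    linarith
  have hB : ∀ x : E n, ‖x‖ = r → 2 / B.H r * (B.H r ^ 2 - kpf G g K x ^ 2) *
      S2 G (fun i y => 1 * bf g K i y +
        (-(B.H r / (B.H r ^ 2 - kpf G g K x ^ 2))) * pd i (kpf G g K) y)
      (fun i y => 1 * bf g K i y +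
        (-(B.H r / (B.H r ^ 2 - kpf G g K x ^ 2))) * pd i (kpf G g K) y) x =
      2 / B.H r * (B.H r ^ 2 - kpf G g K x ^ 2) * S2 G (bf g K) (bf g K) x -
        2 * Tz B G g K r x - 2 * tors G g K x := by
    intro x hx
    have hw' := hw x hx
    rw [S2_lin h (hxR x hx).le (bf g K) (fun k y => pd k (kpf G g K) y)]
    have e1 : S2 G (bf g K) (fun k y => pd k (kpf G g K) y) x = tors G g K x := by
      unfold tors S2
      rw [Finset.sum_comm]
      refine Finset.sum_congr rfl fun k _ => Finset.sum_congr rfl fun l _ => ?_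
      rw [h.Sm_symm (hxR x hx).le l k]; ring
    rw [e1]
    unfold Tz
    set w := B.H r ^ 2 - kpf G g K x ^ 2 with hwd
    field_simp
    ring
  have hB0 : ∀ x : E n, ‖x‖ = r → 0 ≤ S2 G (fun i y => 1 * bf g K i y +
        (-(B.H r / (B.H r ^ 2 - kpf G g K x ^ 2))) * pd i (kpf G g K) y)
      (fun i y => 1 * bf g K i y +
        (-(B.H r / (B.H r ^ 2 - kpf G g K x ^ 2))) * pd i (kpf G g K) y) x := fun x hx =>
    h.S2_nonneg (hxR x hx).le _
  have hnn : ∀ x : E n, ‖x‖ = r →
      0 ≤ Fx B G g K r x - 2 * Tz B G g K r x - 2 * tors G g K x := by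
    intro x hx
    have h1 := hA x hx
    have h2 := mul_nonneg (mul_nonneg (by positivity : (0 : ℝ) ≤ 2 / B.H r) (hw x hx).le)
      (hB0 x hx)
    rw [hB x hx] at h2
    linarith
  have hcc : Continuous fun θ : sphere (0 : E n) 1 =>
      (fun x => Fx B G g K r x - 2 * Tz B G g K r x - 2 * tors G g K x) (r • (θ : E n)) :=
    (cF.sub (continuous_const.mul hTc)).sub (continuous_const.mul ct)
  have hint : ∀ {f : E n → ℝ}, Continuous (fun θ : sphere (0 : E n) 1 => f (r • (θ : E n))) →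
      Integrable (fun θ : sphere (0 : E n) 1 => f (r • (θ : E n))) (sphM n) := fun hc =>
    hc.integrable_of_hasCompactSupport (HasCompactSupport.of_compactSpace _)
  have hI0 : sphI (fun x => Fx B G g K r x - 2 * Tz B G g K r x - 2 * tors G g K x) r ≤ 0 := by
    have h5 : sphI (fun x => Fx B G g K r x - 2 * Tz B G g K r x - 2 * tors G g K x) r =
        sphI (Fx B G g K r) r - 2 * sphI (Tz B G g K r) r - 2 * sphI (tors G g K) r := by
      have i1 : ∫ θ : sphere (0 : E n) 1, ((Fx B G g K r (r • (θ : E n)) -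
          2 * Tz B G g K r (r • (θ : E n))) - 2 * tors G g K (r • (θ : E n))) ∂(sphM n) =
          (∫ θ : sphere (0 : E n) 1, (Fx B G g K r (r • (θ : E n)) -
          2 * Tz B G g K r (r • (θ : E n))) ∂(sphM n)) -
          ∫ θ : sphere (0 : E n) 1, 2 * tors G g K (r • (θ : E n)) ∂(sphM n) :=
        integral_sub ((hint cF).sub ((hint hTc).const_mul 2)) ((hint ct).const_mul 2)
      have i2 : ∫ θ : sphere (0 : E n) 1, (Fx B G g K r (r • (θ : E n)) -
          2 * Tz B G g K r (r • (θ : E n))) ∂(sphM n) =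
          (∫ θ : sphere (0 : E n) 1, Fx B G g K r (r • (θ : E n)) ∂(sphM n)) -
          ∫ θ : sphere (0 : E n) 1, 2 * Tz B G g K r (r • (θ : E n)) ∂(sphM n) :=
        integral_sub (hint cF) ((hint hTc).const_mul 2)
      rw [i2, integral_const_mul, integral_const_mul] at i1
      exact i1
    have h6 : 0 ≤ sphI (fun x => Fx B G g K r x - 2 * Tz B G g K r x - 2 * tors G g K x) r :=
      hs0.trans hs1
    rcases le_or_gt θ 0 with h7 | h7
    · have h8 := mul_nonpos_of_nonpos_of_nonneg h7 hs0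
      linarith
    · have h8 := mul_le_mul_of_nonneg_left hs1 h7.le
      have h9 : (1 - θ) * sphI (fun x => Fx B G g K r x - 2 * Tz B G g K r x -
          2 * tors G g K x) r ≤ 0 := by linarith
      by_contra hcon
      push Not at hcon
      have := mul_pos (sub_pos.2 hθ) hcon
      linarith
  have hxr : ‖x₀‖ = r := hx₀
  have hz := eq_zero_of_sphI' h0 hcc hnn hI0 hxr
  have h5 := hA x₀ hxr
  have h6 := mul_nonneg (mul_nonneg (by positivity : (0 : ℝ) ≤ 2 / B.H r) (hw x₀ hxr).le)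
    (hB0 x₀ hxr)
  have h7 := hB x₀ hxr
  have h8 := Fx_eq (G := G) (g := g) (K := K) (B := B) hHp hx₀
  rw [h8] at h5 hz
  have hS : S2 G (fun i y => 1 * bf g K i y +
        (-(B.H r / (B.H r ^ 2 - kpf G g K x₀ ^ 2))) * pd i (kpf G g K) y)
      (fun i y => 1 * bf g K i y +
        (-(B.H r / (B.H r ^ 2 - kpf G g K x₀ ^ 2))) * pd i (kpf G g K) y) x₀ ≤ 0 := by
    by_contra hcon
    push Not at hcon
    have := mul_pos (mul_pos (by positivity : (0 : ℝ) < 2 / B.H r) (hw x₀ hxr)) hcon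
    linarith
  refine pointwise_eqZ (stA n) (stB n) h hF.toFits0 hK hKs (hxR x₀ hxr) (hdec x₀ (hxR x₀ hxr))
    (by rw [hx₀]; exact hlt x₀ hx₀) (hF.hII x₀ (hxR x₀ hxr)) ?_ (by rw [hx₀]; exact hS)
  rw [hx₀] at hz h5 ⊢
  linarith

end

end Vale.Agent.H177
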