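import Vale.Agent.P366.H177.Mono

/-! Time flat centred spheres: the condition on `K` in terms of the problem. -/

open MeasureTheory Metric Filter Topology Set
open scoped ContDiff ENNReal Matrix

noncomputable section
namespace Vale.Agent.H177
open Vale.Agent.P366.Stmt Vale.Agent.P366.T2 Vale.Agent.T4
open Vale.Agent.P366 (sphI sphM av norm_smul_sph integrable_sph sphI_congr sphI_continuousOn
  cont_smul_sph1)

variable {n : ℕ}

lemma hp_comp {F : ℝ → ℝ} {F' : ℝ} {k : Fin n} {f : E n → ℝ} {d : ℝ} {x : E n}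
    (hF : HasDerivAt F F' (f x)) (hf : HP k f d x) : HP k (fun y => F (f y)) (F' * d) x := by
  have h1 : HasDerivAt (fun t : ℝ => f (x + t • EuclideanSpace.single k (1 : ℝ))) d 0 := hf
  have h2 : HasDerivAt F F' ((fun t : ℝ => f (x + t • EuclideanSpace.single k (1 : ℝ))) 0) := by
    simpa using hF
  exact h2.comp (0 : ℝ) h1

/-- the derivative of `artanh` -/
lemma hasDerivAt_artanh {t : ℝ} (ht : |t| < 1) :
    HasDerivAt (fun s : ℝ => Real.log ((1 + s) / (1 - s)) / 2) (1 / (1 - t ^ 2)) t := by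
  obtain ⟨h1, h2⟩ := abs_lt.1 ht
  have h3 : 0 < 1 + t := by linarith
  have h4 : 0 < 1 - t := by linarith
  have h5 : HasDerivAt (fun s : ℝ => (1 + s) / (1 - s)) ((1 * (1 - t) - (1 + t) * (-1)) / (1 - t) ^ 2)
      t := ((hasDerivAt_id t).const_add 1).div ((hasDerivAt_id t).const_sub 1) h4.ne'
  refine ((h5.log (div_pos h3 h4).ne').div_const 2).congr_deriv ?_
  have h6 : 1 - t ^ 2 = (1 - t) * (1 + t) := by ring
  rw [h6]
  field_simp
  ring

section

variable {G g K : Field n} {B : Bg n}

lemma inv_eq (h : Lapse G g B.R) {x : E n} (hx : B.R ≤ len x) (k l : Fin n) :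
    up g k l x - nrm g len k x * nrm g len l x = Sm G k l x := by
  have hp := h.ppos x hx
  rw [h.nrm_len hx, h.nrm_len hx, h.up_g hx]
  have : nx k x / √(rad g x) * (nx l x / √(rad g x)) = nx k x * nx l x / rad g x := by
    rw [div_mul_div_comm, ← sq, Real.sq_sqrt hp.le]
  rw [this]
  ring

lemma sphereDot_eq (h : Lapse G g B.R) {x : E n} (hx : B.R ≤ len x) (a b : Fin n → ℝ) :
    sphereDot g a b x = ∑ k, ∑ l, Sm G k l x * a k * b l := by
  unfold sphereDot
  simp only [inv_eq h hx]

lemma sphereRow_eq (h : Lapse G g B.R) (hKs : ∀ x, B.R ≤ len x → ∀ i j, K x i j = K x j i)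
    {x : E n} (hx : B.R ≤ len x) (k : Fin n) : sphereRow g K k x = bf g K k x := by
  unfold sphereRow bf row
  rw [Finset.mul_sum]
  refine Finset.sum_congr rfl fun i _ => ?_
  rw [h.nrm_len hx, hKs x hx i k, Real.sqrt_div zero_le_one, Real.sqrt_one]
  ring

/-- the rapidity on an untrapped sphere: its gradient -/
lemma pd_rapidity (h : Lapse G g B.R) (hF : B.Fits0 G) (hK : ∀ i j, Smooth (fun x => K x i j))
    {x : E n} (hx : B.R < len x) (hlt : |kpf G g K x| < B.H (len x)) (k : Fin n) :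
    pd k (sphereRapidity g K) x = B.H (len x) / (B.H (len x) ^ 2 - kpf G g K x ^ 2) *
      pd k (kpf G g K) x - kpf G g K x * deriv B.H (len x) /
        (B.H (len x) ^ 2 - kpf G g K x ^ 2) * nx k x := by
  have hx0 := h.ne_zero hx.le
  have hH : 0 < B.H (len x) := (abs_nonneg _).trans_lt hlt
  have hHd := (B.H_diff _ hx.le).hasDerivAt
  have h2 : HasDerivAt (fun r => (B.H r)⁻¹) (-deriv B.H (len x) / B.H (len x) ^ 2) (len x) :=
    hHd.inv hH.ne'
  have h3 := (HP.of_diff (k := k) (diff_kpf92 h hK hx.le)).mul (HP.radial hx0 h2 k)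
  have h4 : |kpf G g K x * (B.H (len x))⁻¹| < 1 := by
    rw [← div_eq_mul_inv, abs_div, abs_of_pos hH, div_lt_one hH]
    exact hlt
  have h5 := hp_comp (f := fun y => kpf G g K y * (B.H (len y))⁻¹)
    (hasDerivAt_artanh h4) h3
  have hev : sphereRapidity g K =ᶠ[𝓝 x] fun y =>
      Real.log ((1 + kpf G g K y * (B.H (len y))⁻¹) /
        (1 - kpf G g K y * (B.H (len y))⁻¹)) / 2 := by
    filter_upwards [(isOpen_out B.R).mem_nhds hx] with y hy
    unfold sphereRapidity
    rw [sphereRatio_eq92 h hF (le_of_lt hy), div_eq_mul_inv (kpf G g K y)]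
  rw [(h5.congr hev).pd]
  have h7 : 0 < B.H (len x) ^ 2 - kpf G g K x ^ 2 := by
    have : kpf G g K x ^ 2 < B.H (len x) ^ 2 := by
      rw [← sq_abs (kpf G g K x)]
      exact pow_lt_pow_left₀ hlt (abs_nonneg _) two_ne_zero
    linarith
  have h8 : 1 - (kpf G g K x * (B.H (len x))⁻¹) ^ 2 =
      (B.H (len x) ^ 2 - kpf G g K x ^ 2) / B.H (len x) ^ 2 := by
    field_simp
  rw [h8]
  unfold nx
  field_simp
  ring

/-- the slack of the problem -/
lemma slack_accel_eq (h : Lapse G g B.R) (hF : B.Fits0 G)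
    (hKs : ∀ x, B.R ≤ len x → ∀ i j, K x i j = K x j i)
    {x : E n} (hx : B.R ≤ len x) (hH : 0 < B.H (len x)) :
    sphereSlack g K x + sphereAccel g K x = (2 * B.H (len x))⁻¹ * slkZ B G g K x := by
  have e1 : (fun y : E n => Real.log (radial g y) / 2) = lf g := by
    funext y
    unfold lf
    rw [radial_eq]
  have e2 : sphereAccel g K x = S2 G (glf g) (glf g) x +
      2 * (kpf G g K x / B.H (len x)) * S2 G (glf g) (bf g K) x +
      (kpf G g K x / B.H (len x)) ^ 2 * S2 G (bf g K) (bf g K) x := by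
    have e3 : S2 G (bf g K) (glf g) x = S2 G (glf g) (bf g K) x := by
      unfold S2
      rw [Finset.sum_comm]
      refine Finset.sum_congr rfl fun k _ => Finset.sum_congr rfl fun l _ => ?_
      rw [h.Sm_symm hx l k]; ring
    have e4 : sphereAccel g K x = ∑ k, ∑ l, Sm G k l x *
        (glf g k x + kpf G g K x / B.H (len x) * bf g K k x) *
        (glf g l x + kpf G g K x / B.H (len x) * bf g K l x) := by
      unfold sphereAccel
      rw [sphereDot_eq h hx, e1]
      simp only [sphereRow_eq h hKs hx, sphereRatio_eq92 h hF hx]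
      rfl
    have e5 : ∑ k, ∑ l, Sm G k l x *
        (glf g k x + kpf G g K x / B.H (len x) * bf g K k x) *
        (glf g l x + kpf G g K x / B.H (len x) * bf g K l x) =
        S2 G (glf g) (glf g) x + kpf G g K x / B.H (len x) * S2 G (glf g) (bf g K) x +
        kpf G g K x / B.H (len x) * S2 G (bf g K) (glf g) x +
        (kpf G g K x / B.H (len x)) ^ 2 * S2 G (bf g K) (bf g K) x := by
      unfold S2
      simp only [Finset.mul_sum, ← Finset.sum_add_distrib]
      exact Finset.sum_congr rfl fun k _ => Finset.sum_congr rfl fun l _ => by ring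
    rw [e4, e5, e3]
    ring
  rw [sphereSlack_eq h hF hKs hx hH, e2]
  unfold slkZ
  field_simp

/-- the product of the torsion of an untrapped sphere and the gradient of a function -/
lemma twist_dot (h : Lapse G g B.R) (hF : B.Fits0 G) (hK : ∀ i j, Smooth (fun x => K x i j))
    (hKs : ∀ x, B.R ≤ len x → ∀ i j, K x i j = K x j i)
    {x : E n} (hx : B.R < len x) (hlt : |kpf G g K x| < B.H (len x)) (a : Fin n → ℝ) :
    sphereDot g (fun k => sphereTwist g K k x) a x =
      ∑ k, ∑ l, Sm G k l x * bf g K k x * a l -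
      B.H (len x) / (B.H (len x) ^ 2 - kpf G g K x ^ 2) *
        ∑ k, ∑ l, Sm G k l x * pd k (kpf G g K) x * a l := by
  rw [sphereDot_eq h hx.le]
  have e1 : ∀ k, sphereTwist g K k x = bf g K k x -
      (B.H (len x) / (B.H (len x) ^ 2 - kpf G g K x ^ 2) *
      pd k (kpf G g K) x - kpf G g K x * deriv B.H (len x) /
        (B.H (len x) ^ 2 - kpf G g K x ^ 2) * nx k x) := by
    intro k
    unfold sphereTwist
    rw [sphereRow_eq h hKs hx.le, pd_rapidity h hF hK hx hlt]
  generalize hc1 : B.H (len x) / (B.H (len x) ^ 2 - kpf G g K x ^ 2) = c1 at e1 ⊢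
  generalize hc2 : kpf G g K x * deriv B.H (len x) /
        (B.H (len x) ^ 2 - kpf G g K x ^ 2) = c2 at e1
  simp only [e1]
  have e2 : ∀ k l, Sm G k l x * (bf g K k x - (c1 * pd k (kpf G g K) x - c2 * nx k x)) * a l =
      Sm G k l x * bf g K k x * a l - c1 * (Sm G k l x * pd k (kpf G g K) x * a l) +
        c2 * a l * (nx k x * Sm G k l x) := by
    intro k l
    ring
  simp only [e2, Finset.sum_add_distrib, Finset.sum_sub_distrib]
  have e3 : ∑ k, ∑ l, c2 * a l * (nx k x * Sm G k l x) = 0 := by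
    rw [Finset.sum_comm]
    simp only [← Finset.mul_sum, h.nx_Sm hx.le, mul_zero, Finset.sum_const_zero]
  rw [e3, add_zero]
  simp only [Finset.mul_sum]

/-- A time flat untrapped sphere satisfies the bound of the torsion term. -/
theorem torZ_of_timeFlat [Nontrivial (E n)] (h : Lapse G g B.R) (hF : B.FitsW G)
    (hK : ∀ i j, Smooth (fun x => K x i j))
    (hKs : ∀ x, B.R ≤ len x → ∀ i j, K x i j = K x j i) {r : ℝ} (hr : B.R < r)
    (hdec : ∀ x, B.R < len x → covNorm g (mom g K) x ≤ mu g K x)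
    (hlt : ∀ x, len x = r → |kpf G g K x| < B.H r) (hT : TimeFlat g K r) :
    TorZ B G g K r := by
  have h0 : 0 < r := B.hR.trans hr
  have hxr : ∀ x : E n, ‖x‖ = r → len x = r ∧ B.R < len x := fun x hx => by
    have : len x = r := hx
    exact ⟨this, by rw [this]; exact hr⟩
  -- the difference of the torsion term and its square
  set T : E n → ℝ := fun x => tors G g K x - B.H r / (B.H r ^ 2 - kpf G g K x ^ 2) *
    S2 G (fun k y => pd k (kpf G g K) y) (fun k y => pd k (kpf G g K) y) x with hTd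
  have hw : ∀ x : E n, ‖x‖ = r → 0 < B.H r ^ 2 - kpf G g K x ^ 2 := by
    intro x hx
    have : kpf G g K x ^ 2 < B.H r ^ 2 := by
      rw [← sq_abs (kpf G g K x)]
      exact pow_lt_pow_left₀ (hlt x (hxr x hx).1) (abs_nonneg _) two_ne_zero
    linarith
  have hT0 : sphI T r = 0 := by
    have h1 := hT (kpf G g K) (fun x hx => kfun_contDiffAt h hK (by rw [hx]; exact hr))
    rw [sph_eq_sphI] at h1
    rw [← h1]
    refine sphI_congr h0.le fun x hx => ?_
    obtain ⟨hx1, hx2⟩ := hxr x hx
    have hl : |kpf G g K x| < B.H (len x) := by rw [hx1]; exact hlt x hx1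
    rw [twist_dot h hF.toFits0 hK hKs hx2 hl, hx1, hTd]
    have e1 : ∑ k, ∑ l, Sm G k l x * bf g K k x * pd l (kpf G g K) x = tors G g K x := by
      unfold tors S2
      rw [Finset.sum_comm]
      refine Finset.sum_congr rfl fun k _ => Finset.sum_congr rfl fun l _ => ?_
      rw [h.Sm_symm hx2.le l k]; ring
    rw [e1]
    rfl
  -- continuity
  have cS2 : ContinuousOn (S2 G (fun k y => pd k (kpf G g K) y) (fun k y => pd k (kpf G g K) y))
      {x : E n | B.R < ‖x‖} := by
    intro x hx
    have hx' : B.R < len x := hx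
    refine ContinuousAt.continuousWithinAt ?_
    have h1 : ContDiffAt ℝ ∞ (kpf G g K) x := kfun_contDiffAt h hK hx'
    show ContinuousAt (fun x => ∑ k, ∑ l, Sm G k l x * pd k (kpf G g K) x * pd l (kpf G g K) x) x
    exact (ContDiffAt.sum fun k _ => ContDiffAt.sum fun l _ =>
      ((h.contDiffAt_Sm hx' k l).mul (contDiffAt_pd h1 k)).mul
        (contDiffAt_pd h1 l)).continuousAt
  have ck : ContinuousOn (kpf G g K) {x : E n | B.R < ‖x‖} := fun x hx =>
    (kfun_contDiffAt h hK (x := x) hx).continuousAt.continuousWithinAt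
  have cT : Integrable (fun θ : sphere (0 : E n) 1 => T (r • (θ : E n))) (sphM n) := by
    have h1 : Continuous (fun θ : sphere (0 : E n) 1 => T (r • (θ : E n))) := by
      rw [continuous_iff_continuousAt]
      intro θ
      have hx : ‖r • (θ : E n)‖ = r := norm_smul_sph h0.le θ
      have hmem : {x : E n | B.R < ‖x‖} ∈ 𝓝 (r • (θ : E n)) :=
        (isOpen_out B.R).mem_nhds (by show B.R < ‖r • (θ : E n)‖; rw [hx]; exact hr)
      have h2 : ContinuousAt T (r • (θ : E n)) :=
        ((contOn_tors h hK).continuousAt hmem).sub ((continuousAt_const.div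
          (continuousAt_const.sub ((ck.continuousAt hmem).pow 2)) (hw _ hx).ne').mul
          (cS2.continuousAt hmem))
      exact ContinuousAt.comp (f := fun θ : sphere (0 : E n) 1 => r • (θ : E n)) h2
        (cont_smul_sph1 r).continuousAt
    exact h1.integrable_of_hasCompactSupport (HasCompactSupport.of_compactSpace _)
  -- the upper bound
  have hFc : ContinuousOn (Fx B G g K r) {x : E n | B.R < ‖x‖} := (sphI_Fx (B := B) h hK hr).1
  set A : E n → ℝ := fun x => 2 / B.H r * (B.H r ^ 2 - kpf G g K x ^ 2) *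
    S2 G (bf g K) (bf g K) x with hAd
  have cb : ContinuousOn (S2 G (bf g K) (bf g K)) {x : E n | B.R < ‖x‖} := by
    intro x hx
    have hx' : B.R < len x := hx
    refine ContinuousAt.continuousWithinAt ?_
    show ContinuousAt (fun x => ∑ k, ∑ l, Sm G k l x * bf g K k x * bf g K l x) x
    exact (ContDiffAt.sum fun k _ => ContDiffAt.sum fun l _ =>
      ((h.contDiffAt_Sm hx' k l).mul (h.contDiffAt_bf hK hx'.le k)).mul
        (h.contDiffAt_bf hK hx'.le l)).continuousAt
  have cA : ContinuousOn A {x : E n | B.R < ‖x‖} :=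
    (continuousOn_const.mul (continuousOn_const.sub (ck.pow 2))).mul cb
  have iA := integrable_sph h.hR.le hr cA
  have it := integrable_sph h.hR.le hr (contOn_tors h hK)
  -- pointwise
  have hpt : ∀ x : E n, ‖x‖ = r → 2 * tors G g K x ≤ A x - 2 * T x := by
    intro x hx
    obtain ⟨hx1, hx2⟩ := hxr x hx
    have hw' := hw x hx
    have hHp : 0 < B.H r := (abs_nonneg _).trans_lt (hlt x hx1)
    have h1 := h.S2_sq hx2.le (bf g K) (fun k y => pd k (kpf G g K) y) 1
      (-(B.H r / (B.H r ^ 2 - kpf G g K x ^ 2)))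
    have e1 : S2 G (bf g K) (fun k y => pd k (kpf G g K) y) x = tors G g K x := by
      unfold tors S2
      rw [Finset.sum_comm]
      refine Finset.sum_congr rfl fun k _ => Finset.sum_congr rfl fun l _ => ?_
      rw [h.Sm_symm hx2.le l k]; ring
    rw [e1] at h1
    have h2 := mul_nonneg (by positivity :
      0 ≤ 2 / B.H r * (B.H r ^ 2 - kpf G g K x ^ 2)) h1
    set w := B.H r ^ 2 - kpf G g K x ^ 2 with hwd
    set s := S2 G (fun k y => pd k (kpf G g K) y) (fun k y => pd k (kpf G g K) y) x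
    set b := S2 G (bf g K) (bf g K) x
    have e2 : 2 / B.H r * w * (1 ^ 2 * b + 2 * 1 * -(B.H r / w) * tors G g K x +
        (-(B.H r / w)) ^ 2 * s) = 2 / B.H r * w * b - 4 * tors G g K x +
        2 * (B.H r / w * s) := by
      field_simp
      ring
    rw [e2] at h2
    show 2 * tors G g K x ≤ 2 / B.H r * w * b - 2 * (tors G g K x - B.H r / w * s)
    linarith
  have hstep1 : 2 * sphI (tors G g K) r ≤ sphI A r := by
    have h1 : ∫ θ : sphere (0 : E n) 1, 2 * tors G g K (r • (θ : E n)) ∂(sphM n) ≤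
        ∫ θ : sphere (0 : E n) 1, (A (r • (θ : E n)) - 2 * T (r • (θ : E n))) ∂(sphM n) :=
      integral_mono (it.const_mul 2) (iA.sub (cT.const_mul 2)) fun θ =>
        hpt _ (norm_smul_sph h0.le θ)
    rw [integral_const_mul, integral_sub iA (cT.const_mul 2), integral_const_mul] at h1
    have h2 : ∫ θ : sphere (0 : E n) 1, T (r • (θ : E n)) ∂(sphM n) = 0 := hT0
    rw [h2, mul_zero, sub_zero] at h1
    exact h1
  refine hstep1.trans ?_
  have hx0 : ∃ x0 : E n, len x0 = r := by
    obtain ⟨y, hy⟩ := exists_ne (0 : E n)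
    refine ⟨(r / ‖y‖) • y, ?_⟩
    have : ‖y‖ ≠ 0 := norm_ne_zero_iff.2 hy
    unfold len
    rw [norm_smul, Real.norm_eq_abs, abs_of_nonneg (by positivity), div_mul_cancel₀ _ this]
  obtain ⟨x0, hx0⟩ := hx0
  have hHp : 0 < B.H r := (abs_nonneg _).trans_lt (hlt x0 hx0)
  have hpt2 : ∀ x : E n, ‖x‖ = r → 0 ≤ A x ∧ A x ≤ Fx B G g K r x := by
    intro x hx
    obtain ⟨hx1, hx2⟩ := hxr _ hx
    have hl : |kpf G g K x| < B.H (len x) := by rw [hx1]; exact hlt _ hx1
    obtain ⟨h1, -, h1'⟩ := slkZ_le (stA n) (stB n) h hF.toFits0 hK hKs hx2 (hdec _ hx2) hl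
    rw [Fx_eq hHp hx1]
    have h2 := hF.hII x hx2
    have h3 := w_pos h hx2.le hl
    have h4 : 0 < B.H (len x) := by rw [hx1]; exact hHp
    have h5 : 0 ≤ (1 / rad g x * B.H (len x) ^ 2 - trT G K x ^ 2) / B.H (len x) *
        (ctr G (IIf G) (IIf G) x - B.II2 (len x)) :=
      mul_nonneg (div_nonneg h3.le h4.le) (by linarith)
    rw [hx1] at h1
    have h6 : 0 ≤ A x := mul_nonneg (mul_nonneg (by positivity) (hw x hx).le)
      (h.S2_nonneg hx2.le fun i => bf g K i x)
    have h7 : A x ≤ slkZ B G g K x := h1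
    exact ⟨h6, by linarith⟩
  unfold sphI
  exact integral_mono_of_nonneg (Eventually.of_forall fun θ =>
    (hpt2 _ (norm_smul_sph h0.le θ)).1) (integrable_sph h.hR.le hr hFc)
    (Eventually.of_forall fun θ => (hpt2 _ (norm_smul_sph h0.le θ)).2)

/-- The bound of the torsion term in terms of the problem. -/
theorem torZ_of_slack [Nontrivial (E n)] (h : Lapse G g B.R) (hF : B.FitsW G)
    (hK : ∀ i j, Smooth (fun x => K x i j))
    (hKs : ∀ x, B.R ≤ len x → ∀ i j, K x i j = K x j i) {r : ℝ} (hr : B.R < r)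
    (hdec : ∀ x, B.R < len x → covNorm g (mom g K) x ≤ mu g K x)
    (hHp : 0 < B.H r) (hlt : ∀ x, len x = r → |kpf G g K x| < B.H r)
    (hT : sph (vol n) r (sphereTorsion g K) ≤
      sph (vol n) r (fun x => sphereSlack g K x + sphereAccel g K x)) :
    TorZ B G g K r := by
  have h0 : 0 < r := B.hR.trans hr
  refine le_trans ?_ (sphI_slkZ_le (stA n) (stB n) h hF hK hKs hr hdec hHp hlt)
  have h1 : sphI (sphereTorsion g K) r = (B.H r)⁻¹ * sphI (tors G g K) r := by
    rw [sphI_congr (v := fun x => (B.H r)⁻¹ * tors G g K x) h0.le fun x hx => ?_]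
    · unfold sphI
      exact integral_const_mul _ _
    · have hl : len x = r := hx
      rw [sphereTorsion_eq92 h hF.toFits0 hK hKs (by rw [hl]; exact hr.le)
        (by rw [hl]; exact hHp.ne'), hl]
      ring
  have h2 : sphI (fun x => sphereSlack g K x + sphereAccel g K x) r =
      (2 * B.H r)⁻¹ * sphI (slkZ B G g K) r := by
    rw [sphI_congr (v := fun x => (2 * B.H r)⁻¹ * slkZ B G g K x) h0.le fun x hx => ?_]
    · unfold sphI
      exact integral_const_mul _ _
    · have hl : len x = r := hx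
      rw [slack_accel_eq h hF.toFits0 hKs (by rw [hl]; exact hr.le) (by rw [hl]; exact hHp), hl]
  rw [sph_eq_sphI, sph_eq_sphI, h1, h2] at hT
  have h5 := mul_le_mul_of_nonneg_left hT (by positivity : (0 : ℝ) ≤ 2 * B.H r)
  have e1 : 2 * B.H r * ((B.H r)⁻¹ * sphI (tors G g K) r) = 2 * sphI (tors G g K) r := by
    field_simp
  have e2 : 2 * B.H r * ((2 * B.H r)⁻¹ * sphI (slkZ B G g K) r) = sphI (slkZ B G g K) r := by
    field_simp
  rw [e1, e2] at h5
  exact h5

/-- the condition on `K` -/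
theorem dichZ (hn : 1 ≤ n) (h : Lapse G g B.R) (hF : B.FitsW G)
    (hK : ∀ i j, Smooth (fun x => K x i j)) (hKs : ∀ x, B.R ≤ len x → ∀ i j, K x i j = K x j i)
    (hdec : ∀ x, B.R < len x → covNorm g (mom g K) x ≤ mu g K x)
    (hT : TwistCond g K B.R) : DichZ B G g K := by
  have : Nonempty (Fin n) := ⟨⟨0, by omega⟩⟩
  have : Nontrivial (E n) := inferInstance
  intro r hr
  have hl : ∀ x : E n, len x = r → B.R ≤ len x := fun x hx => by rw [hx]; exact hr
  rcases hT r hr with h1 | ⟨h1, h2⟩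
  · refine Or.inl fun x hx => ?_
    have := (le_iff92 (K := K) h hF.toFits0 (hl x hx)).1 (h1 x hx)
    rwa [hx] at this
  · have h3 : ∀ x, len x = r → |kpf G g K x| < B.H r := by
      intro x hx
      have := (lt_iff92 (K := K) h hF.toFits0 (hl x hx)).1 (h1 x hx)
      rwa [hx] at this
    have h0 : 0 < r := B.hR.trans_le hr
    have hH : 0 < B.H r :=
      (abs_nonneg _).trans_lt (h3 (ry ⟨0, by omega⟩ r) (len_ry _ h0))
    refine Or.inr ⟨h3, fun hr' => ?_⟩
    rcases h2 with h2 | h2
    · exact torZ_of_timeFlat h hF hK hKs hr' hdec h3 h2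
    · exact torZ_of_slack h hF hK hKs hr' hdec hH h3 h2

end

end Vale.Agent.H177
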