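import Vale.Agent.P366.H177.Defs

/-! Time flat or torsion bounded centred spheres: the definition. -/

noncomputable section
namespace Vale.Agent.H177
open Vale.Agent.P366.Stmt Vale.Agent.T4

variable {n : ℕ}

/-- The condition on `K`: for `R ≤ |x|` each centred sphere `S` has either no untrapped point, that
is `H ≤ |tr_S K|` on all of `S`, or it is untrapped, `|tr_S K| < H` on all of `S`, and it is time
flat or the integral of the torsion term `K(ν, ∇ u)` is at most `θ(r)` times the integral of
`μ - u J(ν) + (1 - u ^ 2) |K(ν, ·)| ^ 2 + |∇ log √p + u K(ν, ·)| ^ 2`, `u = tr_S K / H`. -/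
def TwistBound (g K : Field n) (θ : ℝ → ℝ) (R : ℝ) : Prop := ∀ r, R ≤ r →
  (∀ x, len x = r → sphereMean g x ≤ |trS g K len x|) ∨
    ((∀ x, len x = r → |trS g K len x| < sphereMean g x) ∧
      (TimeFlat g K r ∨ sph (vol n) r (sphereTorsion g K) ≤
        θ r * sph (vol n) r (fun x => sphereSlack g K x + sphereAccel g K x)))

end Vale.Agent.H177
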