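import Vale.Agent.P366.T6.Y3355

/-! Time flat centred spheres: definitions. -/

open scoped ContDiff

noncomputable section
namespace Vale.Agent.H177
open Vale.Agent.P366.Stmt Vale.Agent.T4

variable {n : ℕ}

/-- The rapidity `χ = artanh (tr_S K / H)` at `x` of the mean curvature vector of the centred sphere
`S` through `x`. -/
def sphereRapidity (g K : Field n) (x : E n) : ℝ :=
  Real.log ((1 + sphereRatio g K x) / (1 - sphereRatio g K x)) / 2

/-- The components of the restriction of `K(ν, ·)` to the centred spheres, `ν` the unit normal. -/
def sphereRow (g K : Field n) (k : Fin n) (x : E n) : ℝ := ∑ i, K x i k * nrm g len i x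

/-- The components of the torsion `α = K(ν, ·) - dχ` of the centred spheres with respect to the
frame given by their mean curvature vectors. -/
def sphereTwist (g K : Field n) (k : Fin n) (x : E n) : ℝ :=
  sphereRow g K k x - pd k (sphereRapidity g K) x

/-- The product of the restrictions of the covectors `a`, `b` to the centred sphere through `x`. -/
def sphereDot (g : Field n) (a b : Fin n → ℝ) (x : E n) : ℝ :=
  ∑ k, ∑ l, (up g k l x - nrm g len k x * nrm g len l x) * a k * b l

/-- The centred sphere of radius `r` is time flat: the torsion `K(ν, ·) - dχ` is divergence free on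
it. This is stated in the weak form, with the integrals of the products with the gradients of
functions (all the metrics below induce on each centred sphere a constant multiple of the measure of
the round sphere). -/
def TimeFlat (g K : Field n) (r : ℝ) : Prop :=
  ∀ f : E n → ℝ, (∀ x, len x = r → ContDiffAt ℝ ∞ f x) →
    sph (vol n) r (fun x => sphereDot g (fun k => sphereTwist g K k x) (fun l => pd l f x) x) = 0

/-- `|∇ log √p + u K(ν, ·)| ^ 2` at `x` on the centred sphere `S` through `x`, for metrics
`g = p dr ^ 2 + h`; `u = tr_S K / H`. -/
def sphereAccel (g K : Field n) (x : E n) : ℝ :=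
  sphereDot g (fun k => pd k (fun y => Real.log (radial g y) / 2) x +
      sphereRatio g K x * sphereRow g K k x)
    (fun k => pd k (fun y => Real.log (radial g y) / 2) x +
      sphereRatio g K x * sphereRow g K k x) x

/-- The condition on `K`: for `R ≤ |x|` each centred sphere `S` has either no untrapped point, that
is `H ≤ |tr_S K|` on all of `S`, or it is untrapped, `|tr_S K| < H` on all of `S`, and it is time
flat or the integral of the torsion term `K(ν, ∇ u)` is at most the integral of
`μ - u J(ν) + (1 - u ^ 2) |K(ν, ·)| ^ 2 + |∇ log √p + u K(ν, ·)| ^ 2`, `u = tr_S K / H`. -/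
def TwistCond (g K : Field n) (R : ℝ) : Prop := ∀ r, R ≤ r →
  (∀ x, len x = r → sphereMean g x ≤ |trS g K len x|) ∨
    ((∀ x, len x = r → |trS g K len x| < sphereMean g x) ∧
      (TimeFlat g K r ∨ sph (vol n) r (sphereTorsion g K) ≤
        sph (vol n) r (fun x => sphereSlack g K x + sphereAccel g K x)))

end Vale.Agent.H177
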