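import Vale.Agent.P366.H177.Lich

/-! Time flat centred spheres: equality in the averaged inequality. -/

open MeasureTheory Metric Filter Topology Set
open scoped ContDiff ENNReal Matrix

noncomputable section
namespace Vale.Agent.H177
open Vale.Agent.P366.Stmt Vale.Agent.P366.T2 Vale.Agent.T4
open Vale.Agent.P366 (sphI sphM av norm_smul_sph integrable_sph sphI_congr sphI_continuousOn
  cont_smul_sph1)

variable {n : ℕ}

/-- equality in the pointwise inequalities, time flat spheres -/
structure PtEqZ (B : Bg n) (G g K : Field n) (x : E n) : Prop where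
  mu0 : mu g K x = 0
  mom0 : ∀ j, mom g K j x = 0
  bf0 : ∀ i, bf g K i x = (∑ k, nx k x * bf g K k x) * nx i x +
    B.H (len x) / (B.H (len x) ^ 2 - kpf G g K x ^ 2) * tg (kpf G g K) i x
  glf0 : ∀ i, B.H (len x) * (glf g i x - dN (lf g) x * nx i x) +
    kpf G g K x * (bf g K i x - (∑ k, nx k x * bf g K k x) * nx i x) = 0
  K0 : ∀ i j, K x i j = nx i x * row K j x + row K i x * nx j x -
    rad K x * nx i x * nx j x + trT G K x / B.H (len x) * IIf G x i j
  II0 : ctr G (IIf G) (IIf G) x = B.II2 (len x)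

lemma S2_lin {G g : Field n} {R : ℝ} (h : Lapse G g R) {x : E n} (hx : R ≤ len x)
    (u w : Fin n → E n → ℝ) (a b : ℝ) :
    S2 G (fun i y => a * u i y + b * w i y) (fun i y => a * u i y + b * w i y) x =
      a ^ 2 * S2 G u u x + 2 * a * b * S2 G u w x + b ^ 2 * S2 G w w x := by
  have e3 : S2 G w u x = S2 G u w x := by
    unfold S2
    rw [Finset.sum_comm]
    refine Finset.sum_congr rfl fun k _ => Finset.sum_congr rfl fun l _ => ?_
    rw [h.Sm_symm hx l k]; ring
  have e1 : S2 G (fun i y => a * u i y + b * w i y) (fun i y => a * u i y + b * w i y) x =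
      a ^ 2 * S2 G u u x + a * b * S2 G u w x + a * b * S2 G w u x + b ^ 2 * S2 G w w x := by
    unfold S2
    simp only [Finset.mul_sum, ← Finset.sum_add_distrib]
    exact Finset.sum_congr rfl fun k _ => Finset.sum_congr rfl fun l _ => by ring
  rw [e1, e3]
  ring

section

variable {G g K : Field n} {B : Bg n}

theorem pointwise_eqZ (hA : StA n) (hB : StB n) (h : Lapse G g B.R) (hF : B.Fits0 G)
    (hK : ∀ i j, Smooth (fun x => K x i j))
    (hKs : ∀ x, B.R ≤ len x → ∀ i j, K x i j = K x j i) {x : E n}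
    (hx : B.R < len x) (hdec : covNorm g (mom g K) x ≤ mu g K x)
    (hlt : |kpf G g K x| < B.H (len x))
    (hII : B.II2 (len x) ≤ ctr G (IIf G) (IIf G) x)
    (h0 : ptX B G g K x + (1 / rad g x * B.H (len x) ^ 2 - trT G K x ^ 2) / B.H (len x) *
      (ctr G (IIf G) (IIf G) x - B.II2 (len x)) ≤
        2 / B.H (len x) * (B.H (len x) ^ 2 - kpf G g K x ^ 2) * S2 G (bf g K) (bf g K) x)
    (h1 : S2 G (fun i y => 1 * bf g K i y +
        (-(B.H (len x) / (B.H (len x) ^ 2 - kpf G g K x ^ 2))) * pd i (kpf G g K) y)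
      (fun i y => 1 * bf g K i y +
        (-(B.H (len x) / (B.H (len x) ^ 2 - kpf G g K x ^ 2))) * pd i (kpf G g K) y) x ≤ 0) :
    PtEqZ B G g K x := by
  have hp := h.ppos x hx.le
  have hx0 := h.ne_zero hx.le
  have hHp : 0 < B.H (len x) := (abs_nonneg _).trans_lt hlt
  have hw := x6_wpos h hx hlt
  have hid := pointwiseX_id hA hB h hF hK hKs hx hHp
  rw [hid] at h0
  obtain ⟨-, -, -, b4⟩ := hB G g K B.R h hK hKs x hx
  have hII2 := h.ctr_comb hx.le K (IIf G) (trT G K x / B.H (len x))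
  have hsqe := S2_lin h hx.le (glf g) (bf g K) (B.H (len x)) (kpf G g K x)
  have hsqn := h.S2_sq hx.le (glf g) (bf g K) (B.H (len x)) (kpf G g K x)
  set s := √(1 / rad g x) with hs
  have hvp : 0 < 1 / rad g x := by positivity
  have hsp : 0 < s := Real.sqrt_pos.2 hvp
  set H := B.H (len x) with hH
  set κ := kpf G g K x with hκ
  set w := (1 / rad g x * H ^ 2 - trT G K x ^ 2) / H with hwd
  have hcov : 0 ≤ covNorm g (mom g K) x := Real.sqrt_nonneg _
  have hdec2 : s * |∑ j, nx j x * mom g K j x| ≤ covNorm g (mom g K) x := by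
    calc s * |∑ j, nx j x * mom g K j x| ≤ s * (√(rad g x) * covNorm g (mom g K) x) :=
          mul_le_mul_of_nonneg_left (b4 (mom g K)) hsp.le
      _ = covNorm g (mom g K) x := by rw [← mul_assoc, sqrt_inv_mul hp, one_mul]
  have hmu0 : 0 ≤ mu g K x := hcov.trans hdec
  have hDEC : 2 * (H - |κ|) * mu g K x ≤
      2 * H * mu g K x - 2 * κ * (s * ∑ j, nx j x * mom g K j x) := by
    have h1 : κ * (s * ∑ j, nx j x * mom g K j x) ≤ |κ| * (s * |∑ j, nx j x * mom g K j x|) := by
      have := le_abs_self (κ * (s * ∑ j, nx j x * mom g K j x))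
      rwa [abs_mul, abs_mul, abs_of_pos hsp] at this
    have h2 : |κ| * (s * |∑ j, nx j x * mom g K j x|) ≤ |κ| * mu g K x :=
      mul_le_mul_of_nonneg_left (hdec2.trans hdec) (abs_nonneg _)
    linarith
  have hT4 : 0 ≤ w * (ctr G (IIf G) (IIf G) x - B.II2 (len x)) :=
    mul_nonneg hw.le (by linarith)
  have hT3 : 0 ≤ H * (ctr G K K x - 2 * (trT G K x / H) * ctr G K (IIf G) x +
      (trT G K x / H) ^ 2 * ctr G (IIf G) (IIf G) x) := mul_nonneg hHp.le hII2
  have hT2 : 2 / H * (H ^ 2 - κ ^ 2) * S2 G (bf g K) (bf g K) x +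
      2 / H * (H ^ 2 * S2 G (glf g) (glf g) x + 2 * H * κ * S2 G (glf g) (bf g K) x +
          κ ^ 2 * S2 G (bf g K) (bf g K) x) =
      2 * H * (S2 G (glf g) (glf g) x + S2 G (bf g K) (bf g K) x) +
        4 * κ * S2 G (glf g) (bf g K) x := by
    field_simp
    ring
  have hT5 : 0 ≤ 2 / H * (H ^ 2 * S2 G (glf g) (glf g) x + 2 * H * κ * S2 G (glf g) (bf g K) x +
      κ ^ 2 * S2 G (bf g K) (bf g K) x) := mul_nonneg (by positivity) hsqn
  have hδ : 0 < H - |κ| := by linarith
  have hT1 : 0 ≤ 2 * (H - |κ|) * mu g K x := by positivity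
  -- the terms vanish
  have hmu : mu g K x = 0 := by
    have h1 : 2 * (H - |κ|) * mu g K x ≤ 0 := by linarith
    have h2 : mu g K x ≤ 0 := by
      by_contra hlt'
      push Not at hlt'
      have : 0 < 2 * (H - |κ|) * mu g K x := by positivity
      linarith
    exact le_antisymm h2 hmu0
  have hsq0 : S2 G (fun i y => H * glf g i y + κ * bf g K i y)
      (fun i y => H * glf g i y + κ * bf g K i y) x ≤ 0 := by
    rw [hsqe]
    by_contra hlt'
    push Not at hlt'
    have := mul_pos (by positivity : 0 < 2 / H) hlt'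
    linarith
  refine ⟨hmu, ?_, fun i => ?_, fun i => ?_, fun i j => ?_, ?_⟩
  · -- the momentum density
    have h1 : covNorm g (mom g K) x = 0 := le_antisymm (hmu ▸ hdec) hcov
    unfold covNorm at h1
    have h2 : ∑ i, ∑ j, up g i j x * mom g K i x * mom g K j x =
        S2 G (mom g K) (mom g K) x + (∑ i, nx i x * mom g K i x) ^ 2 / rad g x := by
      have e : ∀ i j, up g i j x * mom g K i x * mom g K j x =
          Sm G i j x * mom g K i x * mom g K j x +
            (nx i x * mom g K i x) * (nx j x * mom g K j x) / rad g x := by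
        intro i j
        rw [h.up_g hx.le]
        ring
      simp only [e, Finset.sum_add_distrib]
      unfold S2
      congr 1
      rw [sq, Finset.sum_mul_sum, Finset.sum_div]
      exact Finset.sum_congr rfl fun i _ => by rw [Finset.sum_div]
    have h3 : 0 ≤ S2 G (mom g K) (mom g K) x := h.S2_nonneg hx.le (fun i => mom g K i x)
    have h4 : 0 ≤ (∑ i, nx i x * mom g K i x) ^ 2 / rad g x := by positivity
    rw [h2] at h1
    have h5 := (Real.sqrt_eq_zero (by linarith)).1 h1
    have h6 : S2 G (mom g K) (mom g K) x ≤ 0 := by linarith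
    have h7 : (∑ i, nx i x * mom g K i x) ^ 2 / rad g x = 0 := by linarith
    have h8 : ∑ i, nx i x * mom g K i x = 0 := by
      rw [div_eq_zero_iff] at h7
      rcases h7 with h7 | h7
      · exact pow_eq_zero_iff (two_ne_zero) |>.1 h7
      · exact absurd h7 hp.ne'
    intro j
    rw [h.S2_zero hx.le h6 j, h8, zero_mul]
  · have h2 := h.S2_zero hx.le h1 i
    have e : ∑ k, nx k x * (1 * bf g K k x + -(H / (H ^ 2 - κ ^ 2)) * pd k (kpf G g K) x) =
        (∑ k, nx k x * bf g K k x) - H / (H ^ 2 - κ ^ 2) * dN (kpf G g K) x := by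
      unfold dN
      rw [Finset.mul_sum, ← Finset.sum_sub_distrib]
      exact Finset.sum_congr rfl fun k _ => by ring
    rw [e] at h2
    unfold tg
    linarith
  · have h2 := h.S2_zero hx.le hsq0 i
    have e : ∑ k, nx k x * (H * glf g k x + κ * bf g K k x) =
        H * dN (lf g) x + κ * ∑ k, nx k x * bf g K k x := by
      unfold dN glf
      rw [Finset.mul_sum, Finset.mul_sum, ← Finset.sum_add_distrib]
      exact Finset.sum_congr rfl fun k _ => by ring
    rw [e] at h2
    linarith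
  · have h1 : ctr G K K x - 2 * (trT G K x / H) * ctr G K (IIf G) x +
        (trT G K x / H) ^ 2 * ctr G (IIf G) (IIf G) x ≤ 0 := by
      by_contra hlt'
      push Not at hlt'
      have := mul_pos hHp hlt'
      linarith
    have h2 := h.ctr_comb_zero hx.le (hKs x hx.le) (fun i j => IIf_symm h hx i j) h1 i j
    rw [row_IIf h hx, row_IIf h hx, rad_IIf h hx] at h2
    linarith
  · have h1 : w * (ctr G (IIf G) (IIf G) x - B.II2 (len x)) ≤ 0 := by linarith
    have h2 : ctr G (IIf G) (IIf G) x - B.II2 (len x) ≤ 0 := by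
      by_contra hlt'
      push Not at hlt'
      have := mul_pos hw hlt'
      linarith
    linarith

end

/-- a nonnegative function, continuous on the sphere, with vanishing integral vanishes -/
lemma eq_zero_of_sphI' [Nontrivial (E n)] {r : ℝ} (hr0 : 0 < r) {f : E n → ℝ}
    (hc : Continuous fun θ : sphere (0 : E n) 1 => f (r • (θ : E n)))
    (h0 : ∀ x, ‖x‖ = r → 0 ≤ f x) (hI : sphI f r ≤ 0) {x : E n} (hx : ‖x‖ = r) : f x = 0 := by
  have hnn : 0 ≤ fun θ : sphere (0 : E n) 1 => f (r • (θ : E n)) := fun θ =>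
    h0 _ (norm_smul_sph hr0.le θ)
  have hint : Integrable (fun θ : sphere (0 : E n) 1 => f (r • (θ : E n))) (sphM n) :=
    hc.integrable_of_hasCompactSupport (HasCompactSupport.of_compactSpace _)
  have h1 : sphI f r = 0 := le_antisymm hI (integral_nonneg hnn)
  have h2 := (integral_eq_zero_iff_of_nonneg hnn hint).1 h1
  have hop : (sphM n).IsOpenPosMeasure := by
    unfold sphM
    infer_instance
  have h3 : (fun θ : sphere (0 : E n) 1 => f (r • (θ : E n))) = fun _ => 0 :=
    (hc.ae_eq_iff_eq (sphM n) continuous_const).1 h2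
  have hne : ‖x‖ ≠ 0 := by rw [hx]; exact hr0.ne'
  let θ : sphere (0 : E n) 1 := ⟨‖x‖⁻¹ • x, by
    rw [mem_sphere_zero_iff_norm, norm_smul, norm_inv, norm_norm, inv_mul_cancel₀ hne]⟩
  have h4 := congrFun h3 θ
  have h5 : r • (θ : E n) = x := by
    show r • (‖x‖⁻¹ • x) = x
    rw [← hx, smul_inv_smul₀ hne]
  simp only [h5] at h4
  exact h4

lemma cont_sph {b r : ℝ} (hb : 0 ≤ b) (hr : b < r) {f : E n → ℝ}
    (hf : ContinuousOn f {x | b < ‖x‖}) :
    Continuous (fun θ : sphere (0 : E n) 1 => f (r • (θ : E n))) := by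
  rw [← continuousOn_univ]
  refine ContinuousOn.comp (g := f) (f := fun θ : sphere (0 : E n) 1 => r • (θ : E n)) hf
    (by fun_prop) fun θ _ => ?_
  show b < ‖r • (θ : E n)‖
  rw [norm_smul_sph (hb.trans hr.le)]; exact hr

/-- the term whose integral vanishes on time flat spheres -/
def Tz (B : Bg n) (G g K : Field n) (r : ℝ) (x : E n) : ℝ :=
  tors G g K x - B.H r / (B.H r ^ 2 - kpf G g K x ^ 2) *
    S2 G (fun k y => pd k (kpf G g K) y) (fun k y => pd k (kpf G g K) y) x

section

variable {G g K : Field n} {B : Bg n}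

theorem Tz_int [Nontrivial (E n)] (h : Lapse G g B.R) (hF : B.FitsW G)
    (hK : ∀ i j, Smooth (fun x => K x i j))
    (hKs : ∀ x, B.R ≤ len x → ∀ i j, K x i j = K x j i) {r : ℝ} (hr : B.R < r)
    (hlt : ∀ x, len x = r → |kpf G g K x| < B.H r) (hT : TimeFlat g K r) :
    sphI (Tz B G g K r) r = 0 ∧
      Continuous (fun θ : sphere (0 : E n) 1 => Tz B G g K r (r • (θ : E n))) := by
  have h0 : 0 < r := B.hR.trans hr
  have hxr : ∀ x : E n, ‖x‖ = r → len x = r ∧ B.R < len x := fun x hx => by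
    have : len x = r := hx
    exact ⟨this, by rw [this]; exact hr⟩
  have hw : ∀ x : E n, ‖x‖ = r → 0 < B.H r ^ 2 - kpf G g K x ^ 2 := by
    intro x hx
    have : kpf G g K x ^ 2 < B.H r ^ 2 := by
      rw [← sq_abs (kpf G g K x)]
      exact pow_lt_pow_left₀ (hlt x (hxr x hx).1) (abs_nonneg _) two_ne_zero
    linarith
  have hT0 : sphI (Tz B G g K r) r = 0 := by
    have h1 := hT (kpf G g K) (fun x hx => kfun_contDiffAt h hK (by rw [hx]; exact hr))
    rw [sph_eq_sphI] at h1
    rw [← h1]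
    refine sphI_congr h0.le fun x hx => ?_
    obtain ⟨hx1, hx2⟩ := hxr x hx
    have hl : |kpf G g K x| < B.H (len x) := by rw [hx1]; exact hlt x hx1
    rw [twist_dot h hF.toFits0 hK hKs hx2 hl, hx1]
    have e1 : ∑ k, ∑ l, Sm G k l x * bf g K k x * pd l (kpf G g K) x = tors G g K x := by
      unfold tors S2
      rw [Finset.sum_comm]
      refine Finset.sum_congr rfl fun k _ => Finset.sum_congr rfl fun l _ => ?_
      rw [h.Sm_symm hx2.le l k]; ring
    rw [e1]
    rfl
  refine ⟨hT0, ?_⟩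
  have cS2 : ContinuousOn (S2 G (fun k y => pd k (kpf G g K) y) (fun k y => pd k (kpf G g K) y))
      {x : E n | B.R < ‖x‖} := by
    intro x hx
    have hx' : B.R < len x := hx
    refine ContinuousAt.continuousWithinAt ?_
    have h1 : ContDiffAt ℝ ∞ (kpf G g K) x := kfun_contDiffAt h hK hx'
    show ContinuousAt (fun x => ∑ k, ∑ l, Sm G k l x * pd k (kpf G g K) x * pd l (kpf G g K) x) x
    exact (ContDiffAt.sum fun k _ => ContDiffAt.sum fun l _ =>
      ((h.contDiffAt_Sm hx' k l).mul (contDiffAt_pd h1 k)).mul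
        (contDiffAt_pd h1 l)).continuousAt
  have ck : ContinuousOn (kpf G g K) {x : E n | B.R < ‖x‖} := fun x hx =>
    (kfun_contDiffAt h hK (x := x) hx).continuousAt.continuousWithinAt
  rw [continuous_iff_continuousAt]
  intro θ
  have hx : ‖r • (θ : E n)‖ = r := norm_smul_sph h0.le θ
  have hmem : {x : E n | B.R < ‖x‖} ∈ 𝓝 (r • (θ : E n)) :=
    (isOpen_out B.R).mem_nhds (by show B.R < ‖r • (θ : E n)‖; rw [hx]; exact hr)
  have h2 : ContinuousAt (Tz B G g K r) (r • (θ : E n)) :=
    ((contOn_tors h hK).continuousAt hmem).sub ((continuousAt_const.div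
      (continuousAt_const.sub ((ck.continuousAt hmem).pow 2)) (hw _ hx).ne').mul
      (cS2.continuousAt hmem))
  exact ContinuousAt.comp (f := fun θ : sphere (0 : E n) 1 => r • (θ : E n)) h2
    (cont_smul_sph1 r).continuousAt

/-- **Equality in the averaged inequality.** -/
theorem avg_eqZ [Nontrivial (E n)] (h : Lapse G g B.R) (hF : B.FitsW G)
    (hK : ∀ i j, Smooth (fun x => K x i j))
    (hKs : ∀ x, B.R ≤ len x → ∀ i j, K x i j = K x j i) {r : ℝ} (hr : B.R < r)
    (hdec : ∀ x, B.R < len x → covNorm g (mom g K) x ≤ mu g K x)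
    (hlt : ∀ x, len x = r → |kpf G g K x| < B.H r) (hT : TimeFlat g K r)
    (heq : B.H r * B.Rh r - B.H r * Yav B G g K r - Yav B G g K r / B.H r * B.II2 r ≤
      Yav' B G g K r) : ∀ x : E n, len x = r → PtEqZ B G g K x := by
  intro x₀ hx₀
  have h0 : 0 < r := B.hR.trans hr
  have hω : 0 < Vale.Agent.P366.omega n := Vale.Agent.P366.omega_pos'
  have hHp : 0 < B.H r := (abs_nonneg _).trans_lt (hlt x₀ hx₀)
  obtain ⟨hFc, hI⟩ := sphI_Fx (B := B) h hK hr
  obtain ⟨hT0, hTc⟩ := Tz_int h hF hK hKs hr hlt hT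
  have e6 : sphI (tors G g K) r = Vale.Agent.P366.omega n * av (tors G g K) r := by
    unfold av
    field_simp
  have h3 : B.H r * B.II2 r - B.II2 r / B.H r * B.H r ^ 2 = 0 := by field_simp; ring
  have h4 : Yav B G g K r / B.H r * B.II2 r = B.II2 r / B.H r * Yav B G g K r := by ring
  rw [h3, zero_mul, add_zero] at hI
  have h2 : B.H r * av (leafScal G) r ≤ B.H r * B.Rh r :=
    mul_le_mul_of_nonneg_left (hF.hRh r hr) hHp.le
  have hI' : sphI (Fx B G g K r) r - 2 * sphI (tors G g K) r = Vale.Agent.P366.omega n *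
      (B.H r * av (leafScal G) r - (Yav' B G g K r +
        B.H r * Yav B G g K r + B.II2 r / B.H r * (Yav B G g K r))) := by
    rw [hI, e6]; ring
  rw [h4] at heq
  have hle : sphI (Fx B G g K r) r - 2 * sphI (tors G g K) r ≤ 0 := by
    rw [hI']
    exact mul_nonpos_of_nonneg_of_nonpos hω.le (by linarith)
  have hw : ∀ x : E n, ‖x‖ = r → 0 < B.H r ^ 2 - kpf G g K x ^ 2 := by
    intro x hx
    have : kpf G g K x ^ 2 < B.H r ^ 2 := by
      rw [← sq_abs (kpf G g K x)]
      exact pow_lt_pow_left₀ (hlt x hx) (abs_nonneg _) two_ne_zero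
    linarith
  have hxR : ∀ x : E n, ‖x‖ = r → B.R < len x := fun x hx => by
    have : len x = r := hx
    rw [this]; exact hr
  have cF : Continuous fun θ : sphere (0 : E n) 1 => Fx B G g K r (r • (θ : E n)) :=
    cont_sph h.hR.le hr hFc
  have ct : Continuous fun θ : sphere (0 : E n) 1 => tors G g K (r • (θ : E n)) :=
    cont_sph h.hR.le hr (contOn_tors h hK)
  -- the two nonnegative parts
  have hA : ∀ x : E n, ‖x‖ = r → 2 / B.H r * (B.H r ^ 2 - kpf G g K x ^ 2) *
      S2 G (bf g K) (bf g K) x ≤ Fx B G g K r x := by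
    intro x hx
    have hx1 : len x = r := hx
    have hl : |kpf G g K x| < B.H (len x) := by rw [hx1]; exact hlt _ hx1
    obtain ⟨h1, -, h1'⟩ := slkZ_le (stA n) (stB n) h hF.toFits0 hK hKs (hxR x hx)
      (hdec _ (hxR x hx)) hl
    rw [Fx_eq hHp hx1]
    have h2 := hF.hII x (hxR x hx)
    have h3 := w_pos h (hxR x hx).le hl
    have h4 : 0 < B.H (len x) := by rw [hx1]; exact hHp
    have h5 : 0 ≤ (1 / rad g x * B.H (len x) ^ 2 - trT G K x ^ 2) / B.H (len x) *
        (ctr G (IIf G) (IIf G) x - B.II2 (len x)) :=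
      mul_nonneg (div_nonneg h3.le h4.le) (by linarith)
    rw [hx1] at h1
    linarith
  have hB : ∀ x : E n, ‖x‖ = r → 2 / B.H r * (B.H r ^ 2 - kpf G g K x ^ 2) *
      S2 G (fun i y => 1 * bf g K i y +
        (-(B.H r / (B.H r ^ 2 - kpf G g K x ^ 2))) * pd i (kpf G g K) y)
      (fun i y => 1 * bf g K i y +
        (-(B.H r / (B.H r ^ 2 - kpf G g K x ^ 2))) * pd i (kpf G g K) y) x =
      2 / B.H r * (B.H r ^ 2 - kpf G g K x ^ 2) * S2 G (bf g K) (bf g K) x -
        2 * Tz B G g K r x - 2 * tors G g K x := by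
    intro x hx
    have hw' := hw x hx
    rw [S2_lin h (hxR x hx).le (bf g K) (fun k y => pd k (kpf G g K) y)]
    have e1 : S2 G (bf g K) (fun k y => pd k (kpf G g K) y) x = tors G g K x := by
      unfold tors S2
      rw [Finset.sum_comm]
      refine Finset.sum_congr rfl fun k _ => Finset.sum_congr rfl fun l _ => ?_
      rw [h.Sm_symm (hxR x hx).le l k]; ring
    rw [e1]
    unfold Tz
    set w := B.H r ^ 2 - kpf G g K x ^ 2 with hwd
    field_simp
    ring
  have hB0 : ∀ x : E n, ‖x‖ = r → 0 ≤ S2 G (fun i y => 1 * bf g K i y +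
        (-(B.H r / (B.H r ^ 2 - kpf G g K x ^ 2))) * pd i (kpf G g K) y)
      (fun i y => 1 * bf g K i y +
        (-(B.H r / (B.H r ^ 2 - kpf G g K x ^ 2))) * pd i (kpf G g K) y) x := fun x hx =>
    h.S2_nonneg (hxR x hx).le _
  have hnn : ∀ x : E n, ‖x‖ = r →
      0 ≤ Fx B G g K r x - 2 * Tz B G g K r x - 2 * tors G g K x := by
    intro x hx
    have h1 := hA x hx
    have h2 := mul_nonneg (mul_nonneg (by positivity : (0 : ℝ) ≤ 2 / B.H r) (hw x hx).le)
      (hB0 x hx)
    rw [hB x hx] at h2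
    linarith
  have hcc : Continuous fun θ : sphere (0 : E n) 1 =>
      (fun x => Fx B G g K r x - 2 * Tz B G g K r x - 2 * tors G g K x) (r • (θ : E n)) :=
    (cF.sub (continuous_const.mul hTc)).sub (continuous_const.mul ct)
  have hint : ∀ {f : E n → ℝ}, Continuous (fun θ : sphere (0 : E n) 1 => f (r • (θ : E n))) →
      Integrable (fun θ : sphere (0 : E n) 1 => f (r • (θ : E n))) (sphM n) := fun hc =>
    hc.integrable_of_hasCompactSupport (HasCompactSupport.of_compactSpace _)
  have hI0 : sphI (fun x => Fx B G g K r x - 2 * Tz B G g K r x - 2 * tors G g K x) r ≤ 0 := by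
    have h5 : sphI (fun x => Fx B G g K r x - 2 * Tz B G g K r x - 2 * tors G g K x) r =
        sphI (Fx B G g K r) r - 2 * sphI (Tz B G g K r) r - 2 * sphI (tors G g K) r := by
      have i1 : ∫ θ : sphere (0 : E n) 1, ((Fx B G g K r (r • (θ : E n)) -
          2 * Tz B G g K r (r • (θ : E n))) - 2 * tors G g K (r • (θ : E n))) ∂(sphM n) =
          (∫ θ : sphere (0 : E n) 1, (Fx B G g K r (r • (θ : E n)) -
          2 * Tz B G g K r (r • (θ : E n))) ∂(sphM n)) -
          ∫ θ : sphere (0 : E n) 1, 2 * tors G g K (r • (θ : E n)) ∂(sphM n) :=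
        integral_sub ((hint cF).sub ((hint hTc).const_mul 2)) ((hint ct).const_mul 2)
      have i2 : ∫ θ : sphere (0 : E n) 1, (Fx B G g K r (r • (θ : E n)) -
          2 * Tz B G g K r (r • (θ : E n))) ∂(sphM n) =
          (∫ θ : sphere (0 : E n) 1, Fx B G g K r (r • (θ : E n)) ∂(sphM n)) -
          ∫ θ : sphere (0 : E n) 1, 2 * Tz B G g K r (r • (θ : E n)) ∂(sphM n) :=
        integral_sub (hint cF) ((hint hTc).const_mul 2)
      rw [i2, integral_const_mul, integral_const_mul] at i1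
      exact i1
    rw [h5, hT0]
    linarith
  have hxr : ‖x₀‖ = r := hx₀
  have hz := eq_zero_of_sphI' h0 hcc hnn hI0 hxr
  have h5 := hA x₀ hxr
  have h6 := mul_nonneg (mul_nonneg (by positivity : (0 : ℝ) ≤ 2 / B.H r) (hw x₀ hxr).le)
    (hB0 x₀ hxr)
  have h7 := hB x₀ hxr
  have h8 := Fx_eq (G := G) (g := g) (K := K) (B := B) hHp hx₀
  rw [h8] at h5 hz
  have hS : S2 G (fun i y => 1 * bf g K i y +
        (-(B.H r / (B.H r ^ 2 - kpf G g K x₀ ^ 2))) * pd i (kpf G g K) y)
      (fun i y => 1 * bf g K i y +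
        (-(B.H r / (B.H r ^ 2 - kpf G g K x₀ ^ 2))) * pd i (kpf G g K) y) x₀ ≤ 0 := by
    by_contra hcon
    push Not at hcon
    have := mul_pos (mul_pos (by positivity : (0 : ℝ) < 2 / B.H r) (hw x₀ hxr)) hcon
    linarith
  refine pointwise_eqZ (stA n) (stB n) h hF.toFits0 hK hKs (hxR x₀ hxr) (hdec x₀ (hxR x₀ hxr))
    (by rw [hx₀]; exact hlt x₀ hx₀) (hF.hII x₀ (hxR x₀ hxr)) ?_ (by rw [hx₀]; exact hS)
  rw [hx₀] at hz h5 ⊢
  linarith

end

end Vale.Agent.H177
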