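import Vale.Agent.P366.H177.Rig

/-! Time flat centred spheres: the equality case and the final theorem. -/

open MeasureTheory Metric Filter Topology Set
open scoped ContDiff ENNReal Matrix

noncomputable section
namespace Vale.Agent.H177
open Vale.Agent.P366.Stmt Vale.Agent.P366.T2 Vale.Agent.T4
open Vale.Agent.P366 (sphI sphM av norm_smul_sph sphI_congr)

variable {n : ℕ}

/-- The class of the second statement: for `R ≤ |x|` each centred sphere `S` has either no untrapped
point, that is `H ≤ |tr_S K|` on all of `S`, or it is untrapped, `|tr_S K| < H` on all of `S`, and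
time flat. -/
def FlatCond (g K : Field n) (R : ℝ) : Prop := ∀ r, R ≤ r →
  (∀ x, len x = r → sphereMean g x ≤ |trS g K len x|) ∨
    ((∀ x, len x = r → |trS g K len x| < sphereMean g x) ∧ TimeFlat g K r)

lemma FlatCond.twist {g K : Field n} {R : ℝ} (h : FlatCond g K R) : TwistCond g K R := by
  intro r hr
  rcases h r hr with h1 | ⟨h1, h2⟩
  · exact Or.inl h1
  · exact Or.inr ⟨h1, Or.inl h2⟩

section

variable {G g K : Field n} {B : Bg n}

/-- in the equality case the tangential gradient of `√p tr_S K` vanishes -/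
theorem tg_kpf_zero (hn : 3 ≤ n) (h : Lapse G g B.R) (hF : B.Fits0 G)
    (hK : ∀ i j, Smooth (fun x => K x i j))
    (hKs : ∀ x, B.R ≤ len x → ∀ i j, K x i j = K x j i) (hro : B.RoundAt G)
    (hlam : ∀ r, B.R < r → B.lam r = ((n : ℝ) - 1) / (2 * B.rho r))
    (hpt : ∀ x, B.R < len x → PtEqZ B G g K x)
    (hlt : ∀ x, B.R < len x → |kpf G g K x| < B.H (len x))
    (hkey : ∀ r, B.R < r → Yav' B G g K r = B.H r * B.Rh r - B.H r * Yav B G g K r -
      Yav B G g K r / B.H r * B.II2 r ∧ B.lam r ^ 2 = ((n : ℝ) - 1) * B.L2 r ∧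
        B.Rh r / 4 + B.L2 r = B.lam r ^ 2)
    (hYlt : ∀ r, B.R < r → Yav B G g K r < 4 * B.lam r ^ 2) {x : E n} (hx : B.R < len x)
    (k : Fin n) : tg (kpf G g K) k x = 0 := by
  have hn3 : (3 : ℝ) ≤ n := by exact_mod_cast hn
  have hn1 : (0 : ℝ) < (n : ℝ) - 1 := by linarith
  have hr0 : 0 < len x := B.hR.trans hx
  have hρ := B.rho_pos hx.le
  have hH : 0 < B.H (len x) := (abs_nonneg _).trans_lt (hlt x hx)
  have hV : ∀ y : E n, len y = len x → Vf G g K y = Vf G g K x := by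
    intro y hy
    refine const_on_sphere (by omega) (f := Vf G g K) (c := dN (Vf G g K)) hr0 (fun z hz => ?_)
      (fun z hz i => ?_) hy rfl
    · have hz' : B.R < len z := by rw [hz]; exact hx
      have hz0 := h.ne_zero hz'.le
      have hp := h.ppos z hz'.le
      have hχ : ContDiffAt ℝ ∞ (sphereRapidity g K) z :=
        contDiffAt_rapidity h hF hK hz'.le (hlt z hz')
      have h1 : ContDiffAt ℝ ∞ (Vf G g K) z := (contDiffAt_dN hz0 hχ).sub
        (((contDiffAt_rad h.gs hz0).sqrt hp.ne').mul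
          (((contDiffAt_rad hK hz0).div (contDiffAt_rad h.gs hz0) hp.ne').sub
            ((h.contDiffAt_trT hK hz').div_const _)))
      exact h1.differentiableAt (by simp)
    · have h1 := tg_Vf h hF hK hKs hro hpt hlt (x := z) (by rw [hz]; exact hx) i
      unfold tg at h1
      linarith
  refine lich hn B.hR.le hx (f := kpf G g K) (fun y hy => h.contDiffAt_kpf68 hK hy)
    (lam := -((B.rho (len x) / len x) ^ 2 * Yav' B G g K (len x) / (2 * B.H (len x))))
    (c := (B.rho (len x) / len x) ^ 2 * Yav B G g K (len x) * Vf G g K x) ?_ (fun y hy => ?_)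
    x rfl k
  · obtain ⟨h1, h2, h3⟩ := hkey (len x) hx
    have h4 := hYlt (len x) hx
    have h5 : B.II2 (len x) = B.H (len x) ^ 2 / ((n : ℝ) - 1) := by
      rw [← (hpt x hx).II0, ctr_II_round h hF hro hx]
    have h6 := hlam (len x) hx
    set ρ := B.rho (len x)
    set r := len x
    set Y := Yav B G g K r
    set H := B.H r
    set L := B.lam r
    have h7 : B.Rh r = 4 * L ^ 2 * (((n : ℝ) - 2) / ((n : ℝ) - 1)) := by
      have h8 : B.L2 r = L ^ 2 / ((n : ℝ) - 1) := by
        rw [h2]; field_simp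
      have h9 : B.Rh r = 4 * (L ^ 2 - B.L2 r) := by linarith
      rw [h9, h8]
      field_simp
      ring
    have h10 : Yav' B G g K r = H * (4 * L ^ 2 * (((n : ℝ) - 2) / ((n : ℝ) - 1)) -
        n / ((n : ℝ) - 1) * Y) := by
      rw [h1, h7, h5]
      field_simp
      ring
    have h11 : -((ρ / r) ^ 2 * Yav' B G g K r / (2 * H)) =
        (ρ / r) ^ 2 / 2 * (n / ((n : ℝ) - 1) * Y -
          4 * L ^ 2 * (((n : ℝ) - 2) / ((n : ℝ) - 1))) := by
      rw [h10]
      field_simp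
      ring
    have h12 : n / ((n : ℝ) - 1) * Y < n / ((n : ℝ) - 1) * (4 * L ^ 2) :=
      mul_lt_mul_of_pos_left h4 (by positivity)
    have h13 : (ρ / r) ^ 2 / 2 * (n / ((n : ℝ) - 1) * (4 * L ^ 2) -
          4 * L ^ 2 * (((n : ℝ) - 2) / ((n : ℝ) - 1))) = ((n : ℝ) - 1) / r ^ 2 := by
      rw [h6]
      field_simp
      ring
    rw [h11, ← h13]
    exact mul_lt_mul_of_pos_left (by linarith) (by positivity)
  · rw [tL_kpf hn h hF hK hKs hro hpt hlt (x := y) (by rw [hy]; exact hx), hy, hV y hy]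
    ring

/-- the equality case of the pointwise inequality of class X -/
theorem ptEqX_of_tg (h : Lapse G g B.R) {x : E n} (hx : B.R < len x) (hp : PtEqZ B G g K x)
    (hlt : |kpf G g K x| < B.H (len x)) (ht : ∀ k, tg (kpf G g K) k x = 0) :
    PtEqX B G g K x := by
  have hH : 0 < B.H (len x) := (abs_nonneg _).trans_lt hlt
  have hpp := h.ppos x hx.le
  have hs : 0 < √(1 / rad g x) := Real.sqrt_pos.2 (by positivity)
  have hbf : ∀ i, bf g K i x = (∑ k, nx k x * bf g K k x) * nx i x := by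
    intro i
    have h1 := hp.bf0 i
    rw [ht i, mul_zero, add_zero] at h1
    exact h1
  have hrow : ∀ i, row K i x = rad K x * nx i x := by
    intro i
    have h1 := hbf i
    unfold bf at h1
    have e : ∑ k, nx k x * (√(1 / rad g x) * row K k x) = √(1 / rad g x) * rad K x := by
      rw [rad_eq K, Finset.mul_sum]
      exact Finset.sum_congr rfl fun k _ => by ring
    rw [e, mul_assoc] at h1
    exact mul_left_cancel₀ hs.ne' h1
  refine ⟨hp.mu0, hp.mom0, fun i => ?_, hrow, fun i j => ?_, hp.II0⟩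
  · have h1 := hp.glf0 i
    rw [hbf i] at h1
    have h2 : B.H (len x) * (glf g i x - dN (lf g) x * nx i x) = 0 := by
      have e : ∀ c : ℝ, kpf G g K x * (c * nx i x - c * nx i x) = 0 := fun c => by ring
      have h3 : kpf G g K x * ((∑ k, nx k x * bf g K k x) * nx i x -
          (∑ k, nx k x * bf g K k x) * nx i x) = 0 := e _
      rw [h3, add_zero] at h1
      exact h1
    have h3 := (mul_eq_zero.1 h2).resolve_left hH.ne'
    linarith
  · rw [hp.K0 i j, hrow, hrow]
    ring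

end

/-- **The equality case for time flat spheres.** -/
theorem rigidZ (hn : 3 ≤ n) {X : Exterior n} {G : Field n}
    {B : Bg n} (h : Lapse G X.g B.R) (hB : B.FitsW G) (hL : B.LamOK G) (hAF : X.IsAF)
    (hDEC : X.DEC) (hT : X.Trapped) {m : ℝ} (hm : X.IsEnergy m)
    (hR : IsGreatest {r | ∃ x, X.F x = 0 ∧ len x = r} B.R) (hFl : FlatCond X.g X.K B.R)
    (hO : Outermost X)
    (heq : (X.Amin.toReal / omega n) ^ (((n : ℝ) - 2) / (n - 1)) / 2 = m)
    (hround : (∀ r, B.R < r → B.lam r ^ 2 = ((n : ℝ) - 1) * B.L2 r ∧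
        B.Rh r / 4 + B.L2 r = B.lam r ^ 2) →
      (∀ x, B.R < len x → ctr G (IIf G) (IIf G) x = B.II2 (len x)) →
      B.RoundAt G ∧ ∀ r, B.R < r → B.lam r = ((n : ℝ) - 1) / (2 * B.rho r)) :
    IsSlice m X.g X.K {x | B.R < len x} := by
  have : Nonempty (Fin n) := ⟨⟨0, by omega⟩⟩
  have : Nontrivial (E n) := inferInstance
  have hn3 : (3 : ℝ) ≤ n := by exact_mod_cast hn
  have hN : 1 < (n : ℝ) - 1 := by linarith
  have hout := Vale.Agent.C92.outside_nonneg (by omega) X hR
  have hKsm := fun i j => (X.smooth i j).2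
  have hKsy : ∀ x, B.R ≤ len x → ∀ i j, X.K x i j = X.K x j i := fun x _ i j => (X.symm x i j).2
  have hdec : ∀ x, B.R < len x → covNorm X.g (mom X.g X.K) x ≤ mu X.g X.K x :=
    fun x hx => hDEC x (hout x hx.le)
  have hd : DichZ B G X.g X.K := dichZ (by omega) h hB hKsm hKsy hdec hFl.twist
  obtain ⟨hlim, hinf⟩ := stX3 hn h hB.toFits0 hL hAF hm
  obtain ⟨r0, hr0, hz, hgt⟩ := exists_r0Z (by omega) h hKsm hd
    (stX4 (by omega) h hB.toFits0 hT hR) hinf
  obtain ⟨hmono, hbd⟩ := monoZ hn h hB hKsm hr0 hz hgt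
  have hω : 0 < omega n := by
    rw [Vale.Agent.P366.omega_eq]
    exact Vale.Agent.P366.omega_pos'
  -- the area bound
  have hA : ∀ r, B.R ≤ r → 2 * m ≤ B.rho r ^ ((n : ℝ) - 2) := by
    intro r hr
    have hρ := B.rho_pos hr
    have hn1 : (n : ℝ) - 1 ≠ 0 := by linarith
    have e : B.rho r ^ ((n : ℝ) - 1) = B.ar r := by
      unfold Bg.rho
      rw [← Real.rpow_mul (B.ar_pos r hr).le, one_div, inv_mul_cancel₀ hn1, Real.rpow_one]
    have hAm : X.Amin ≤ ENNReal.ofReal (omega n * B.rho r ^ ((n : ℝ) - 1)) := by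
      rw [e]
      exact areaF (by omega) h hB.toFits0 hR hr
    have h1 : X.Amin.toReal ≤ omega n * B.rho r ^ ((n : ℝ) - 1) := by
      have h2 := ENNReal.toReal_mono ENNReal.ofReal_ne_top hAm
      rwa [ENNReal.toReal_ofReal (by positivity)] at h2
    have h3 : X.Amin.toReal / omega n ≤ B.rho r ^ ((n : ℝ) - 1) := by
      rw [div_le_iff₀ hω]; linarith
    have h4 : (X.Amin.toReal / omega n) ^ (((n : ℝ) - 2) / (n - 1)) ≤
        (B.rho r ^ ((n : ℝ) - 1)) ^ (((n : ℝ) - 2) / (n - 1)) :=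
      Real.rpow_le_rpow (by positivity) h3 (div_nonneg (by linarith) (by linarith))
    have h5 : (B.rho r ^ ((n : ℝ) - 1)) ^ (((n : ℝ) - 2) / (n - 1)) =
        B.rho r ^ ((n : ℝ) - 2) := by
      rw [← Real.rpow_mul hρ.le]
      congr 1
      field_simp
    rw [h5] at h4
    linarith
  have hle : B.rho r0 ^ ((n : ℝ) - 2) ≤ 2 * m := by
    refine ge_of_tendsto hlim ?_
    filter_upwards [eventually_ge_atTop r0] with r hr
    exact hbd r hr
  have heq0 : B.rho r0 ^ ((n : ℝ) - 2) = 2 * m := le_antisymm hle (hA r0 hr0)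
  -- `r0` is the inner radius
  have hr0R : r0 = B.R := by
    by_contra hne
    have hlt : B.R < r0 := lt_of_le_of_ne hr0 (Ne.symm hne)
    have hmin : IsLocalMin B.rho r0 := by
      filter_upwards [Ioi_mem_nhds hlt] with r hr
      have h1 := hA r (le_of_lt hr)
      rw [← heq0] at h1
      exact (Real.rpow_le_rpow_iff (B.rho_pos hr0).le (B.rho_pos (le_of_lt hr)).le
        (by linarith)).1 h1
    have h1 := hmin.hasDerivAt_eq_zero (B.rho_hasDerivAt hr0)
    have h2 : B.H r0 = 0 := by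
      rcases mul_eq_zero.1 h1 with h3 | h3
      · exact absurd h3 (B.rho_pos hr0).ne'
      · rcases div_eq_zero_iff.1 h3 with h4 | h4
        · linarith
        · exact absurd h4 (by linarith)
    obtain ⟨x, hx, h4⟩ := outX (by omega) h hB.toFits0 hO hR hlt
    have h5 := hz x hx
    rw [h2] at h4 h5
    rw [abs_eq_zero.1 h5] at h4
    norm_num at h4
  subst hr0R
  -- the mass function is constant
  have hconst : ∀ r, B.R < r → B.rho r ^ ((n : ℝ) - 2) *
      (1 - Yav B G X.g X.K r / (4 * B.lam r ^ 2)) = 2 * m := by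
    intro r hr
    refine le_antisymm ?_ ?_
    · refine ge_of_tendsto hlim ?_
      filter_upwards [eventually_ge_atTop r] with s hs
      exact hmono (mem_Ici.2 hr.le) (mem_Ici.2 (hr.le.trans hs)) hs
    · rw [← heq0]; exact hbd r hr.le
  have hC : 0 < 2 * m := by
    rw [← heq0]; exact Real.rpow_pos_of_pos (B.rho_pos hr0) _
  obtain ⟨hYc, hYd⟩ := stX1d h (B := B) hKsm
  have hHp : ∀ r, B.R < r → 0 < B.H r := by
    intro r hr
    obtain ⟨x, hx⟩ := exists_len (n := n) (by omega) (r := r) (B.hR.trans hr).le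
    exact (abs_nonneg _).trans_lt ((hgt r hr).1 x hx)
  have e : (n : ℝ) - 1 - 1 = (n : ℝ) - 2 := by ring
  have hkey := mono_eq2 (N := (n : ℝ) - 1) (r0 := B.R) (C := 2 * m) hN (c := fun _ => 1)
    (H := B.H) (Y := Yav B G X.g X.K) (Y' := Yav' B G X.g X.K) (ρ := B.rho) (R := B.Rh)
    (II2 := B.II2) (lam := B.lam) (L2 := B.L2) (I := B.IT)
    (fun r hr => one_pos) hHp
    (fun r hr => Yav_nonneg h hKsm hr (hgt r hr).1)
    (fun r hr => B.rho_pos hr)
    (fun r hr => B.lam_pos r hr)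
    (fun r hr => B.rho_hasDerivAt hr.le)
    hYd
    (fun r hr => by
      rw [one_mul]
      exact stZ1 h hB hKsm hr (hgt r hr).1 (hgt r hr).2)
    (fun r hr => (B.lam_deriv r hr.le).congr_deriv (by rw [one_mul]))
    (fun r hr => B.hU r hr.le _)
    (fun r hr => B.hL r hr.le)
    (fun r hr => B.hJ r hr.le) hC
    (fun r hr => by rw [e]; exact hconst r hr)
  -- the spheres are time flat
  have hlt : ∀ x : E n, B.R < len x → |kpf G X.g X.K x| < B.H (len x) := fun x hx =>
    (hgt _ hx).1 x rfl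
  have hflat : ∀ r, B.R < r → TimeFlat X.g X.K r := by
    intro r hr
    rcases hFl r hr.le with h1 | ⟨-, h1⟩
    · obtain ⟨x, hx⟩ := exists_len (n := n) (by omega) (r := r) (B.hR.trans hr).le
      have h2 := (le_iff92 (K := X.K) h hB.toFits0 (by rw [hx]; exact hr.le)).1 (h1 x hx)
      exact absurd (hlt x (by rw [hx]; exact hr)) (not_lt.2 h2)
    · exact h1
  have hptZ : ∀ x, B.R < len x → PtEqZ B G X.g X.K x := by
    intro x hx
    obtain ⟨h1, -, -⟩ := hkey (len x) hx
    rw [one_mul] at h1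
    exact avg_eqZ h hB hKsm hKsy hx hdec (hgt _ hx).1 (hflat _ hx) h1.ge x rfl
  obtain ⟨hro, hlam⟩ := hround (fun r hr => (hkey r hr).2) (fun x hx => (hptZ x hx).II0)
  have hYlt : ∀ r, B.R < r → Yav B G X.g X.K r < 4 * B.lam r ^ 2 := by
    intro r hr
    have h1 := hconst r hr
    have h2 : 0 < B.rho r ^ ((n : ℝ) - 2) := Real.rpow_pos_of_pos (B.rho_pos hr.le) _
    have h3 : 0 < 1 - Yav B G X.g X.K r / (4 * B.lam r ^ 2) := by
      have h4 : 0 < B.rho r ^ ((n : ℝ) - 2) * (1 - Yav B G X.g X.K r / (4 * B.lam r ^ 2)) := by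
        rw [h1]; exact hC
      exact pos_of_mul_pos_right h4 h2.le
    have h4 := B.lam_pos r hr.le
    have h5 : Yav B G X.g X.K r / (4 * B.lam r ^ 2) < 1 := by linarith
    rwa [div_lt_one (by positivity)] at h5
  have hpt : ∀ x, B.R < len x → PtEqX B G X.g X.K x := fun x hx =>
    ptEqX_of_tg h hx (hptZ x hx) (hlt x hx) fun k =>
      tg_kpf_zero hn h hB.toFits0 hKsm hKsy hro hlam hptZ hlt
        (fun r hr => by have := hkey r hr; rwa [one_mul] at this) hYlt hx k
  obtain ⟨κ, hκ⟩ := stX7 hn h hB.toFits0 hKsm hKsy hro hpt hlt hz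
  have hκ' : ∀ x, B.R ≤ len x → kpf G X.g X.K x = κ (len x) := hκ
  refine isSlice_of_eq hn (stEmb (by omega)) (stB n) h hB.toFits0 hKsm hKsy hκ
    (fun r hr => kap_differentiableAt (by omega) h hKsm hκ hr) hro hlam
    (fun x y hx hxy => rad_const (by omega) h (fun z hz => (hpt z hz).glf0) x y hx hxy)
    (fun x hx => (hpt x hx).mom0) (fun x hx => (hpt x hx).row0) (fun x hx i j => ?_)
    (fun r hr => ?_) (fun r hr => ?_)
  · rw [(hpt x hx).K0 i j, trT_eq h hκ hx.le]
    ring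
  · obtain ⟨x, hx⟩ := exists_len (n := n) (by omega) (r := r) (B.hR.trans hr).le
    have h1 := (hgt r hr).1 x hx
    rw [hκ' x (by rw [hx]; exact hr.le), hx] at h1
    exact h1
  · rw [← hconst r hr]
    have h1 : Yav B G X.g X.K r = Vav X.g r * (B.H r ^ 2 - κ r ^ 2) := by
      unfold Yav Vav av
      have h2 : sphI (fun x => trT G X.K x ^ 2) r =
          sphI (fun x => κ r ^ 2 * (1 / rad X.g x)) r := by
        refine sphI_congr (B.hR.trans hr).le fun x hx => ?_
        have hx' : len x = r := hx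
        have hxR : B.R ≤ len x := by rw [hx']; exact hr.le
        have hp := h.ppos x hxR
        have h3 := hκ x hxR
        rw [hx'] at h3
        rw [← h3, mul_pow, Real.sq_sqrt hp.le]
        field_simp
      rw [h2, Vale.Agent.P366.sphI_const_mul]
      ring
    rw [h1]

/-- the bound with the energy, the vanishing of the momentum and the equality case -/
theorem bothZ2 (hn : 3 ≤ n) {X : Exterior n} {G : Field n}
    {B : Bg n} (h : Lapse G X.g B.R) (hB : B.FitsW G) (hL : B.LamOK G) (hAF : X.IsAF)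
    (hDEC : X.DEC) (hT : X.Trapped) {m : ℝ} {P : Fin n → ℝ} (hm : X.IsEnergy m)
    (hP : X.IsMomentum P)
    (hR : IsGreatest {r | ∃ x, X.F x = 0 ∧ len x = r} B.R) (hK : TwistCond X.g X.K B.R)
    (hround : (∀ r, B.R < r → B.lam r ^ 2 = ((n : ℝ) - 1) * B.L2 r ∧
        B.Rh r / 4 + B.L2 r = B.lam r ^ 2) →
      (∀ x, B.R < len x → ctr G (IIf G) (IIf G) x = B.II2 (len x)) →
      B.RoundAt G ∧ ∀ r, B.R < r → B.lam r = ((n : ℝ) - 1) / (2 * B.rho r)) :
    X.Amin ≠ ⊤ ∧ 0 < m ∧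
      (X.Amin.toReal / omega n) ^ (((n : ℝ) - 2) / (n - 1)) / 2 ≤ m ∧
      ((∀ᶠ r in atTop, TimeFlat X.g X.K r) → P = 0) ∧
      (FlatCond X.g X.K B.R → P = 0 ∧ (Outermost X →
        (X.Amin.toReal / omega n) ^ (((n : ℝ) - 2) / (n - 1)) / 2 = m →
          IsSlice m X.g X.K {x | B.R < len x})) := by
  obtain ⟨h1, h2, h3, h4⟩ := bothZ hn h hB hL hAF hDEC hT hm hP hR hK
  refine ⟨h1, h2, h3, h4, fun hF => ⟨h4 ?_, fun hO heq =>
    rigidZ hn h hB hL hAF hDEC hT hm hR hF hO heq hround⟩⟩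
  obtain ⟨-, hinf⟩ := stX3 hn h hB.toFits0 hL hAF hm
  filter_upwards [hinf, eventually_ge_atTop B.R] with r hr hr2
  rcases hF r hr2 with h5 | ⟨-, h5⟩
  · obtain ⟨x, hx⟩ := exists_len (n := n) (by omega) (r := r) (B.hR.le.trans hr2)
    have h6 := (le_iff92 (K := X.K) h hB.toFits0 (by rw [hx]; exact hr2)).1 (h5 x hx)
    rw [hx] at h6
    exact absurd (hr x hx) (not_lt.2 h6)
  · exact h5

/-- **The theorem, with its equality case.** -/
theorem finalZ2 (hn : 3 ≤ n) {X : Exterior n} (hAF : X.IsAF)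
    (hDEC : X.DEC) (hT : X.Trapped) {m : ℝ} {P : Fin n → ℝ} (hm : X.IsEnergy m)
    (hP : X.IsMomentum P) {R₁ : ℝ}
    (hR : IsGreatest {r | ∃ x, X.F x = 0 ∧ len x = r} R₁)
    (hperp : ∀ x, R₁ ≤ len x → ∀ i, ∑ j, X.g x i j * x j = radial X.g x * x i)
    (hleaf : (∃ Γ, TransGroup n Γ ∧ InvUnder Γ R₁ (spherical X.g)) ∨
      ∃ ρ : ℝ → ℝ, (∀ r, R₁ ≤ r → 0 < ρ r) ∧
        (∀ x, R₁ ≤ len x →
          (mat (unitLapse X.g) x).det = (ρ (len x) / len x) ^ (2 * (n - 1))) ∧
        ∀ r, R₁ < r → sph (vol n) r (sphereScal X.g) / omega n ≤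
          ((n : ℝ) - 1) * ((n : ℝ) - 2) / ρ r ^ 2)
    (hK : TwistCond X.g X.K R₁) :
    X.Amin ≠ ⊤ ∧ 0 < m ∧
      (X.Amin.toReal / omega n) ^ (((n : ℝ) - 2) / (n - 1)) / 2 ≤ m ∧
      ((∀ᶠ r in atTop, TimeFlat X.g X.K r) → P = 0) ∧
      (FlatCond X.g X.K R₁ → P = 0 ∧ (Outermost X →
        (X.Amin.toReal / omega n) ^ (((n : ℝ) - 2) / (n - 1)) / 2 = m →
          IsSlice m X.g X.K {x | R₁ < len x})) := by
  have hout := Vale.Agent.C92.outside_nonneg (by omega) X hR
  have hR0 : 0 < R₁ :=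
    (Vale.Agent.P366.Bridge.toRaw X).R1_pos (by omega) (Vale.Agent.P366.Bridge.raw_R1 X hR)
  have hpos : ∀ x, R₁ ≤ len x → (mat X.g x).PosDef := fun x hx => X.pos x (hout x hx)
  have hgs : ∀ i j, Smooth (fun x => X.g x i j) := fun i j => (X.smooth i j).1
  have hgsy : ∀ x i j, X.g x i j = X.g x j i := fun x i j => (X.symm x i j).1
  have hp : PerpAt R₁ X.g := hperp
  have hl : Lapse (bgF R₁ X.g) X.g R₁ := lapse_bgF hR0 hgs hgsy hpos (hp.nx hR0)
  have hll : Lapse (bgF R₁ X.g) (bgF R₁ X.g) R₁ :=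
    lapse_self hR0 hl.Gs hl.symm hl.pos hl.unit
  rcases hleaf with ⟨Γ, hΓ, htan⟩ | ⟨ρ, hρ, hdens, hcurv⟩
  · have hinv : InvUnder Γ R₁ (bgF R₁ X.g) := by
      refine inv_bgF hR0 hΓ.orth ?_
      rw [← spherical_eq]
      exact htan
    obtain ⟨B, rfl, hB, hL, hE⟩ := exists_bg_trans hn hΓ hl.hR hl.Gs (bgF_symm hgsy) hl.pos
      hl.unit hinv
    exact bothZ2 hn hl (hB.toFitsW (by omega)) hL hAF hDEC hT hm hP hR hK
      (fun h1 _ => ⟨fun x hx i j => (hE _ hx (h1 _ hx).1).2 x rfl i j,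
        fun r hr => (hE r hr (h1 r hr).1).1⟩)
  · have hd : ∀ x, R₁ ≤ len x → (mat (bgF R₁ X.g) x).det =
        (fun r => (ρ r / r) ^ (2 * (n - 1))) (len x) := by
      intro x hx
      simp only
      rw [← hdens x hx]
      unfold mat
      rw [unitLapse_eq hR0 hx]
    have hc : ∀ r, R₁ < r → av (leafScal (bgF R₁ X.g)) r ≤ ((n : ℝ) - 1) * ((n : ℝ) - 2) /
        (r ^ 2 * (fun r => (ρ r / r) ^ (2 * (n - 1))) r ^ (1 / ((n : ℝ) - 1))) := by
      intro r hr
      have hr0 : 0 < r := hR0.trans hr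
      have h1 := hcurv r hr
      have e1 : av (leafScal (bgF R₁ X.g)) r = sph (vol n) r (sphereScal X.g) / omega n := by
        rw [sph_eq_sphI, Vale.Agent.P366.omega_eq]
        unfold av
        congr 1
        refine sphI_congr hr0.le fun x hx => ?_
        exact (sphereScal_eq hll (by unfold len; rw [hx]; exact hr)).symm
      have e2 : ((ρ r / r) ^ (2 * (n - 1))) ^ (1 / ((n : ℝ) - 1)) = (ρ r / r) ^ 2 := by
        have hq : 0 < ρ r / r := div_pos (hρ r hr.le) hr0
        have h3 : ((n - 1 : ℕ) : ℝ) = (n : ℝ) - 1 := by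
          rw [Nat.cast_sub (by omega)]; push_cast; ring
        rw [pow_mul, ← h3, one_div]
        exact Real.pow_rpow_inv_natCast (by positivity) (by omega)
      rw [e1]
      refine h1.trans (le_of_eq ?_)
      simp only [e2]
      congr 1
      field_simp
    obtain ⟨B, rfl, hB, hL, hII2, hlam⟩ := fitsW_of_density' (by omega) hl hd hc
    refine bothZ2 hn hl hB hL hAF hDEC hT hm hP hR hK
      (fun _ hII => ⟨roundAt_of_umbilic' hn hl hB.toFits0 hAF fun x hx => ?_,
        fun r hr => hlam r hr.le⟩)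
    rw [hII x hx, hII2]

end Vale.Agent.H177
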