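import Vale.Agent.P366.H177.GB13

/-! Time flat or torsion bounded centred spheres: the final theorem, with the Gauss-Bonnet
theorem for the leaves if `n = 3`. -/

open MeasureTheory Metric Filter Topology Set
open scoped ContDiff ENNReal Matrix

noncomputable section
namespace Vale.Agent.H177
open Vale.Agent.P366.Stmt Vale.Agent.P366.T2 Vale.Agent.T4
open Vale.Agent.P366.T1.A919 (O_of_bigO)
open Vale.Agent.P366 (sphI sphM av norm_smul_sph sphI_congr)

/-- **The Gauss-Bonnet theorem for the leaves**, `n = 3`. -/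
theorem leaf_three {X : Exterior 3} (hAF : X.IsAF) {R₁ : ℝ}
    (hR : IsGreatest {r | ∃ x, X.F x = 0 ∧ len x = r} R₁)
    (hperp : ∀ x, R₁ ≤ len x → ∀ i, ∑ j, X.g x i j * x j = radial X.g x * x i)
    {ρ : ℝ → ℝ} (hρ : ∀ r, R₁ ≤ r → 0 < ρ r)
    (hdens : ∀ x, R₁ ≤ len x →
      (mat (unitLapse X.g) x).det = (ρ (len x) / len x) ^ (2 * (3 - 1))) {r : ℝ} (hr : R₁ < r) :
    sph (vol 3) r (sphereScal X.g) / omega 3 = 2 / ρ r ^ 2 := by
  have hout := Vale.Agent.C92.outside_nonneg (by norm_num) X hR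
  have hR0 : 0 < R₁ :=
    (Vale.Agent.P366.Bridge.toRaw X).R1_pos (by norm_num) (Vale.Agent.P366.Bridge.raw_R1 X hR)
  have hpos : ∀ x, R₁ ≤ len x → (mat X.g x).PosDef := fun x hx => X.pos x (hout x hx)
  have hgs : ∀ i j, Smooth (fun x => X.g x i j) := fun i j => (X.smooth i j).1
  have hgsy : ∀ x i j, X.g x i j = X.g x j i := fun x i j => (X.symm x i j).1
  have hp : PerpAt R₁ X.g := hperp
  have hl : Lapse (bgF R₁ X.g) X.g R₁ := lapse_bgF hR0 hgs hgsy hpos (hp.nx hR0)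
  have hll : Lapse (bgF R₁ X.g) (bgF R₁ X.g) R₁ :=
    lapse_self hR0 hl.Gs hl.symm hl.pos hl.unit
  have hd : ∀ x, R₁ ≤ len x → (mat (bgF R₁ X.g) x).det =
      (fun r => (ρ r / r) ^ (2 * (3 - 1))) (len x) := by
    intro x hx
    simp only
    rw [← hdens x hx]
    unfold mat
    rw [unitLapse_eq hR0 hx]
  obtain ⟨a, hsm, hpos', had, hpow⟩ :=
    exists_a (d := fun r => (ρ r / r) ^ (2 * (3 - 1))) hl hd (by norm_num)
  have hF0 := fits0_of_det (by norm_num) hl hsm hpos' (fun x hx => by rw [hd x hx, hpow _ hx])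
  obtain ⟨q, hq, hAFq⟩ := hAF
  have hq0 : 0 < q := by
    have : ((3 : ℕ) : ℝ) / 2 - 1 = 1 / 2 := by norm_num
    rw [this] at hq
    linarith
  have D : Dec X.g q := ⟨fun i j => O_of_bigO (hAFq i j 0 0).1,
    fun i j k => O_of_bigO (hAFq i j k 0).2.1⟩
  have hgb := gauss_bonnet hl hq0 D hF0 hr
  have hr0 : 0 < r := hR0.trans hr
  have e1 : av (leafScal (bgF R₁ X.g)) r = sph (vol 3) r (sphereScal X.g) / omega 3 := by
    rw [sph_eq_sphI, Vale.Agent.P366.omega_eq]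
    unfold av
    congr 1
    refine sphI_congr hr0.le fun x hx => ?_
    exact (sphereScal_eq hll (by unfold len; rw [hx]; exact hr)).symm
  have e2 : (bgR (by norm_num : 2 ≤ 3) a R₁ hR0 hsm hpos').ar r = ρ r ^ 2 := by
    obtain ⟨x, hx⟩ := exists_len (n := 3) (by norm_num) (r := r) hr0.le
    have h1 := hF0.hdet x (show R₁ ≤ len x by rw [hx]; exact hr.le)
    rw [hd x (by rw [hx]; exact hr.le), hx] at h1
    have hq1 : 0 < ρ r / r := div_pos (hρ r hr.le) hr0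
    have h2 : √((fun r => (ρ r / r) ^ (2 * (3 - 1))) r) = (ρ r / r) ^ 2 := by
      have h3 : (fun r => (ρ r / r) ^ (2 * (3 - 1))) r = ((ρ r / r) ^ 2) ^ 2 := by
        simp only
        rw [← pow_mul]
      rw [h3]
      exact Real.sqrt_sq (by positivity)
    rw [h2] at h1
    rw [← h1]
    have h4 : (3 : ℕ) - 1 = 2 := rfl
    rw [h4]
    field_simp
  rw [← e1, eq_div_iff (by have := hρ r hr.le; positivity), mul_comm, ← e2]
  exact hgb

variable {n : ℕ}

/-- **The theorem, with its equality case.** -/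
theorem finalN (hn : 3 ≤ n) {X : Exterior n} (hAF : X.IsAF)
    (hDEC : X.DEC) (hT : X.Trapped) {m : ℝ} {P : Fin n → ℝ} (hm : X.IsEnergy m)
    (hP : X.IsMomentum P) {R₁ : ℝ}
    (hR : IsGreatest {r | ∃ x, X.F x = 0 ∧ len x = r} R₁)
    (hperp : ∀ x, R₁ ≤ len x → ∀ i, ∑ j, X.g x i j * x j = radial X.g x * x i)
    (hleaf : (∃ Γ, TransGroup n Γ ∧ InvUnder Γ R₁ (spherical X.g)) ∨
      ∃ ρ : ℝ → ℝ, (∀ r, R₁ ≤ r → 0 < ρ r) ∧
        (∀ x, R₁ ≤ len x →
          (mat (unitLapse X.g) x).det = (ρ (len x) / len x) ^ (2 * (n - 1))) ∧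
        (n = 3 ∨ ∀ r, R₁ < r → sph (vol n) r (sphereScal X.g) / omega n ≤
          ((n : ℝ) - 1) * ((n : ℝ) - 2) / ρ r ^ 2))
    {θ : ℝ → ℝ} (hθ : ∀ r, θ r ≤ 1) (hK : TwistBound X.g X.K θ R₁) :
    X.Amin ≠ ⊤ ∧ 0 < m ∧
      (X.Amin.toReal / omega n) ^ (((n : ℝ) - 2) / (n - 1)) / 2 ≤ m ∧
      ((∀ᶠ r in atTop, TimeFlat X.g X.K r) → P = 0) ∧
      ((∀ r, θ r < 1) → Outermost X →
        (X.Amin.toReal / omega n) ^ (((n : ℝ) - 2) / (n - 1)) / 2 = m →
          P = 0 ∧ IsSlice m X.g X.K {x | R₁ < len x}) := by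
  refine finalM hn hAF hDEC hT hm hP hR hperp ?_ hθ hK
  rcases hleaf with h1 | ⟨ρ, hρ, hdens, hc⟩
  · exact Or.inl h1
  · refine Or.inr ⟨ρ, hρ, hdens, ?_⟩
    rcases hc with h3 | hc
    · subst h3
      intro r hr
      rw [leaf_three hAF hR hperp hρ hdens hr]
      refine le_of_eq ?_
      norm_num
    · exact hc

end Vale.Agent.H177
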