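import Vale.Agent.P366.H177.Final3

/-! The Gauss-Bonnet theorem for the leaves, `n = 3`: matrix algebra. -/

open MeasureTheory Metric Filter Topology Set
open scoped ContDiff ENNReal Matrix

noncomputable section
namespace Vale.Agent.H177
open Vale.Agent.P366.Stmt Vale.Agent.P366.T2 Vale.Agent.T4

/-- real matrices -/
abbrev M3 := Matrix (Fin 3) (Fin 3) ℝ

/-- complex matrices -/
abbrev C3 := Matrix (Fin 3) (Fin 3) ℂ

lemma anti_trace {S X0 X1 X2 : C3} (hS : S * S = 1) (h0 : S * X0 = -(X0 * S))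
    (h1 : S * X1 = -(X1 * S)) (h2 : S * X2 = -(X2 * S)) : (X0 * (X1 * X2)).trace = 0 := by
  have e : S * (X0 * (X1 * X2)) = -(X0 * (X1 * X2) * S) := by
    calc S * (X0 * (X1 * X2)) = S * X0 * (X1 * X2) := by rw [Matrix.mul_assoc]
      _ = -(X0 * (S * (X1 * X2))) := by rw [h0, neg_mul, Matrix.mul_assoc]
      _ = -(X0 * (S * X1 * X2)) := by rw [Matrix.mul_assoc S]
      _ = X0 * (X1 * (S * X2)) := by
          rw [h1, neg_mul, mul_neg, neg_neg, Matrix.mul_assoc X1]
      _ = -(X0 * (X1 * X2) * S) := by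
          rw [h2, mul_neg, mul_neg]
          simp only [Matrix.mul_assoc]
  have h : (X0 * (X1 * X2)).trace = -(X0 * (X1 * X2)).trace := by
    calc (X0 * (X1 * X2)).trace = (S * (S * (X0 * (X1 * X2)))).trace := by
          rw [← Matrix.mul_assoc S S, hS, one_mul]
      _ = -(S * (X0 * (X1 * X2) * S)).trace := by rw [e, mul_neg, Matrix.trace_neg]
      _ = -((X0 * (X1 * X2) * S) * S).trace := by rw [Matrix.trace_mul_comm]
      _ = -(X0 * (X1 * X2)).trace := by rw [Matrix.mul_assoc _ S S, hS, mul_one]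
  have h3 : (2 : ℂ) * (X0 * (X1 * X2)).trace = 0 := by linear_combination h
  exact (mul_eq_zero.1 h3).resolve_left two_ne_zero

/-- complexification -/
def cM : M3 →+* C3 := Complex.ofRealHom.mapMatrix

lemma trace_cM (A : M3) : (cM A).trace = ((A.trace : ℝ) : ℂ) := by
  unfold cM Matrix.trace
  simp

lemma cM_mul (A B C D : M3) : (cM A - Complex.I • cM B) * (cM C - Complex.I • cM D) =
    cM (A * C - B * D) - Complex.I • cM (A * D + B * C) := by
  rw [map_sub, map_add, map_mul, map_mul, map_mul, map_mul]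
  simp only [sub_mul, mul_sub, smul_mul_assoc, mul_smul_comm, smul_sub, smul_add, smul_neg,
    smul_smul, Complex.I_mul_I]
  module

/-- the relations between the derivatives of a projection and a complex structure -/
structure Tan (P J Pk Jk : M3) : Prop where
  a : Pk * P + P * Pk = Pk
  b : Pk * J + P * Jk = Jk
  c : Jk * P + J * Pk = Jk
  d : Jk * J + J * Jk = -Pk

lemma Tan.anti {P J Pk Jk : M3} (h : Tan P J Pk Jk) :
    (1 - cM P + Complex.I • cM J) * (cM Pk - Complex.I • cM Jk) =
      -((cM Pk - Complex.I • cM Jk) * (1 - cM P + Complex.I • cM J)) := by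
  have a : cM P * cM Pk = cM Pk - cM Pk * cM P := by
    rw [← map_mul, ← map_mul, ← map_sub]
    congr 1
    rw [eq_sub_iff_add_eq, add_comm]
    exact h.a
  have b : cM P * cM Jk = cM Jk - cM Pk * cM J := by
    rw [← map_mul, ← map_mul, ← map_sub]
    congr 1
    rw [eq_sub_iff_add_eq, add_comm]
    exact h.b
  have c : cM J * cM Pk = cM Jk - cM Jk * cM P := by
    rw [← map_mul, ← map_mul, ← map_sub]
    congr 1
    rw [eq_sub_iff_add_eq, add_comm]
    exact h.c
  have d : cM J * cM Jk = -cM Pk - cM Jk * cM J := by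
    rw [← map_mul, ← map_mul, ← map_neg, ← map_sub]
    congr 1
    rw [eq_sub_iff_add_eq, add_comm]
    exact h.d
  simp only [sub_mul, add_mul, mul_add, mul_sub, smul_mul_assoc, mul_smul_comm, one_mul, mul_one,
    a, b, c, d, smul_sub, smul_add, smul_neg, smul_smul, Complex.I_mul_I]
  module

lemma im_of {z w : ℝ} (h : (z : ℂ) - Complex.I * w = 0) : w = 0 := by
  have := congrArg Complex.im h
  simpa using this

/-- **The closed form.** -/
theorem alg3 {P J P0 P1 P2 J0 J1 J2 : M3} (hP : P * P = P) (hPJ : P * J = J) (hJP : J * P = J)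
    (hJJ : J * J = -P) (h0 : Tan P J P0 J0) (h1 : Tan P J P1 J1) (h2 : Tan P J P2 J2) :
    (J0 * (J1 * J2 - J2 * J1)).trace = (J0 * (P1 * P2 - P2 * P1)).trace +
      (J1 * (P2 * P0 - P0 * P2)).trace + (J2 * (P0 * P1 - P1 * P0)).trace := by
  have hS : (1 - cM P + Complex.I • cM J) * (1 - cM P + Complex.I • cM J) = 1 := by
    have a : cM P * cM P = cM P := by rw [← map_mul, hP]
    have b : cM P * cM J = cM J := by rw [← map_mul, hPJ]
    have c : cM J * cM P = cM J := by rw [← map_mul, hJP]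
    have d : cM J * cM J = -cM P := by rw [← map_mul, hJJ, map_neg]
    simp only [sub_mul, add_mul, mul_add, mul_sub, smul_mul_assoc, mul_smul_comm, one_mul,
      mul_one, a, b, c, d, smul_sub, smul_add, smul_neg, smul_smul, Complex.I_mul_I]
    module
  have t1 := anti_trace hS h0.anti h1.anti h2.anti
  have t2 := anti_trace hS h0.anti h2.anti h1.anti
  rw [cM_mul, cM_mul, Matrix.trace_sub, Matrix.trace_smul, trace_cM, trace_cM, smul_eq_mul] at t1 t2
  have i1 := im_of t1
  have i2 := im_of t2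
  simp only [mul_add, mul_sub, Matrix.trace_add, Matrix.trace_sub] at i1 i2 ⊢
  have c1 : (P0 * (P1 * J2)).trace = (J2 * (P0 * P1)).trace := by
    rw [← Matrix.mul_assoc, Matrix.trace_mul_comm]
  have c2 : (P0 * (J1 * P2)).trace = (J1 * (P2 * P0)).trace := by
    rw [Matrix.trace_mul_comm, Matrix.mul_assoc]
  have c3 : (P0 * (P2 * J1)).trace = (J1 * (P0 * P2)).trace := by
    rw [← Matrix.mul_assoc, Matrix.trace_mul_comm]
  have c4 : (P0 * (J2 * P1)).trace = (J2 * (P1 * P0)).trace := by
    rw [Matrix.trace_mul_comm, Matrix.mul_assoc]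
  rw [c1, c2] at i1
  rw [c3, c4] at i2
  linarith

end Vale.Agent.H177
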