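import Vale.Agent.P366.H177.GB9

/-! The Gauss-Bonnet theorem for the leaves, `n = 3`: the pointwise identity. -/

open MeasureTheory Metric Filter Topology Set
open scoped ContDiff ENNReal Matrix

noncomputable section
namespace Vale.Agent.H177
open Vale.Agent.P366.Stmt Vale.Agent.P366.T2 Vale.Agent.T4
open Vale.Agent.P366 (sphI sphM av norm_smul_sph integrable_sph sphI_congr sphI_continuousOn
  cont_smul_sph1)

/-- the unit coordinate row -/
def eo (c : Fin 3) : Fin 3 → ℝ := fun i => if i = c then 1 else 0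

/-- the derivatives of the projection -/
def mP (n : Fin 3 → ℝ) (t : ℝ) (k : Fin 3) : M3 := fun i j =>
  -((((1 : M3) i k - n i * n k) * t) * n j + n i * (((1 : M3) j k - n j * n k) * t))

/-- the derivatives of the projection in the frame -/
def eP (t : ℝ) (c : Fin 3) : M3 := fun i j => -(t * (eo c i * eo 0 j + eo 0 i * eo c j))

/-- the derivatives of the projection, partially in the frame -/
def oP (O : M3) (t : ℝ) (c : Fin 3) : M3 := fun i j => -(t * (O c i * O 0 j + O 0 i * O c j))

/-- the square of a vector -/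
def nN (n : Fin 3 → ℝ) : M3 := fun i j => n i * n j

section

variable {O U M : M3} {L K : Fin 3 → M3} {n : Fin 3 → ℝ} {t d d' : ℝ}
  {D p q s a0 b0 c0 p0 q0 s0 p1 q1 s1 p2 q2 s2 : ℝ}

lemma gU_cr0 : gU p q s * cr (eo 0) = gj p q s := by
  funext i j
  fin_cases i <;> fin_cases j <;> simp [gU, cr, gj, eo]

lemma gA_cr : gA t p q p1 q1 s1 * cr (eo 0) + t • (gU p q s * cr (eo 1)) =
    gj1 t p q s p1 q1 s1 := by
  funext i j
  fin_cases i <;> fin_cases j <;> simp [gU, gA, cr, gj1, eo] <;> ring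

lemma gB_cr : gB t q s p2 q2 s2 * cr (eo 0) + t • (gU p q s * cr (eo 2)) =
    gj2 t p q s p2 q2 s2 := by
  funext i j
  fin_cases i <;> fin_cases j <;> simp [gU, gB, cr, gj2, eo] <;> ring

lemma conj_cr' (hd : O.det = 1) (c : Fin 3) : O * cr (O c) * Oᵀ = cr (eo c) := conj_cr hd c

lemma cr_sum (a : Fin 3 → ℝ) (v : Fin 3 → Fin 3 → ℝ) :
    ∑ k, a k • cr (v k) = cr (fun i => ∑ k, a k * v k i) := by
  funext i j
  simp only [Matrix.sum_apply, Matrix.smul_apply, smul_eq_mul, Fin.sum_univ_three]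
  fin_cases i <;> fin_cases j <;> simp [cr] <;> ring

lemma cr_smul (a : ℝ) (v : Fin 3 → ℝ) : cr (fun i => a * v i) = a • cr v := by
  funext i j
  fin_cases i <;> fin_cases j <;> simp [cr]

/-- the derivative of the complex structure in the frame -/
lemma rot_J (hO : O * Oᵀ = 1) (hO' : Oᵀ * O = 1) (hd : O.det = 1) (h0 : ∀ j, O 0 j = n j)
    {c : Fin 3} (hc : c ≠ 0) :
    rot O (fun k => (d' * n k) • (U * cr n) + d • (L k * cr n +
      U * cr (fun i => ((1 : M3) i k - n i * n k) * t))) c =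
    d • (rot O L c * cr (eo 0) + t • ((O * U * Oᵀ) * cr (eo c))) := by
  have hn : ∑ k, O c k * n k = 0 := by
    rw [row_n hO h0, Matrix.one_apply_ne hc]
  have e0 : cr n = cr (O 0) := by
    congr 1
    funext j
    exact (h0 j).symm
  have e1 : ∑ k, O c k • ((d' * n k) • (U * cr n) + d • (L k * cr n +
      U * cr (fun i => ((1 : M3) i k - n i * n k) * t))) =
      d • ((∑ k, O c k • L k) * cr (O 0) + U * (t • cr (O c))) := by
    have e2 : ∑ k, O c k • cr (fun i => ((1 : M3) i k - n i * n k) * t) = t • cr (O c) := by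
      rw [cr_sum, ← cr_smul]
      congr 1
      funext i
      have e3 : ∀ k, O c k * (((1 : M3) i k - n i * n k) * t) =
          t * (O c k * (1 : M3) k i) - t * n i * (O c k * n k) := by
        intro k
        have : (1 : M3) i k = (1 : M3) k i := by
          rw [Matrix.one_apply, Matrix.one_apply]
          simp only [eq_comm]
        rw [this]
        ring
      simp only [e3, Finset.sum_sub_distrib, ← Finset.mul_sum, hn]
      rw [← Matrix.mul_apply, mul_one]
      ring
    rw [← e2, ← e0, Finset.mul_sum, Finset.sum_mul, ← Finset.sum_add_distrib, Finset.smul_sum]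
    have e4 : ∀ k, O c k • ((d' * n k) • (U * cr n) + d • (L k * cr n +
        U * cr (fun i => ((1 : M3) i k - n i * n k) * t))) =
        (d' * (O c k * n k)) • (U * cr n) + d • (O c k • L k * cr n +
          U * O c k • cr (fun i => ((1 : M3) i k - n i * n k) * t)) := by
      intro k
      rw [Matrix.smul_mul, Matrix.mul_smul]
      module
    simp only [e4, Finset.sum_add_distrib, ← Finset.sum_smul, ← Finset.mul_sum, hn, mul_zero,
      zero_smul, zero_add]
  unfold rot
  rw [e1, Matrix.mul_smul, Matrix.smul_mul, mul_add, add_mul, Matrix.mul_smul U,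
    conj_mul hO', conj_cr' hd, Matrix.mul_smul, Matrix.smul_mul, conj_mul hO' (A := U),
    conj_cr' hd]

/-- the derivative of the projection in the frame -/
lemma rot_P (hO : O * Oᵀ = 1) (h0 : ∀ j, O 0 j = n j) {c : Fin 3} (hc : c ≠ 0) :
    rot O (mP n t) c = eP t c := by
  have hn : ∑ k, O c k * n k = 0 := by
    rw [row_n hO h0, Matrix.one_apply_ne hc]
  have e2 : ∀ i, ∑ k, O c k * (((1 : M3) i k - n i * n k) * t) = t * O c i := by
    intro i
    have e3 : ∀ k, O c k * (((1 : M3) i k - n i * n k) * t) =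
        t * (O c k * (1 : M3) k i) - t * n i * (O c k * n k) := by
      intro k
      have : (1 : M3) i k = (1 : M3) k i := by
        rw [Matrix.one_apply, Matrix.one_apply]
        simp only [eq_comm]
      rw [this]
      ring
    simp only [e3, Finset.sum_sub_distrib, ← Finset.mul_sum, hn]
    rw [← Matrix.mul_apply, mul_one]
    ring
  have e1 : ∑ k, O c k • mP n t k = oP O t c := by
    funext i j
    rw [Matrix.sum_apply]
    simp only [Matrix.smul_apply, smul_eq_mul]
    have e5 : ∀ k, O c k * mP n t k i j =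
        -(n j * (O c k * (((1 : M3) i k - n i * n k) * t)) +
          n i * (O c k * (((1 : M3) j k - n j * n k) * t))) := fun k => by
      unfold mP
      ring
    simp only [e5, Finset.sum_neg_distrib, Finset.sum_add_distrib, ← Finset.mul_sum, e2]
    unfold oP
    rw [h0, h0]
    ring
  have hOO : ∀ a b, ∑ j, O a j * O b j = (1 : M3) a b := by
    intro a b
    rw [← hO, Matrix.mul_apply]
    rfl
  unfold rot
  rw [e1]
  funext a b
  have ea : ∀ a b, (1 : M3) a b = eo b a := fun a b => by rw [Matrix.one_apply]; rfl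
  simp only [Matrix.mul_apply, Matrix.transpose_apply]
  have e6 : ∀ j, (∑ i, O a i * oP O t c i j) * O b j =
      -(t * ((∑ i, O a i * O c i) * (O b j * O 0 j) + (∑ i, O a i * O 0 i) *
        (O b j * O c j))) := by
    intro j
    have e7 : ∀ i, O a i * oP O t c i j =
        -(t * (O 0 j * (O a i * O c i) + O c j * (O a i * O 0 i))) := fun i => by
      unfold oP
      ring
    simp only [e7, Finset.sum_neg_distrib, ← Finset.mul_sum, Finset.sum_add_distrib]
    ring
  simp only [e6, Finset.sum_neg_distrib, ← Finset.mul_sum, Finset.sum_add_distrib, hOO, ea]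
  rfl

lemma P_comm (d t p q s : ℝ) : ((d • gj p q s) *
    (eP t 1 * eP t 2 - eP t 2 * eP t 1)).trace = d * (t ^ 2 * (p + s)) := by
  have e1 : eP t 1 = !![0, -t, 0; -t, 0, 0; 0, 0, 0] := by
    funext i j
    fin_cases i <;> fin_cases j <;> simp [eP, eo]
  have e2 : eP t 2 = !![0, 0, -t; 0, 0, 0; -t, 0, 0] := by
    funext i j
    fin_cases i <;> fin_cases j <;> simp [eP, eo]
  rw [e1, e2]
  simp [Matrix.trace_fin_three, gj]
  ring

/-- **The pointwise identity, for matrices.** -/
theorem pt_alg (hn : n 0 * n 0 + n 1 * n 1 + n 2 * n 2 = 1) {ℓ : ℝ} (hU : Uᵀ = U) (hM : Mᵀ = M)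
    (hMU : M * U = 1)
    (hUn : ∀ i, ∑ j, U i j * n j = n i) (hMn : ∀ i, ∑ j, M i j * n j = n i)
    (hLs : ∀ k, (L k)ᵀ = L k) (hKs : ∀ k, (K k)ᵀ = K k)
    (hLn : ∀ k i, ∑ j, L k i j * n j = t * ((1 : M3) i k - U i k))
    (hKn : ∀ k i, ∑ j, K k i j * n j = t * ((1 : M3) i k - M i k))
    (hKL : ∀ k, K k * U + M * L k = 0) (htr : ∀ k, (M * L k).trace = ℓ * n k)
    (hdd : d * d = M.det) {S A : M3} (hS : S = U - nN n)
    (hA : A = (1 / 2 : ℝ) • (∑ k, n k • K k) + t • (M - nN n))
    {J : M3} {X P : Fin 3 → M3} (hJ : J = d • (U * cr n))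
    (hX : ∀ k, X k = (d' * n k) • (U * cr n) + d • (L k * cr n +
      U * cr (fun i => ((1 : M3) i k - n i * n k) * t)))
    (hP : ∀ k, P k = mP n t k) :
    d * (((S * A) * (S * A)).trace - 2 * t ^ 2 + t * (∑ k, n k * (L k).trace) +
      t ^ 2 * (U.trace - 1) - (1 / 2) * F1 U L K + (1 / 4) * F2 U L K) =
    -(1 / 4) * (n 0 * ((J * (X 1 * X 2 - X 2 * X 1)).trace - 3 *
        (J * (P 1 * P 2 - P 2 * P 1)).trace) +
      n 1 * ((J * (X 2 * X 0 - X 0 * X 2)).trace - 3 * (J * (P 2 * P 0 - P 0 * P 2)).trace) +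
      n 2 * ((J * (X 0 * X 1 - X 1 * X 0)).trace - 3 * (J * (P 0 * P 1 - P 1 * P 0)).trace)) := by
  obtain ⟨O, hO, hO', hdO, h0⟩ := exists_frame hn
  obtain ⟨p, q, s, a0, b0, c0, p0, q0, s0, p1, q1, s1, p2, q2, s2, H⟩ :=
    exists_shape (t := t) (ℓ := ℓ) hO hO' hdO h0 hU hM hMU hUn hMn hLs hKs hLn hKn hKL htr
  have hc := core (t := t) (p1 := p1) (q1 := q1) (s1 := s1) (p2 := p2) (q2 := q2) (s2 := s2)
    H.hI H.ha H.hb H.hc
  have hNN : O * nN n * Oᵀ = nN (eo 0) := by
    funext a b
    have hOO : ∀ a, ∑ j, O a j * n j = eo 0 a := by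
      intro a
      rw [row_n hO h0, Matrix.one_apply]
      rfl
    simp only [Matrix.mul_apply, Matrix.transpose_apply]
    have e1 : ∀ j, (∑ i, O a i * nN n i j) * O b j = (∑ i, O a i * n i) * (O b j * n j) := by
      intro j
      unfold nN
      rw [Finset.sum_mul, Finset.sum_mul]
      exact Finset.sum_congr rfl fun i _ => by ring
    simp only [e1, ← Finset.mul_sum, hOO]
    rfl
  have eS : O * S * Oᵀ = gN p q s := by
    rw [hS, mul_sub, sub_mul, H.U, hNN]
    funext i j
    fin_cases i <;> fin_cases j <;> simp [gU, gN, eo, nN]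
  have eA : O * A * Oᵀ = gAA t M.det p q s a0 b0 c0 := by
    have e1 : O * (∑ k, n k • K k) * Oᵀ = rot O K 0 := by
      unfold rot
      simp only [h0]
    rw [hA, mul_add, add_mul, Matrix.mul_smul, Matrix.smul_mul, e1, Matrix.mul_smul,
      Matrix.smul_mul, mul_sub, sub_mul, H.M, hNN, H.K]
    funext i j
    fin_cases i <;> fin_cases j <;> simp [gU, gN, eo, gAA, gK, nN] <;> ring
  have eSA : ((S * A) * (S * A)).trace = ((gN p q s * gAA t M.det p q s a0 b0 c0) *
      (gN p q s * gAA t M.det p q s a0 b0 c0)).trace := by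
    rw [← conj_trace hO', conj_mul hO', conj_mul hO', eS, eA]
  have eT : ∑ k, n k * (L k).trace = p0 + s0 := by
    have e1 : ∑ k, n k * (L k).trace = (rot O L 0).trace := by
      unfold rot
      rw [conj_trace hO', Matrix.trace_sum]
      exact Finset.sum_congr rfl fun k _ => by rw [Matrix.trace_smul, smul_eq_mul, h0]
    rw [e1, H.L]
    simp [gL, gN, Matrix.trace_fin_three]
  have eU : U.trace - 1 = p + s := by
    rw [← conj_trace hO' (A := U), H.U]
    simp [gU, Matrix.trace_fin_three]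
    ring
  have eF1 : F1 U L K = _ := (F1_rot hO').symm
  have eF2 : F2 U L K = _ := (F2_rot hO').symm
  rw [H.U, H.L, H.K] at eF1 eF2
  rw [eSA, eT, eU, eF1, eF2]
  have eJ : O * J * Oᵀ = d • gj p q s := by
    have e0 : cr n = cr (O 0) := by
      congr 1
      funext j
      exact (h0 j).symm
    rw [hJ, Matrix.mul_smul, Matrix.smul_mul, conj_mul hO', e0, conj_cr' hdO, H.U, gU_cr0]
  have hXf : X = fun k => (d' * n k) • (U * cr n) + d • (L k * cr n +
      U * cr (fun i => ((1 : M3) i k - n i * n k) * t)) := funext hX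
  have hPf : P = mP n t := funext hP
  have X1 : rot O X 1 = d • gj1 t p q s p1 q1 s1 := by
    rw [hXf, rot_J hO hO' hdO h0 (by decide), H.U, H.L, ← gA_cr (t := t)]
    rfl
  have X2 : rot O X 2 = d • gj2 t p q s p2 q2 s2 := by
    rw [hXf, rot_J hO hO' hdO h0 (by decide), H.U, H.L, ← gB_cr (t := t)]
    rfl
  have P1 : rot O P 1 = eP t 1 := by rw [hPf, rot_P hO h0 (by decide)]
  have P2 : rot O P 2 = eP t 2 := by rw [hPf, rot_P hO h0 (by decide)]
  have cX := comm_rot hO' hdO J X
  have cP := comm_rot hO' hdO J P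
  rw [eJ, X1, X2] at cX
  rw [eJ, P1, P2, P_comm] at cP
  rw [h0, h0, h0] at cX cP
  have cX' : ((d • gj p q s) * ((d • gj1 t p q s p1 q1 s1) * (d • gj2 t p q s p2 q2 s2) -
      (d • gj2 t p q s p2 q2 s2) * (d • gj1 t p q s p1 q1 s1))).trace =
      d * (M.det * (gj p q s * (gj1 t p q s p1 q1 s1 * gj2 t p q s p2 q2 s2 -
        gj2 t p q s p2 q2 s2 * gj1 t p q s p1 q1 s1)).trace) := by
    rw [← hdd]
    simp only [Matrix.smul_mul, Matrix.mul_smul, ← smul_sub, Matrix.trace_smul, smul_eq_mul]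
    ring
  rw [cX'] at cX
  linear_combination d * hc + (1 / 4) * cX - (3 / 4) * cP

end

end Vale.Agent.H177
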