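import Vale.Agent.P366.H177.GB10

/-! The Gauss-Bonnet theorem for the leaves, `n = 3`: the scalar curvature of the leaves. -/

open MeasureTheory Metric Filter Topology Set
open scoped ContDiff ENNReal Matrix

noncomputable section
namespace Vale.Agent.H177
open Vale.Agent.P366.Stmt Vale.Agent.P366.T2 Vale.Agent.T4
open Vale.Agent.P366 (sphI sphM av norm_smul_sph integrable_sph sphI_congr sphI_continuousOn
  cont_smul_sph1)

/-- the divergence of the tangential inverse metric -/
def vS (G : Field 3) (k : Fin 3) (x : E 3) : ℝ := ∑ j, pd j (Sm G k j) x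

/-- the trace of the tangential inverse metric -/
def tS (G : Field 3) (x : E 3) : ℝ := ∑ i, Sm G i i x

/-- the tangential part of the divergence -/
def vT (G : Field 3) (k : Fin 3) (x : E 3) : ℝ := vS G k x + tS G x * (len x)⁻¹ * nx k x

section

variable {G g : Field 3} {B : Bg 3} {x : E 3}

lemma sum_dn (k : Fin 3) (f : Fin 3 → ℝ) : ∑ i, dn x k i * f i =
    (f k - nx k x * ∑ i, nx i x * f i) * (1 / len x) := by
  unfold dn
  have e : ∀ i, ((1 : M3) i k - nx i x * nx k x) * (1 / len x) * f i =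
      (f i * (1 : M3) i k) * (1 / len x) - nx k x * (1 / len x) * (nx i x * f i) := fun i => by
    ring
  simp only [e, Finset.sum_sub_distrib, ← Finset.mul_sum, ← Finset.sum_mul]
  have e2 : ∑ i, f i * (1 : M3) i k = f k := by
    simp [Matrix.one_apply]
  rw [e2]
  ring

lemma sum_dn_diag (hx : x ≠ 0) : ∑ i, dn x i i = 2 * (1 / len x) := by
  unfold dn
  rw [← Finset.sum_mul, Finset.sum_sub_distrib, sum_nx_mul hx]
  simp [Fin.sum_univ_three]
  left
  norm_num

lemma HP_linv (hx : x ≠ 0) (k : Fin 3) :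
    HP k (fun y : E 3 => (len y)⁻¹) (-((len x)⁻¹ ^ 2) * nx k x) x := by
  have h1 := HP.radial hx (hasDerivAt_inv (len_ne hx)) k
  have e : -(len x ^ 2)⁻¹ / len x * x k = -((len x)⁻¹ ^ 2) * nx k x := by
    unfold nx
    rw [inv_pow]
    ring
  rw [e] at h1
  exact h1

lemma HP_rad' {f : ℝ → ℝ} (hx : x ≠ 0) (hf : DifferentiableAt ℝ f (len x)) (k : Fin 3) :
    HP k (fun y : E 3 => f (len y)) (deriv f (len x) * nx k x) x := by
  have h1 := HP.radial hx hf.hasDerivAt k
  have e : deriv f (len x) / len x * x k = deriv f (len x) * nx k x := by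
    unfold nx
    ring
  rw [e] at h1
  exact h1

section

variable {R : ℝ} (h : Lapse G g R)
include h

lemma vS_nx (hx : R < len x) : ∑ k, nx k x * vS G k x = -(tS G x * (len x)⁻¹) := by
  have hx0 := h.ne_zero hx.le
  have h1 : ∀ j, ∑ k, (dn x j k * Sm G k j x + nx k x * pd j (Sm G k j) x) = 0 := by
    intro j
    have a1 : HP j (fun y => ∑ k, nx k y * Sm G k j y) (∑ k, (dn x j k * Sm G k j x +
        nx k x * pd j (Sm G k j) x)) x := HP.sum Finset.univ fun k _ =>
      (HP_nx' hx0 j k).mul (HP.of_diff ((h.contDiffAt_Sm hx k j).differentiableAt (by simp)))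
    have a2 : (fun _ : E 3 => (0 : ℝ)) =ᶠ[𝓝 x] fun y => ∑ k, nx k y * Sm G k j y := by
      filter_upwards [(isOpen_out R).mem_nhds hx] with y hy
      exact (h.nx_Sm (le_of_lt hy) j).symm
    exact (a1.congr a2).pd.symm.trans (HP.const j 0 x).pd
  have h2 : ∀ j, ∑ k, nx k x * pd j (Sm G k j) x = -(Sm G j j x * (1 / len x)) := by
    intro j
    have h3 := h1 j
    rw [Finset.sum_add_distrib, sum_dn, h.nx_Sm hx.le] at h3
    linarith
  unfold vS tS
  simp only [Finset.mul_sum]
  rw [Finset.sum_comm]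
  simp only [h2, Finset.sum_neg_distrib, Finset.sum_mul, one_div]

lemma vT_nx (hx : R < len x) : ∑ k, nx k x * vT G k x = 0 := by
  have hx0 := h.ne_zero hx.le
  unfold vT
  have e : ∀ k, nx k x * (vS G k x + tS G x * (len x)⁻¹ * nx k x) =
      nx k x * vS G k x + tS G x * (len x)⁻¹ * (nx k x * nx k x) := fun k => by ring
  simp only [e, Finset.sum_add_distrib, ← Finset.mul_sum, vS_nx h hx, sum_nx_mul hx0]
  ring

lemma smooth_tS (hx : R < len x) : ContDiffAt ℝ ∞ (tS G) x :=
  ContDiffAt.sum fun i _ => h.contDiffAt_Sm hx i i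

lemma smooth_vT (hx : R < len x) (k : Fin 3) : ContDiffAt ℝ ∞ (vT G k) x := by
  have hx0 := h.ne_zero hx.le
  have h1 : ContDiffAt ℝ ∞ (vS G k) x :=
    ContDiffAt.sum fun j _ => contDiffAt_pd (h.contDiffAt_Sm hx k j) j
  exact h1.add (((smooth_tS h hx).mul ((contDiffAt_len hx0).inv (len_ne hx0))).mul
    (contDiffAt_nx k hx0))

lemma pd_up (hx : R < len x) (k i j : Fin 3) :
    HP k (up G i j) (pd k (Sm G i j) x + (dn x k i * nx j x + nx i x * dn x k j)) x := by
  have hx0 := h.ne_zero hx.le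
  have h1 := (HP.of_diff (k := k) ((h.contDiffAt_Sm hx i j).differentiableAt (by simp))).add
    ((HP_nx' hx0 k i).mul (HP_nx' hx0 k j))
  refine h1.congr (Eventually.of_forall fun y => ?_)
  unfold Sm
  ring

end

section

variable (h : Lapse G g B.R) (hF : B.Fits0 G)
include h hF

lemma Lg_eq (hx : B.R < len x) (i : Fin 3) :
    Lg G i x = (B.H (len x) - 2 * (len x)⁻¹) * nx i x := by
  rw [hF.hL x hx i]
  push_cast
  ring

lemma Vg_eq (hx : B.R < len x) (k : Fin 3) : Vg G k x =
    -((B.H (len x) - tS G x * (len x)⁻¹) * nx k x) - vT G k x := by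
  have hx0 := h.ne_zero hx.le
  unfold Vg
  have e1 : ∑ j, up G k j x * Lg G j x = (B.H (len x) - 2 * (len x)⁻¹) * nx k x := by
    have e : ∀ j, up G k j x * Lg G j x =
        (B.H (len x) - 2 * (len x)⁻¹) * (up G k j x * nx j x) := fun j => by
      rw [Lg_eq h hF hx]
      ring
    simp only [e, ← Finset.mul_sum, h.up_nx hx.le]
  have e2 : ∑ j, pd j (up G k j) x = vS G k x + 2 * (len x)⁻¹ * nx k x := by
    have e : ∀ j, pd j (up G k j) x = pd j (Sm G k j) x + (dn x j k * nx j x +
        nx k x * dn x j j) := fun j => (pd_up h hx j k j).pd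
    have e3 : ∑ j, dn x j k * nx j x = 0 := by
      have e4 : ∀ j, dn x j k * nx j x = dn x k j * nx j x := by
        intro j
        unfold dn
        have : (1 : M3) k j = (1 : M3) j k := by
          rw [Matrix.one_apply, Matrix.one_apply]
          simp only [eq_comm]
        rw [this]
        ring
      simp only [e4, sum_dn, sum_nx_mul hx0]
      ring
    simp only [e, Finset.sum_add_distrib, ← Finset.mul_sum, sum_dn_diag hx0, e3]
    unfold vS
    rw [one_div]
    ring
  rw [e1, e2]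
  unfold vT
  ring

lemma div_Vg (hx : B.R < len x) : ∑ k, pd k (Vg G k) x =
    -(deriv B.H (len x)) + dN (tS G) x * (len x)⁻¹ - tS G x * (len x)⁻¹ ^ 2 -
      (B.H (len x) - tS G x * (len x)⁻¹) * (2 * (len x)⁻¹) - ∑ k, pd k (vT G k) x := by
  have hx0 := h.ne_zero hx.le
  have h1 : ∀ k, pd k (Vg G k) x = -((deriv B.H (len x) * nx k x -
      (pd k (tS G) x * (len x)⁻¹ + tS G x * (-((len x)⁻¹ ^ 2) * nx k x))) * nx k x +
      (B.H (len x) - tS G x * (len x)⁻¹) * dn x k k) - pd k (vT G k) x := by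
    intro k
    have a1 := ((HP_rad' hx0 (B.H_diff _ hx.le) k).sub ((HP.of_diff (k := k)
      ((smooth_tS h hx).differentiableAt (by simp))).mul (HP_linv hx0 k))).mul (HP_nx' hx0 k k)
    have a2 := a1.neg.sub (HP.of_diff (k := k) ((smooth_vT h hx k).differentiableAt (by simp)))
    refine (a2.congr ?_).pd
    filter_upwards [(isOpen_out B.R).mem_nhds hx] with y hy
    exact Vg_eq h hF hy k
  have h2 : ∀ k, pd k (Vg G k) x = (-(deriv B.H (len x)) - tS G x * (len x)⁻¹ ^ 2) *
      (nx k x * nx k x) + (len x)⁻¹ * (nx k x * pd k (tS G) x) -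
      (B.H (len x) - tS G x * (len x)⁻¹) * dn x k k - pd k (vT G k) x := fun k => by
    rw [h1]
    ring
  simp only [h2, Finset.sum_sub_distrib, Finset.sum_add_distrib, ← Finset.mul_sum,
    sum_nx_mul hx0, sum_dn_diag hx0]
  unfold dN
  rw [one_div]
  ring

lemma tr_up (hx : B.R < len x) : ∑ i, up G i i x = tS G x + 1 := by
  have hx0 := h.ne_zero hx.le
  unfold tS Sm
  rw [Finset.sum_sub_distrib, sum_nx_mul hx0]
  ring

lemma up_dLg (hx : B.R < len x) : ∑ i, ∑ j, up G i j x * pd j (Lg G i) x =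
    deriv B.H (len x) + 2 * (len x)⁻¹ ^ 2 + (B.H (len x) - 2 * (len x)⁻¹) * (tS G x *
      (len x)⁻¹) := by
  have hx0 := h.ne_zero hx.le
  have h1 : ∀ i j, pd j (Lg G i) x = (deriv B.H (len x) * nx j x -
      2 * (-((len x)⁻¹ ^ 2) * nx j x)) * nx i x +
      (B.H (len x) - 2 * (len x)⁻¹) * dn x j i := by
    intro i j
    have a1 := ((HP_rad' hx0 (B.H_diff _ hx.le) j).sub ((HP_linv hx0 j).const_mul 2)).mul
      (HP_nx' hx0 j i)
    refine (a1.congr ?_).pd
    filter_upwards [(isOpen_out B.R).mem_nhds hx] with y hy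
    exact Lg_eq h hF hy i
  have h2 : ∀ i j, up G i j x * pd j (Lg G i) x =
      (deriv B.H (len x) + 2 * (len x)⁻¹ ^ 2) * (nx i x * (up G i j x * nx j x)) +
      (B.H (len x) - 2 * (len x)⁻¹) * (len x)⁻¹ * (up G i j x * (1 : M3) j i -
        nx i x * (up G i j x * nx j x)) := by
    intro i j
    rw [h1]
    unfold dn
    have : (1 : M3) i j = (1 : M3) j i := by
      rw [Matrix.one_apply, Matrix.one_apply]
      simp only [eq_comm]
    rw [this]
    ring
  have h3 : ∀ i, ∑ j, up G i j x * (1 : M3) j i = up G i i x := by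
    intro i
    simp [Matrix.one_apply]
  simp only [h2, Finset.sum_add_distrib, ← Finset.mul_sum, Finset.sum_sub_distrib,
    h.up_nx hx.le, h3, sum_nx_mul hx0, tr_up h hF hx]
  ring

lemma LV (hx : B.R < len x) : ∑ l, Lg G l x * Vg G l x =
    -((B.H (len x) - 2 * (len x)⁻¹) * (B.H (len x) - tS G x * (len x)⁻¹)) := by
  have hx0 := h.ne_zero hx.le
  have h1 : ∀ l, Lg G l x * Vg G l x = -((B.H (len x) - 2 * (len x)⁻¹) *
      (B.H (len x) - tS G x * (len x)⁻¹)) * (nx l x * nx l x) -
      (B.H (len x) - 2 * (len x)⁻¹) * (nx l x * vT G l x) := fun l => by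
    rw [Lg_eq h hF hx, Vg_eq h hF hx]
    ring
  simp only [h1, Finset.sum_sub_distrib, ← Finset.mul_sum, vT_nx h hx, sum_nx_mul hx0]
  ring

lemma T1_eq (hx : B.R < len x) : (∑ k, ∑ l, up G k l x * ∑ i, ∑ j, pd k (up G i j) x *
    pd i (fun y => G y j l) x) =
    F1 (UF G x) (fun k => dM k (UF G) x) (fun k => dM k (mat G) x) := by
  unfold F1
  refine Finset.sum_congr rfl fun k _ => ?_
  have e : ∀ i, ((dM k (UF G) x * (dM i (mat G) x * UF G x) : M3) i k) =
      ∑ l, up G k l x * ∑ j, pd k (up G i j) x * pd i (fun y => G y j l) x := by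
    intro i
    rw [Matrix.mul_apply]
    simp only [Matrix.mul_apply, Finset.mul_sum]
    rw [Finset.sum_comm]
    refine Finset.sum_congr rfl fun l _ => Finset.sum_congr rfl fun j _ => ?_
    have e1 : UF G x l k = up G k l x := h.up_symm hx.le l k
    rw [e1]
    have e2 : dM k (UF G) x i j = pd k (up G i j) x := rfl
    have e3 : dM i (mat G) x j l = pd i (fun y => G y j l) x := rfl
    rw [e2, e3]
    ring
  simp only [e]
  rw [Finset.sum_comm]
  refine Finset.sum_congr rfl fun l _ => ?_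
  rw [Finset.mul_sum]

lemma T2_eq (hx : B.R < len x) : (∑ k, ∑ l, up G k l x * ∑ i, ∑ j, pd k (up G i j) x *
    pd l (fun y => G y i j) x) =
    F2 (UF G x) (fun k => dM k (UF G) x) (fun k => dM k (mat G) x) := by
  unfold F2
  refine Finset.sum_congr rfl fun k _ => Finset.sum_congr rfl fun l _ => ?_
  have e1 : UF G x k l = up G k l x := rfl
  rw [e1]
  congr 1
  unfold Matrix.trace
  refine Finset.sum_congr rfl fun i _ => ?_
  rw [Matrix.diag_apply, Matrix.mul_apply]
  refine Finset.sum_congr rfl fun j _ => ?_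
  have e2 : dM k (UF G) x i j = pd k (up G i j) x := rfl
  have e3 : dM l (mat G) x j i = pd l (fun y => G y i j) x := by
    have hev : (fun y => G y i j) =ᶠ[𝓝 x] fun y => G y j i := by
      filter_upwards [(isOpen_out B.R).mem_nhds hx] with y hy
      exact h.symm y (le_of_lt hy) i j
    exact ((HP.of_diff (k := l) ((h.Gs j i).differentiable (by norm_num) x)).congr
      hev).pd.symm
  change _ = dM k (UF G) x i j * dM l (mat G) x j i
  rw [e2, e3]

/-- **The scalar curvature of the leaves.** -/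
theorem leafScal_eq3 (hx : B.R < len x) : leafScal G x = ctr G (IIf G) (IIf G) x -
    2 * (len x)⁻¹ ^ 2 + dN (tS G) x * (len x)⁻¹ + tS G x * (len x)⁻¹ ^ 2 -
    (1 / 2) * F1 (UF G x) (fun k => dM k (UF G) x) (fun k => dM k (mat G) x) +
    (1 / 4) * F2 (UF G x) (fun k => dM k (UF G) x) (fun k => dM k (mat G) x) -
    ∑ k, pd k (vT G k) x := by
  unfold leafScal
  rw [scal_div (isOpen_out B.R) h.Gs (fun y hy => h.symm y (le_of_lt hy))
    (fun y hy => h.det_ne (le_of_lt hy)) hx, T1_eq h hF hx, T2_eq h hF hx, LV h hF hx,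
    up_dLg h hF hx, div_Vg h hF hx, H1_eq0 hF hx, dN_H10 hF hx]
  ring

end

end

end Vale.Agent.H177
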