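import Vale.Agent.P366.H177.GB11

/-! The Gauss-Bonnet theorem for the leaves, `n = 3`: the average scalar curvature of the leaves
times their area is constant. -/

open MeasureTheory Metric Filter Topology Set
open scoped ContDiff ENNReal Matrix

noncomputable section
namespace Vale.Agent.H177
open Vale.Agent.P366.Stmt Vale.Agent.P366.T2 Vale.Agent.T4
open Vale.Agent.P366 (sphI sphM av norm_smul_sph integrable_sph sphI_congr sphI_continuousOn
  cont_smul_sph1 sphI_add sphI_sub sphI_const_mul sphI_const omega_pos')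

/-- `S` as a matrix -/
def SM (G : Field 3) (x : E 3) : M3 := fun i j => Sm G i j x

/-- the second fundamental form as a matrix -/
def AM (G : Field 3) (x : E 3) : M3 := fun i j => IIf G x i j

/-- the bracket -/
def Phi (G : Field 3) (x : E 3) : ℝ :=
  ((SM G x * AM G x) * (SM G x * AM G x)).trace - 2 * (1 / len x) ^ 2 +
    1 / len x * (∑ k, nx k x * (dM k (UF G) x).trace) + (1 / len x) ^ 2 * ((UF G x).trace - 1) -
    (1 / 2) * F1 (UF G x) (fun k => dM k (UF G) x) (fun k => dM k (mat G) x) +
    (1 / 4) * F2 (UF G x) (fun k => dM k (UF G) x) (fun k => dM k (mat G) x)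

section

variable {G g : Field 3} {B : Bg 3} {x : E 3}

section

variable {R : ℝ} (h : Lapse G g R)
include h

lemma HP_den (hx : R ≤ len x) (k : Fin 3) : HP k (den G) (den G x * Lg G k x) x := by
  have h1 := h.HP_det hx k
  have hd := den_pos h hx
  have h2 := HasDerivAt.sqrt (h1 : HasDerivAt _ _ _) (by simpa using h.det_ne hx)
  have e : 2 * (mat G x).det * Lg G k x / (2 * √((fun y => (mat G y).det)
      (x + (0 : ℝ) • EuclideanSpace.single k (1 : ℝ)))) = den G x * Lg G k x := by
    have e0 : (x + (0 : ℝ) • EuclideanSpace.single k (1 : ℝ) : E 3) = x := by simp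
    simp only [e0]
    have e1 : √(mat G x).det = den G x := rfl
    rw [e1, ← den_sq h hx]
    field_simp
  rw [e] at h2
  exact h2

lemma ctr_eq (hx : R < len x) : ctr G (IIf G) (IIf G) x =
    ((SM G x * AM G x) * (SM G x * AM G x)).trace := by
  unfold ctr Matrix.trace
  refine Finset.sum_congr rfl fun i _ => ?_
  rw [Matrix.diag_apply, Matrix.mul_apply]
  simp only [Matrix.mul_apply, Finset.sum_mul_sum]
  symm
  calc ∑ l, ∑ k, ∑ j, SM G x i k * AM G x k l * (SM G x l j * AM G x j i)
      = ∑ k, ∑ l, ∑ j, SM G x i k * AM G x k l * (SM G x l j * AM G x j i) := Finset.sum_comm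
    _ = ∑ k, ∑ j, ∑ l, SM G x i k * AM G x k l * (SM G x l j * AM G x j i) :=
        Finset.sum_congr rfl fun k _ => Finset.sum_comm
    _ = ∑ j, ∑ k, ∑ l, SM G x i k * AM G x k l * (SM G x l j * AM G x j i) := Finset.sum_comm
    _ = ∑ j, ∑ k, ∑ l, Sm G i k x * Sm G j l x * IIf G x i j * IIf G x k l := by
        refine Finset.sum_congr rfl fun j _ => Finset.sum_congr rfl fun k _ =>
          Finset.sum_congr rfl fun l _ => ?_
        have e1 : SM G x l j = Sm G j l x := h.Sm_symm hx.le l j
        have e2 : AM G x j i = IIf G x i j := IIf_symm h hx j i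
        rw [e1, e2]
        unfold SM AM
        ring

lemma tS_eq (hx : R < len x) : tS G x = (UF G x).trace - 1 := by
  have e : (UF G x).trace = ∑ i, up G i i x := rfl
  have hx0 := h.ne_zero hx.le
  rw [e]
  unfold tS Sm
  rw [Finset.sum_sub_distrib, sum_nx_mul hx0]

lemma dN_tS (hx : R < len x) : dN (tS G) x = ∑ k, nx k x * (dM k (UF G) x).trace := by
  unfold dN
  refine Finset.sum_congr rfl fun k _ => ?_
  congr 1
  have h1 : HP k (fun y => (UF G y).trace - 1) ((dM k (UF G) x).trace - 0) x :=
    (HPM.of_smooth (smooth_UF h hx)).trace.sub (HP.const k 1 x)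
  rw [sub_zero] at h1
  refine (h1.congr ?_).pd
  filter_upwards [(isOpen_out R).mem_nhds hx] with y hy
  exact tS_eq h hy

end

section

variable (h : Lapse G g B.R) (hF : B.Fits0 G)
include h hF

lemma leafScal_Phi (hx : B.R < len x) : leafScal G x = Phi G x - ∑ k, pd k (vT G k) x := by
  rw [leafScal_eq3 h hF hx, ctr_eq h hx, dN_tS h hx, tS_eq h hx]
  unfold Phi
  rw [one_div]
  ring

lemma Phi_leaf (hx : B.R < len x) : Phi G x = leafScal G x + ∑ k, pd k (vT G k) x := by
  rw [leafScal_Phi h hF hx]
  ring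

/-- **The pointwise Gauss-Bonnet identity.** -/
theorem pt_id (hx : B.R < len x) : den G x * Phi G x = -(1 / 4) * nrmC (bv PM (JM G)) x := by
  have hx0 := h.ne_zero hx.le
  have hL : ∀ k, Lg G k x = (B.H (len x) - 2 * (len x)⁻¹) * nx k x := fun k => Lg_eq h hF hx k
  have hden : ∀ k, pd k (den G) x = (den G x * (B.H (len x) - 2 * (len x)⁻¹)) * nx k x := by
    intro k
    rw [(HP_den h hx.le k).pd, hL]
    ring
  have hKL := K_L h hx
  have htr : ∀ k, (mat G x * dM k (UF G) x).trace =
      (-2 * (B.H (len x) - 2 * (len x)⁻¹)) * nx k x := by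
    intro k
    have e1 : mat G x * dM k (UF G) x = -(dM k (mat G) x * UF G x) := by
      have := hKL k
      rw [add_comm] at this
      exact eq_neg_of_add_eq_zero_left this
    have e2 : (dM k (mat G) x * UF G x).trace = 2 * Lg G k x := by
      unfold Lg Matrix.trace
      have e3 : ∀ i, Matrix.diag (dM k (mat G) x * UF G x) i =
          ∑ l, up G i l x * pd k (fun y => G y i l) x := by
        intro i
        rw [Matrix.diag_apply, Matrix.mul_apply]
        refine Finset.sum_congr rfl fun l _ => ?_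
        have e4 : UF G x l i = up G i l x := h.up_symm hx.le l i
        have e5 : dM k (mat G) x i l = pd k (fun y => G y i l) x := rfl
        rw [e4, e5, mul_comm]
      simp only [e3]
      ring
    rw [e1, Matrix.trace_neg, e2, hL]
    ring
  have hU : (UF G x)ᵀ = UF G x := UF_symm h hx.le
  have hM : (mat G x)ᵀ = mat G x := mat_symm h hx.le
  have hev := ev_out h hx
  have key := pt_alg (n := fun i => nx i x) (t := 1 / len x) (d := den G x)
    (d' := den G x * (B.H (len x) - 2 * (len x)⁻¹)) (U := UF G x) (M := mat G x)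
    (L := fun k => dM k (UF G) x) (K := fun k => dM k (mat G) x)
    (ℓ := -2 * (B.H (len x) - 2 * (len x)⁻¹)) (S := SM G x) (A := AM G x) (J := JM G x)
    (X := fun k => dM k (JM G) x) (P := fun k => dM k PM x)
    (n_sq hx0) hU hM (mat_UF h hx.le) (UF_nx h hx.le) (mat_nx h hx.le)
    (fun k => dM_symm (hev.mono fun y hy => UF_symm h (le_of_lt hy)) (smooth_UF h hx) k)
    (fun k => dM_symm (hev.mono fun y hy => mat_symm h (le_of_lt hy)) (smooth_mat h) k)
    (fun k i => dM_col h hx (hev.mono fun y hy => UF_nx h (le_of_lt hy)) (smooth_UF h hx) k i)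
    (fun k i => dM_col h hx (hev.mono fun y hy => mat_nx h (le_of_lt hy)) (smooth_mat h) k i)
    hKL htr (den_sq h hx.le) rfl ?_ rfl (fun k => dM_JM h hx hden k)
    (fun k => (dM_PM hx0 k).eq)
  · rw [Phi]
    refine key.trans ?_
    unfold nrmC
    rw [Fin.sum_univ_three]
    rfl
  · funext i j
    have e1 : AM G x i j = dN (fun y => G y i j) x / 2 + (G x i j - nx i x * nx j x) / len x :=
      rfl
    have e2 : ((1 / 2 : ℝ) • (∑ k, nx k x • dM k (mat G) x) + (1 / len x) •
        (mat G x - nN fun i => nx i x) : M3) i j =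
        1 / 2 * (∑ k, nx k x • dM k (mat G) x : M3) i j + 1 / len x *
          (G x i j - nx i x * nx j x) := rfl
    have e3 : (∑ k, nx k x • dM k (mat G) x : M3) i j = dN (fun y => G y i j) x := by
      rw [Matrix.sum_apply]
      rfl
    rw [e1, e2, e3]
    ring

lemma contOn_Phi : ContinuousOn (Phi G) {x : E 3 | B.R < ‖x‖} := by
  have h1 : ContinuousOn (fun x => -(1 / 4) * nrmC (bv PM (JM G)) x / den G x)
      {x : E 3 | B.R < ‖x‖} := by
    intro x hx
    have hx' : B.R < len x := hx
    have hx0 := h.ne_zero hx'.le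
    have a1 : ContDiffAt ℝ ∞ (nrmC (bv PM (JM G))) x := ContDiffAt.sum fun k _ =>
      (contDiffAt_nx k hx0).mul (contDiffAt_beta (smooth_PM hx0) (smooth_JM h hx') _ _)
    exact ((contDiffAt_const.mul a1).div (smooth_den h hx'.le)
      (den_pos h hx'.le).ne').continuousAt.continuousWithinAt
  refine h1.congr fun x hx => ?_
  have hx' : B.R < len x := hx
  change Phi G x = -(1 / 4) * nrmC (bv PM (JM G)) x / den G x
  rw [← pt_id h hF hx', mul_div_cancel_left₀ _ (den_pos h hx'.le).ne']

lemma den_ar (hx : B.R ≤ len x) : den G x = B.ar (len x) / len x ^ 2 := by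
  have h1 := hF.hdet x hx
  have h2 : (3 : ℕ) - 1 = 2 := rfl
  have h3 := h.len_pos hx
  rw [h2] at h1
  rw [← h1]
  unfold den
  field_simp

/-- the average of the scalar curvature of the leaves is the average of the bracket -/
theorem sphI_leaf {r : ℝ} (hr : B.R < r) : sphI (leafScal G) r = sphI (Phi G) r := by
  have : Nontrivial (E 3) := inferInstance
  have hr0 : 0 < r := h.hR.trans hr
  have hV1 : ∀ k, ContDiffOn ℝ 1 (vT G k) {x : E 3 | B.R < ‖x‖} := fun k x hx =>
    ((smooth_vT h hx k).of_le (by simp)).contDiffWithinAt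
  have hVt : ∀ x : E 3, B.R < ‖x‖ → ∑ k, vT G k x * nx k x = 0 := by
    intro x hx
    rw [← vT_nx h hx]
    exact Finset.sum_congr rfl fun k _ => mul_comm _ _
  have hI : sphI (fun x => ∑ k, pd k (vT G k) x) r = 0 := sphI_div_tangential h.hR.le hV1 hVt hr
  have hc : ContinuousOn (fun x => ∑ k, pd k (vT G k) x) {x : E 3 | B.R < ‖x‖} := fun x hx =>
    (ContDiffAt.sum fun k _ => contDiffAt_pd (smooth_vT h hx k) k).continuousAt.continuousWithinAt
  have e1 : sphI (leafScal G) r = sphI (fun x => Phi G x - ∑ k, pd k (vT G k) x) r :=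
    sphI_congr hr0.le fun x hx => leafScal_Phi h hF (by
      have : len x = r := hx
      rw [this]
      exact hr)
  rw [e1, sphI_sub h.hR.le hr (contOn_Phi h hF) hc, hI, sub_zero]

theorem sphI_Phi {r : ℝ} (hr : B.R < r) :
    B.ar r * sphI (Phi G) r = -(1 / 4) * (r ^ 2 * sphI (nrmC (bv PM (JM G))) r) := by
  have hr0 : 0 < r := h.hR.trans hr
  have e1 : sphI (fun x => B.ar r * Phi G x) r =
      sphI (fun x => -(1 / 4) * r ^ 2 * nrmC (bv PM (JM G)) x) r := by
    refine sphI_congr hr0.le fun x hx => ?_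
    have hl : len x = r := hx
    have hx' : B.R < len x := by rw [hl]; exact hr
    have h1 := pt_id h hF hx'
    rw [den_ar h hF hx'.le, hl] at h1
    field_simp at h1
    linarith
  rw [sphI_const_mul, sphI_const_mul] at e1
  rw [e1]
  ring

/-- **The average scalar curvature of the leaves times their area is constant.** -/
theorem gb_const {r s : ℝ} (hr : B.R < r) (hs : B.R < s) :
    B.ar r * av (leafScal G) r = B.ar s * av (Phi G) s := by
  unfold av
  rw [sphI_leaf h hF hr, ← mul_div_assoc, ← mul_div_assoc, sphI_Phi h hF hr, sphI_Phi h hF hs,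
    flux_JM h hr hs]

end

end

end Vale.Agent.H177
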