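import Vale.Agent.P366.H177.GB12

/-! The Gauss-Bonnet theorem for the leaves, `n = 3`: the value of the constant. -/

open MeasureTheory Metric Filter Topology Set Asymptotics
open scoped ContDiff ENNReal Matrix

noncomputable section
namespace Vale.Agent.H177
open Vale.Agent.P366.Stmt Vale.Agent.P366.T2 Vale.Agent.T4
open Vale.Agent.P366.T1.A919 (far far_iff far_of far_gt far_nhds O O_iff O_of_bigO O_const O_zero
  O_of_le O_inv_mat)
open Vale.Agent.P366.T2.E68 (O1 O2 O0)
open Vale.Agent.P366 (sphI sphM av norm_smul_sph integrable_sph sphI_congr sphI_continuousOn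
  cont_smul_sph1 sphI_add sphI_sub sphI_const_mul sphI_const omega_pos')

/-- decay of a matrix valued function -/
def OM (p : ℝ) (F : E 3 → M3) : Prop := ∀ i j, O p (fun x => F x i j)

section

variable {p q r : ℝ} {F F' : E 3 → M3}

lemma OM.mul (hF : OM p F) (hF' : OM q F') (h : r ≤ p + q) : OM r (fun x => F x * F' x) := by
  intro i j
  simp only [Matrix.mul_apply]
  exact O.sum fun l _ => (hF i l).mul' (hF' l j) h

lemma OM.add (hF : OM p F) (hF' : OM p F') : OM p (fun x => F x + F' x) := fun i j =>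
  (hF i j).add (hF' i j)

lemma OM.sub (hF : OM p F) (hF' : OM p F') : OM p (fun x => F x - F' x) := fun i j =>
  (hF i j).sub (hF' i j)

lemma OM.trace (hF : OM p F) : O p (fun x => (F x).trace) := O.sum fun i _ => hF i i

lemma OM.smul {f : E 3 → ℝ} (hf : O p f) (hF : OM q F) (h : r ≤ p + q) :
    OM r (fun x => f x • F x) := fun i j => hf.mul' (hF i j) h

lemma OM.mono (hF : OM p F) (h : q ≤ p) : OM q F := fun i j => (hF i j).mono h

lemma OM.congr (hF : OM p F) (h : ∀ᶠ x in far 3, F x = F' x) : OM p F' := fun i j =>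
  (hF i j).congr (h.mono fun x hx => by rw [hx])

lemma OM.const (M : M3) : OM 0 (fun _ => M) := fun i j => O_const (M i j)

lemma OM_PM : OM 0 PM := by
  intro i j
  have h1 : O 0 (fun x : E 3 => (1 : M3) i j - nx i x * nx j x) :=
    (O_const _).sub ((O_nx i).mul' (O_nx j) (by linarith))
  exact h1

end

section

variable {G g : Field 3} {B : Bg 3} {q : ℝ}

lemma tr_PM {x : E 3} (hx : x ≠ 0) : (PM x).trace = 2 := by
  have h1 : (PM x).trace = ∑ i, ((1 : M3) i i - nx i x * nx i x) := rfl
  rw [h1, Finset.sum_sub_distrib, sum_nx_mul hx]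
  simp [Fin.sum_univ_three]
  norm_num

variable (h : Lapse G g B.R) (hq : 0 < q) (D : Dec g q)
include h hq D

lemma OM_U1 : OM q (fun x => UF G x - 1) := by
  intro i j
  refine (h.up0 hq D i j).congr (Eventually.of_forall fun x => ?_)
  change (up G i j x - if i = j then 1 else 0) = up G i j x - (1 : M3) i j
  rw [Matrix.one_apply]

lemma OM_U : OM 0 (UF G) := fun i j => (h.up0 hq D i j).bdd hq.le

omit hq in
lemma OM_K (k : Fin 3) : OM (q + 1) (fun x => dM k (mat G) x) := fun i j => (h.dec D).g1 i j k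

lemma OM_L (k : Fin 3) : OM (q + 1) (fun x => dM k (UF G) x) := fun i j =>
  O_up1 h hq D k i j

lemma OM_S1 : OM q (fun x => SM G x - PM x) := by
  refine (OM_U1 h hq D).congr (Eventually.of_forall fun x => ?_)
  funext i j
  have e1 : (SM G x - PM x) i j = (up G i j x - nx i x * nx j x) -
      ((1 : M3) i j - nx i x * nx j x) := rfl
  have e2 : (UF G x - 1) i j = up G i j x - (1 : M3) i j := rfl
  rw [e1, e2]
  ring

omit hq in
lemma OM_A1 : OM (q + 1) (fun x => AM G x - (1 / len x) • PM x) := by
  intro i j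
  have h1 : O (q + 1) (fun x => dN (fun y => G y i j) x / 2 +
      (G x i j - if i = j then 1 else 0) * (1 / len x)) := by
    refine O.add ?_ ((h.dec D).g0 i j |>.mul' O_inv_len le_rfl)
    have h2 : O (q + 1) (fun x => dN (fun y => G y i j) x) :=
      O.sum fun k _ => (O_nx k).mul' ((h.dec D).g1 i j k) (by linarith)
    refine (h2.const_mul (1 / 2)).congr (Eventually.of_forall fun x => ?_)
    ring
  refine h1.congr (Eventually.of_forall fun x => ?_)
  have e1 : (AM G x - (1 / len x) • PM x) i j =
      (dN (fun y => G y i j) x / 2 + (G x i j - nx i x * nx j x) / len x) -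
      1 / len x * ((1 : M3) i j - nx i x * nx j x) := rfl
  refine Eq.trans ?_ e1.symm
  rw [Matrix.one_apply]
  ring

lemma OM_A : OM 1 (fun x => AM G x) := by
  have h1 := ((OM_A1 h D).mono (q := 1) (by linarith)).add
    (OM.smul O_inv_len OM_PM (r := 1) (by linarith))
  refine h1.congr (Eventually.of_forall fun x => ?_)
  abel

lemma OM_W1 : OM (q + 1) (fun x => SM G x * AM G x - (1 / len x) • PM x) := by
  have h1 := ((OM_S1 h hq D).mul (OM_A h hq D) (r := q + 1) le_rfl).add
    (OM_PM.mul (OM_A1 h D) (r := q + 1) (by linarith))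
  refine h1.congr ?_
  filter_upwards [far_ne (n := 3)] with x hx
  rw [sub_mul, mul_sub, Matrix.mul_smul, PM_PM hx]
  abel

lemma OM_W : OM 1 (fun x => SM G x * AM G x) := by
  have h1 := ((OM_W1 h hq D).mono (q := 1) (by linarith)).add
    (OM.smul O_inv_len OM_PM (r := 1) (by linarith))
  refine h1.congr (Eventually.of_forall fun x => ?_)
  abel

lemma O_tr : O (q + 2) (fun x => ((SM G x * AM G x) * (SM G x * AM G x)).trace -
    2 * (1 / len x) ^ 2) := by
  have h0 : OM 1 (fun x : E 3 => (1 / len x) • PM x) := OM.smul O_inv_len OM_PM (by linarith)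
  have h1 := (((OM_W1 h hq D).mul (OM_W h hq D) (r := q + 2) (by linarith)).add
    (h0.mul (OM_W1 h hq D) (r := q + 2) (by linarith))).trace
  refine h1.congr ?_
  filter_upwards [far_ne (n := 3)] with x hx
  have e : (SM G x * AM G x - (1 / len x) • PM x) * (SM G x * AM G x) +
      (1 / len x) • PM x * (SM G x * AM G x - (1 / len x) • PM x) =
      (SM G x * AM G x) * (SM G x * AM G x) - (1 / len x) ^ 2 • PM x := by
    rw [sub_mul, mul_sub, Matrix.mul_smul, Matrix.smul_mul, Matrix.smul_mul, PM_PM hx, smul_smul,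
      pow_two]
    abel
  rw [e, Matrix.trace_sub, Matrix.trace_smul, tr_PM hx, smul_eq_mul]
  ring

/-- **The decay of the bracket.** -/
lemma O_Phi : O (q + 2) (fun x => Phi G x - 2 * (1 / len x) ^ 2) := by
  have a1 := O_tr h hq D
  have a2 : O (q + 2) (fun x => 1 / len x * (∑ k, nx k x * (dM k (UF G) x).trace)) := by
    refine O_inv_len.mul' (q := q + 1) (O.sum fun k _ => ?_) (by linarith)
    exact (O_nx k).mul' (OM_L h hq D k).trace (by linarith)
  have a3 : O (q + 2) (fun x => 1 / len x * (1 / len x) * (UF G x - 1).trace) :=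
    (O_inv_len.mul' O_inv_len (r := 2) (by norm_num)).mul' (OM_U1 h hq D).trace (by linarith)
  have a4 : O (q + 2) (fun x => F1 (UF G x) (fun k => dM k (UF G) x)
      (fun k => dM k (mat G) x)) := by
    unfold F1
    refine O.sum fun k _ => O.sum fun i _ => ?_
    exact (OM_L h hq D k).mul ((OM_K h D i).mul (OM_U h hq D) (r := q + 1) (by linarith))
      (r := q + 2) (by linarith) i k
  have a5 : O (q + 2) (fun x => F2 (UF G x) (fun k => dM k (UF G) x)
      (fun k => dM k (mat G) x)) := by
    unfold F2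
    refine O.sum fun k _ => O.sum fun l _ => ?_
    exact (OM_U h hq D k l).mul' ((OM_L h hq D k).mul (OM_K h D l) (r := q + 2)
      (by linarith)).trace (by linarith)
  have a6 := (((a1.add a2).add a3).sub (a4.const_mul (1 / 2))).add (a5.const_mul (1 / 4))
  refine a6.congr (Eventually.of_forall fun x => ?_)
  have e : (UF G x - 1).trace = (UF G x).trace - 3 := by
    rw [Matrix.trace_sub, Matrix.trace_one]
    simp
  rw [e]
  unfold Phi
  ring

variable (hF : B.Fits0 G)
include hF

lemma tendsto_Phi : Tendsto (fun r : ℝ => r ^ 2 * av (Phi G) r) atTop (𝓝 2) := by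
  have : Nontrivial (E 3) := inferInstance
  have hω : 0 < Vale.Agent.P366.omega 3 := omega_pos'
  have h1 := av_O (O_Phi h hq D)
  have h2 : Tendsto (fun r : ℝ => r ^ (2 : ℝ) * av (fun x => Phi G x - 2 * (1 / len x) ^ 2) r)
      atTop (𝓝 0) := by
    have h3 := IsBigO.mul (isBigO_refl (fun r : ℝ => r ^ (2 : ℝ)) atTop) h1
    refine h3.trans_tendsto ?_
    have h4 : Tendsto (fun r : ℝ => r ^ (-q)) atTop (𝓝 0) := tendsto_rpow_neg_atTop hq
    refine h4.congr' ?_
    filter_upwards [eventually_gt_atTop 0] with r hr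
    rw [← Real.rpow_add hr]
    congr 1
    ring
  have h5 := h2.add_const 2
  rw [zero_add] at h5
  refine h5.congr' ?_
  filter_upwards [eventually_gt_atTop B.R] with r hr
  have hr0 : 0 < r := h.hR.trans hr
  have hc : ContinuousOn (fun _ : E 3 => 2 * (1 / r) ^ 2) {x : E 3 | B.R < ‖x‖} :=
    continuousOn_const
  have e1 : sphI (fun x => Phi G x - 2 * (1 / len x) ^ 2) r =
      sphI (fun x => Phi G x - 2 * (1 / r) ^ 2) r :=
    sphI_congr hr0.le fun x hx => by
      have : len x = r := hx
      rw [this]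
  unfold av
  rw [e1, sphI_sub h.hR.le hr (contOn_Phi h hF) hc, sphI_const, Real.rpow_two]
  field_simp
  ring

lemma tendsto_ar : Tendsto (fun r : ℝ => B.ar r / r ^ 2) atTop (𝓝 1) := by
  have hl : O1 q B.ld := O1_of_O (by norm_num) (h.ld0F (by norm_num) hq D hF)
  have h1 : Tendsto B.ld atTop (𝓝 0) := hl.tendsto hq
  have h2 := (Real.continuous_exp.tendsto 0).comp h1
  rw [Real.exp_zero] at h2
  refine h2.congr' ?_
  filter_upwards [eventually_ge_atTop B.R, eventually_gt_atTop 0] with r hr hr0
  have := B.ar_pos r hr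
  change Real.exp (Real.log (B.ar r / r ^ (3 - 1))) = _
  rw [Real.exp_log (by positivity)]

/-- **The Gauss-Bonnet theorem for the leaves.** -/
theorem gauss_bonnet {r : ℝ} (hr : B.R < r) : B.ar r * av (leafScal G) r = 2 := by
  have h1 : Tendsto (fun s : ℝ => (B.ar s / s ^ 2) * (s ^ 2 * av (Phi G) s)) atTop
      (𝓝 (1 * 2)) := (tendsto_ar h hq D hF).mul (tendsto_Phi h hq D hF)
  have h2 : Tendsto (fun _ : ℝ => B.ar r * av (leafScal G) r) atTop (𝓝 (1 * 2)) := by
    refine h1.congr' ?_
    filter_upwards [eventually_gt_atTop B.R, eventually_gt_atTop 0] with s hs hs0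
    rw [gb_const h hF hr hs]
    field_simp
  have h3 := tendsto_nhds_unique h2 tendsto_const_nhds
  linarith

end

end Vale.Agent.H177
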