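import Vale.Agent.P366.H177.GB1

/-! The Gauss-Bonnet theorem for the leaves, `n = 3`: the divergence free vector field. -/

open MeasureTheory Metric Filter Topology Set
open scoped ContDiff ENNReal Matrix

noncomputable section
namespace Vale.Agent.H177
open Vale.Agent.P366.Stmt Vale.Agent.P366.T2 Vale.Agent.T4
open Vale.Agent.P366 (sphI sphM av norm_smul_sph integrable_sph sphI_congr sphI_continuousOn
  cont_smul_sph1)

/-- the entrywise derivative of a matrix valued function -/
def dM (k : Fin 3) (F : E 3 → M3) (x : E 3) : M3 := fun i j => pd k (fun y => F y i j) x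

/-- differentiability of a matrix valued function -/
def HPM (k : Fin 3) (F : E 3 → M3) (F' : M3) (x : E 3) : Prop :=
  ∀ i j, HP k (fun y => F y i j) (F' i j) x

/-- smoothness of a matrix valued function -/
def SMat (F : E 3 → M3) (x : E 3) : Prop := ∀ i j, ContDiffAt ℝ ∞ (fun y => F y i j) x

section

variable {k : Fin 3} {F F1 : E 3 → M3} {A B : M3} {x : E 3}

lemma HPM.of_smooth (h : SMat F x) : HPM k F (dM k F x) x := fun i j =>
  HP.of_diff ((h i j).differentiableAt (by simp))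

lemma HPM.eq (h : HPM k F A x) : dM k F x = A := by
  funext i j
  exact (h i j).pd

lemma HPM.unique (h : HPM k F A x) (h' : HPM k F B x) : A = B := h.eq.symm.trans h'.eq

lemma HPM.congr (h : HPM k F A x) (hF : F1 =ᶠ[𝓝 x] F) : HPM k F1 A x := fun i j =>
  (h i j).congr (hF.mono fun y hy => congrFun (congrFun hy i) j)

lemma HPM.mul (h : HPM k F A x) (h1 : HPM k F1 B x) :
    HPM k (fun y => F y * F1 y) (A * F1 x + F x * B) x := by
  intro i j
  have h2 := HP.sum (k := k) (x := x) Finset.univ fun l _ => (h i l).mul (h1 l j)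
  rw [Finset.sum_add_distrib] at h2
  simp only [Matrix.mul_apply, Matrix.add_apply]
  exact h2

lemma HPM.sub (h : HPM k F A x) (h1 : HPM k F1 B x) : HPM k (fun y => F y - F1 y) (A - B) x :=
  fun i j => (h i j).sub (h1 i j)

lemma HPM.neg (h : HPM k F A x) : HPM k (fun y => -F y) (-A) x := fun i j => (h i j).neg

lemma HPM.trace (h : HPM k F A x) : HP k (fun y => (F y).trace) A.trace x :=
  HP.sum Finset.univ fun l _ => h l l

lemma SMat.mul (h : SMat F x) (h1 : SMat F1 x) : SMat (fun y => F y * F1 y) x := by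
  intro i j
  simp only [Matrix.mul_apply]
  exact ContDiffAt.sum fun l _ => (h i l).mul (h1 l j)

lemma SMat.sub (h : SMat F x) (h1 : SMat F1 x) : SMat (fun y => F y - F1 y) x := fun i j =>
  (h i j).sub (h1 i j)

lemma SMat.trace (h : SMat F x) : ContDiffAt ℝ ∞ (fun y => (F y).trace) x :=
  ContDiffAt.sum fun l _ => h l l

lemma SMat.dM (h : SMat F x) (k : Fin 3) : SMat (dM k F) x := fun i j => contDiffAt_pd (h i j) k

lemma dM_comm (h : SMat F x) (i k : Fin 3) :
    Vale.Agent.H177.dM k (Vale.Agent.H177.dM i F) x = Vale.Agent.H177.dM i (Vale.Agent.H177.dM k F) x := by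
  funext a b
  exact pd_comm' (h a b) k i

end

/-- the form -/
def beta (P J : E 3 → M3) (i j : Fin 3) (x : E 3) : ℝ :=
  (J x * (dM i J x * dM j J x - dM j J x * dM i J x)).trace -
    3 * (J x * (dM i P x * dM j P x - dM j P x * dM i P x)).trace

/-- the vector field -/
def bv (P J : E 3 → M3) (k : Fin 3) (x : E 3) : ℝ := beta P J (k + 1) (k + 2) x

section

variable {P J : E 3 → M3} {x : E 3}

lemma contDiffAt_beta (hP : SMat P x) (hJ : SMat J x) (i j : Fin 3) :
    ContDiffAt ℝ ∞ (beta P J i j) x :=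
  ((hJ.mul (((hJ.dM i).mul (hJ.dM j)).sub ((hJ.dM j).mul (hJ.dM i)))).trace).sub
    (contDiffAt_const.mul
      (hJ.mul (((hP.dM i).mul (hP.dM j)).sub ((hP.dM j).mul (hP.dM i)))).trace)

/-- **The divergence of the vector field vanishes.** -/
theorem div_bv (hP : SMat P x) (hJ : SMat J x) (e1 : ∀ᶠ y in 𝓝 x, P y * P y = P y)
    (e2 : ∀ᶠ y in 𝓝 x, P y * J y = J y) (e3 : ∀ᶠ y in 𝓝 x, J y * P y = J y)
    (e4 : ∀ᶠ y in 𝓝 x, J y * J y = -P y) : ∑ k, pd k (bv P J k) x = 0 := by
  have hPk : ∀ k, HPM k P (dM k P x) x := fun k => HPM.of_smooth hP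
  have hJk : ∀ k, HPM k J (dM k J x) x := fun k => HPM.of_smooth hJ
  have hPP : ∀ k i, HPM k (dM i P) (dM k (dM i P) x) x := fun k i => HPM.of_smooth (hP.dM i)
  have hJJ : ∀ k i, HPM k (dM i J) (dM k (dM i J) x) x := fun k i => HPM.of_smooth (hJ.dM i)
  have hT : ∀ k, Tan (P x) (J x) (dM k P x) (dM k J x) := by
    intro k
    refine ⟨?_, ?_, ?_, ?_⟩
    · exact (((hPk k).mul (hPk k)).congr (e1.mono fun y hy => hy.symm)).unique (hPk k)
    · exact (((hPk k).mul (hJk k)).congr (e2.mono fun y hy => hy.symm)).unique (hJk k)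
    · exact (((hJk k).mul (hPk k)).congr (e3.mono fun y hy => hy.symm)).unique (hJk k)
    · have h1 := ((hJk k).mul (hJk k)).congr (F1 := fun y => -P y) (e4.mono fun y hy => hy.symm)
      exact h1.unique (hPk k).neg
  have hb : ∀ k i j, pd k (beta P J i j) x = _ := fun k i j =>
    (((hJk k).mul (((hJJ k i).mul (hJJ k j)).sub ((hJJ k j).mul (hJJ k i)))).trace.sub
      ((((hJk k).mul (((hPP k i).mul (hPP k j)).sub ((hPP k j).mul (hPP k i)))).trace).const_mul
        3)).pd
  have h := alg3 e1.self_of_nhds e2.self_of_nhds e3.self_of_nhds e4.self_of_nhds (hT 0) (hT 1)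
    (hT 2)
  rw [Fin.sum_univ_three]
  have f0 : bv P J 0 = beta P J 1 2 := rfl
  have f1 : bv P J 1 = beta P J 2 0 := rfl
  have f2 : bv P J 2 = beta P J 0 1 := rfl
  rw [f0, f1, f2, hb, hb, hb]
  rw [dM_comm hJ 1 0, dM_comm hJ 2 0, dM_comm hJ 2 1, dM_comm hP 1 0, dM_comm hP 2 0,
    dM_comm hP 2 1]
  have c1 : (dM 1 J x * (dM 2 J x * dM 0 J x)).trace =
      (dM 0 J x * (dM 1 J x * dM 2 J x)).trace := by
    rw [← Matrix.mul_assoc, Matrix.trace_mul_comm]
  have c2 : (dM 1 J x * (dM 0 J x * dM 2 J x)).trace =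
      (dM 0 J x * (dM 2 J x * dM 1 J x)).trace := by
    rw [Matrix.trace_mul_comm, Matrix.mul_assoc]
  have c3 : (dM 2 J x * (dM 0 J x * dM 1 J x)).trace =
      (dM 0 J x * (dM 1 J x * dM 2 J x)).trace := by
    rw [Matrix.trace_mul_comm, Matrix.mul_assoc]
  have c4 : (dM 2 J x * (dM 1 J x * dM 0 J x)).trace =
      (dM 0 J x * (dM 2 J x * dM 1 J x)).trace := by
    rw [← Matrix.mul_assoc, Matrix.trace_mul_comm]
  simp only [mul_add, mul_sub, Matrix.trace_add, Matrix.trace_sub] at h ⊢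
  linarith

end

end Vale.Agent.H177
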