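import Vale.Agent.P366.H177.GB2

/-! The Gauss-Bonnet theorem for the leaves, `n = 3`: the flux of a divergence free vector field. -/

open MeasureTheory Metric Filter Topology Set
open scoped ContDiff ENNReal Matrix

noncomputable section
namespace Vale.Agent.H177
open Vale.Agent.P366.Stmt Vale.Agent.P366.T2 Vale.Agent.T4
open Vale.Agent.P366 (sphI sphM av norm_smul_sph integrable_sph sphI_congr sphI_continuousOn
  cont_smul_sph1)

/-- the normal component -/
def nrmC (W : Fin 3 → E 3 → ℝ) (x : E 3) : ℝ := ∑ k, nx k x * W k x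

theorem flux_const {W : Fin 3 → E 3 → ℝ} {b : ℝ} (hb : 0 < b)
    (hW : ∀ x, b < len x → ∀ k, ContDiffAt ℝ ∞ (W k) x)
    (hdiv : ∀ x, b < len x → ∑ k, pd k (W k) x = 0) {r : ℝ} (hr : b < r) :
    HasDerivAt (fun r => r ^ 2 * sphI (nrmC W) r) 0 r := by
  have : Nontrivial (E 3) := inferInstance
  have hr0 : 0 < r := hb.trans hr
  have hne : ∀ x : E 3, b < len x → x ≠ 0 := fun x hx => ne_zero_of_len hb hx.le
  have hn : ∀ x : E 3, b < len x → ContDiffAt ℝ ∞ (nrmC W) x := fun x hx =>
    ContDiffAt.sum fun k _ => (contDiffAt_nx k (hne x hx)).mul (hW x hx k)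
  have hn1 : ContDiffOn ℝ 1 (nrmC W) {x : E 3 | b < ‖x‖} := fun x hx =>
    ((hn x hx).of_le (by simp)).contDiffWithinAt
  have hd := sphI_hasDerivAt' hb.le hn1 hr
  set Z : Fin 3 → E 3 → ℝ := fun k x => W k x - nrmC W x * nx k x with hZ
  have hZs : ∀ x, b < len x → ∀ k, ContDiffAt ℝ ∞ (Z k) x := fun x hx k =>
    (hW x hx k).sub ((hn x hx).mul (contDiffAt_nx k (hne x hx)))
  have hZ1 : ∀ k, ContDiffOn ℝ 1 (Z k) {x : E 3 | b < ‖x‖} := fun k x hx =>
    ((hZs x hx k).of_le (by simp)).contDiffWithinAt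
  have hZt : ∀ x : E 3, b < ‖x‖ → ∑ k, Z k x * nx k x = 0 := by
    intro x hx
    have e : ∀ k, Z k x * nx k x = nx k x * W k x - nrmC W x * (nx k x * nx k x) := by
      intro k
      simp only [hZ]
      ring
    simp only [e, Finset.sum_sub_distrib, ← Finset.mul_sum, sum_nx_mul (hne x hx)]
    unfold nrmC
    ring
  have hI : sphI (fun x => ∑ k, pd k (Z k) x) r = 0 := sphI_div_tangential hb.le hZ1 hZt hr
  have hpt : ∀ x : E 3, b < len x → ∑ k, pd k (Z k) x =
      -(dN (nrmC W) x + 2 / len x * nrmC W x) := by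
    intro x hx
    have hx0 := hne x hx
    have h1 : ∀ k, pd k (Z k) x = pd k (W k) x - (pd k (nrmC W) x * nx k x +
        nrmC W x * ((1 - nx k x * nx k x) / len x)) := by
      intro k
      have h2 := HP_nx hx0 k k
      rw [if_pos rfl] at h2
      exact ((HP.of_diff ((hW x hx k).differentiableAt (by simp))).sub
        ((HP.of_diff ((hn x hx).differentiableAt (by simp))).mul h2)).pd
    simp only [h1, Finset.sum_sub_distrib, Finset.sum_add_distrib, hdiv x hx, ← Finset.mul_sum,
      ← Finset.sum_div, sum_nx_mul hx0]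
    have h3 : ∑ k, pd k (nrmC W) x * nx k x = dN (nrmC W) x := by
      unfold dN
      exact Finset.sum_congr rfl fun k _ => mul_comm _ _
    rw [h3]
    simp
    ring
  have h4 : sphI (dN (nrmC W)) r = -(2 / r * sphI (nrmC W) r) := by
    have h5 : sphI (fun x => ∑ k, pd k (Z k) x) r =
        sphI (fun x => -(dN (nrmC W) x + 2 / r * nrmC W x)) r := by
      refine sphI_congr hr0.le fun x hx => ?_
      have hl : len x = r := hx
      rw [hpt x (by rw [hl]; exact hr), hl]
    have hc1 : ContinuousOn (dN (nrmC W)) {x : E 3 | b < ‖x‖} := fun x hx =>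
      (contDiffAt_dN (hne x hx) (hn x hx)).continuousAt.continuousWithinAt
    have h6 : sphI (fun x => -(dN (nrmC W) x + 2 / r * nrmC W x)) r =
        -(sphI (dN (nrmC W)) r + 2 / r * sphI (nrmC W) r) := by
      have i1 : Integrable (fun θ : sphere (0 : E 3) 1 => dN (nrmC W) (r • (θ : E 3))) (sphM 3) :=
        integrable_sph hb.le hr hc1
      have i2 : Integrable (fun θ : sphere (0 : E 3) 1 => nrmC W (r • (θ : E 3))) (sphM 3) :=
        integrable_sph hb.le hr hn1.continuousOn
      unfold sphI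
      rw [integral_neg, integral_add i1 (i2.const_mul _), integral_const_mul]
    rw [h5, h6] at hI
    linarith
  rw [h4] at hd
  refine ((hasDerivAt_pow 2 r).mul hd).congr_deriv ?_
  field_simp
  ring

theorem flux_eq {W : Fin 3 → E 3 → ℝ} {b : ℝ} (hb : 0 < b)
    (hW : ∀ x, b < len x → ∀ k, ContDiffAt ℝ ∞ (W k) x)
    (hdiv : ∀ x, b < len x → ∑ k, pd k (W k) x = 0) {r s : ℝ} (hr : b < r) (hs : b < s) :
    r ^ 2 * sphI (nrmC W) r = s ^ 2 * sphI (nrmC W) s := by
  have h1 : ∀ t ∈ Ioi b, HasDerivWithinAt (fun r => r ^ 2 * sphI (nrmC W) r) 0 (Ioi b) t :=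
    fun t ht => (flux_const hb hW hdiv ht).hasDerivWithinAt
  exact (convex_Ioi b).is_const_of_fderivWithin_eq_zero
    (fun t ht => (h1 t ht).differentiableWithinAt)
    (fun t ht => by
      rw [(h1 t ht).hasFDerivWithinAt.fderivWithin (isOpen_Ioi.uniqueDiffWithinAt ht)]
      simp) hr hs

end Vale.Agent.H177
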