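import Vale.Agent.P366.H177.GB3

/-! The Gauss-Bonnet theorem for the leaves, `n = 3`: the complex structure of the leaves. -/

open MeasureTheory Metric Filter Topology Set
open scoped ContDiff ENNReal Matrix

noncomputable section
namespace Vale.Agent.H177
open Vale.Agent.P366.Stmt Vale.Agent.P366.T2 Vale.Agent.T4
open Vale.Agent.P366 (sphI sphM av norm_smul_sph integrable_sph sphI_congr sphI_continuousOn
  cont_smul_sph1)

/-- the cross product with the normal -/
def nX (x : E 3) : M3 :=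
  !![0, -nx 2 x, nx 1 x; nx 2 x, 0, -nx 0 x; -nx 1 x, nx 0 x, 0]

/-- `n ⊗ n` -/
def NN (x : E 3) : M3 := fun i j => nx i x * nx j x

/-- the tangential projection -/
def PM (x : E 3) : M3 := 1 - NN x

/-- the area density -/
def den (G : Field 3) (x : E 3) : ℝ := √(mat G x).det

/-- the complex structure of the leaves -/
def JM (G : Field 3) (x : E 3) : M3 := fun i j => den G x * ((mat G x)⁻¹ * nX x) i j

lemma JM_eq (G : Field 3) (x : E 3) : JM G x = den G x • ((mat G x)⁻¹ * nX x) := rfl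

section

variable {x : E 3}

lemma n_sq (hx : x ≠ 0) : nx 0 x * nx 0 x + nx 1 x * nx 1 x + nx 2 x * nx 2 x = 1 := by
  have := sum_nx_mul hx
  rwa [Fin.sum_univ_three] at this

lemma NN_nX : NN x * nX x = 0 := by
  funext i j
  fin_cases j <;> simp [Matrix.mul_apply, Fin.sum_univ_three, NN, nX] <;> ring

lemma nX_NN : nX x * NN x = 0 := by
  funext i j
  fin_cases i <;> simp [Matrix.mul_apply, Fin.sum_univ_three, NN, nX] <;> ring

lemma NN_NN (hx : x ≠ 0) : NN x * NN x = NN x := by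
  funext i j
  have h := n_sq hx
  simp only [Matrix.mul_apply, Fin.sum_univ_three, NN]
  linear_combination nx i x * nx j x * h

lemma nX_nX (hx : x ≠ 0) : nX x * nX x = -PM x := by
  have h := n_sq hx
  unfold PM
  funext i j
  fin_cases i <;> fin_cases j <;> simp [Matrix.mul_apply, Fin.sum_univ_three, NN, nX]
  · linear_combination -h
  · ring
  · ring
  · ring
  · linear_combination -h
  · ring
  · ring
  · ring
  · linear_combination -h

lemma PM_PM (hx : x ≠ 0) : PM x * PM x = PM x := by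
  unfold PM
  rw [sub_mul, one_mul, mul_sub, mul_one, NN_NN hx]
  abel

end

lemma M_nX_M {M : M3} {x : E 3} (h0 : M 0 0 * nx 0 x + M 0 1 * nx 1 x + M 0 2 * nx 2 x = nx 0 x)
    (h1 : M 1 0 * nx 0 x + M 1 1 * nx 1 x + M 1 2 * nx 2 x = nx 1 x)
    (h2 : M 2 0 * nx 0 x + M 2 1 * nx 1 x + M 2 2 * nx 2 x = nx 2 x) (s1 : M 1 0 = M 0 1)
    (s2 : M 2 0 = M 0 2) (s3 : M 2 1 = M 1 2) : M * nX x * M = M.det • nX x := by
  rw [s1] at h1
  rw [s2, s3] at h2
  rw [Matrix.det_fin_three]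
  funext i j
  fin_cases i <;> fin_cases j <;>
    simp [Matrix.mul_apply, Fin.sum_univ_three, nX, s1, s2, s3]
  · ring
  · linear_combination (M 0 1 * M 1 2 - M 0 2 * M 1 1) * h0 +
      (M 0 1 * M 0 2 - M 0 0 * M 1 2) * h1 +
      (M 0 0 * M 1 1 - M 0 1 * M 0 1) * h2
  · linear_combination -(M 0 2 * M 1 2 - M 0 1 * M 2 2) * h0 -
      (M 0 0 * M 2 2 - M 0 2 * M 0 2) * h1 -
      (M 0 1 * M 0 2 - M 0 0 * M 1 2) * h2
  · linear_combination -(M 0 1 * M 1 2 - M 0 2 * M 1 1) * h0 -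
      (M 0 1 * M 0 2 - M 0 0 * M 1 2) * h1 -
      (M 0 0 * M 1 1 - M 0 1 * M 0 1) * h2
  · ring
  · linear_combination (M 1 1 * M 2 2 - M 1 2 * M 1 2) * h0 +
      (M 0 2 * M 1 2 - M 0 1 * M 2 2) * h1 +
      (M 0 1 * M 1 2 - M 0 2 * M 1 1) * h2
  · linear_combination (M 0 2 * M 1 2 - M 0 1 * M 2 2) * h0 +
      (M 0 0 * M 2 2 - M 0 2 * M 0 2) * h1 +
      (M 0 1 * M 0 2 - M 0 0 * M 1 2) * h2
  · linear_combination -(M 1 1 * M 2 2 - M 1 2 * M 1 2) * h0 -
      (M 0 2 * M 1 2 - M 0 1 * M 2 2) * h1 -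
      (M 0 1 * M 1 2 - M 0 2 * M 1 1) * h2
  · ring

section

variable {G g : Field 3} {R : ℝ} (h : Lapse G g R) {x : E 3}
include h

lemma NN_up (hx : R ≤ len x) : NN x * (mat G x)⁻¹ = NN x := by
  funext i j
  have h1 := h.nx_up hx j
  simp only [Matrix.mul_apply, NN]
  have e : ∀ k, nx i x * nx k x * (mat G x)⁻¹ k j = nx i x * (nx k x * up G k j x) := by
    intro k
    unfold up
    ring
  simp only [e, ← Finset.mul_sum, h1]

lemma G_nX_G (hx : R ≤ len x) : mat G x * nX x * mat G x = (mat G x).det • nX x := by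
  have h0 := h.G_nx hx 0
  have h1 := h.G_nx hx 1
  have h2 := h.G_nx hx 2
  rw [Fin.sum_univ_three] at h0 h1 h2
  exact M_nX_M (M := mat G x) h0 h1 h2 (h.symm x hx 1 0) (h.symm x hx 2 0) (h.symm x hx 2 1)

lemma den_pos (hx : R ≤ len x) : 0 < den G x := Real.sqrt_pos.2 (h.pos x hx).det_pos

lemma den_sq (hx : R ≤ len x) : den G x * den G x = (mat G x).det :=
  Real.mul_self_sqrt (h.pos x hx).det_pos.le

lemma up_nX_up (hx : R ≤ len x) :
    (mat G x).det • ((mat G x)⁻¹ * nX x * (mat G x)⁻¹) = nX x := by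
  have hu : IsUnit (mat G x).det := (h.det_ne hx).isUnit
  have h1 := G_nX_G h hx
  calc (mat G x).det • ((mat G x)⁻¹ * nX x * (mat G x)⁻¹)
      = (mat G x)⁻¹ * ((mat G x).det • nX x) * (mat G x)⁻¹ := by
        rw [Matrix.mul_smul, Matrix.smul_mul]
    _ = (mat G x)⁻¹ * (mat G x * nX x * mat G x) * (mat G x)⁻¹ := by rw [h1]
    _ = ((mat G x)⁻¹ * mat G x) * nX x * (mat G x * (mat G x)⁻¹) := by
        simp only [Matrix.mul_assoc]
    _ = nX x := by
        rw [Matrix.nonsing_inv_mul _ hu, Matrix.mul_nonsing_inv _ hu, one_mul, mul_one]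

lemma PM_JM (hx : R ≤ len x) : PM x * JM G x = JM G x := by
  rw [JM_eq, Matrix.mul_smul]
  congr 1
  unfold PM
  rw [sub_mul, one_mul, ← Matrix.mul_assoc, NN_up h hx, NN_nX, sub_zero]

omit h in
lemma JM_PM : JM G x * PM x = JM G x := by
  rw [JM_eq, Matrix.smul_mul]
  congr 1
  unfold PM
  rw [mul_sub, mul_one, Matrix.mul_assoc, nX_NN, mul_zero, sub_zero]

lemma JM_JM (hx : R ≤ len x) : JM G x * JM G x = -PM x := by
  rw [JM_eq, Matrix.smul_mul, Matrix.mul_smul, smul_smul, den_sq h hx, ← Matrix.mul_assoc,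
    ← Matrix.smul_mul, up_nX_up h hx, nX_nX (h.ne_zero hx)]

omit h in
lemma smooth_PM (hx : x ≠ 0) : SMat PM x := by
  intro i j
  have e : (fun y : E 3 => PM y i j) = fun y => (1 : M3) i j - nx i y * nx j y := rfl
  rw [e]
  exact contDiffAt_const.sub ((contDiffAt_nx i hx).mul (contDiffAt_nx j hx))

omit h in
lemma smooth_nX (hx : x ≠ 0) : SMat nX x := by
  intro i j
  have e : ∀ k, ContDiffAt ℝ ∞ (nx (n := 3) k) x := fun k => contDiffAt_nx k hx
  fin_cases i <;> fin_cases j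
  · exact contDiffAt_const
  · exact (e 2).neg
  · exact e 1
  · exact e 2
  · exact contDiffAt_const
  · exact (e 0).neg
  · exact (e 1).neg
  · exact e 0
  · exact contDiffAt_const

lemma smooth_den (hx : R ≤ len x) : ContDiffAt ℝ ∞ (den G) x :=
  (Vale.Agent.P366.Bridge.contDiffAt_det (A := mat G) fun i j => (h.Gs i j).contDiffAt).sqrt
    (h.det_ne hx)

lemma smooth_JM (hx : R < len x) : SMat (JM G) x := by
  have h1 : SMat (fun y => (mat G y)⁻¹) x := fun i j => h.contDiffAt_up hx i j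
  exact fun i j => (smooth_den h hx.le).mul (h1.mul (smooth_nX (h.ne_zero hx.le)) i j)

/-- the flux of the field of the leaves is constant -/
theorem flux_JM {r s : ℝ} (hr : R < r) (hs : R < s) :
    r ^ 2 * sphI (nrmC (bv PM (JM G))) r = s ^ 2 * sphI (nrmC (bv PM (JM G))) s := by
  refine flux_eq h.hR (fun x hx k => contDiffAt_beta (smooth_PM (h.ne_zero hx.le))
    (smooth_JM h hx) _ _) (fun x hx => ?_) hr hs
  have hev : ∀ᶠ y in 𝓝 x, R < len y := (isOpen_out R).mem_nhds hx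
  exact div_bv (smooth_PM (h.ne_zero hx.le)) (smooth_JM h hx)
    (hev.mono fun y hy => PM_PM (h.ne_zero (le_of_lt hy)))
    (hev.mono fun y hy => PM_JM h (le_of_lt hy))
    (Eventually.of_forall fun y => JM_PM)
    (hev.mono fun y hy => JM_JM h (le_of_lt hy))

end

end Vale.Agent.H177
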