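import Vale.Agent.P366.H177.GB4

/-! The Gauss-Bonnet theorem for the leaves, `n = 3`: the algebraic identity in a frame. -/

open MeasureTheory Metric Filter Topology Set
open scoped ContDiff ENNReal Matrix

noncomputable section
namespace Vale.Agent.H177

/-- first contraction -/
def F1 (U : M3) (L K : Fin 3 → M3) : ℝ := ∑ k, ∑ i, (L k * (K i * U)) i k

/-- second contraction -/
def F2 (U : M3) (L K : Fin 3 → M3) : ℝ := ∑ k, ∑ l, U k l * (L k * K l).trace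

section

variable {p q s t D a0 b0 c0 p0 q0 s0 p1 q1 s1 p2 q2 s2 : ℝ}

/-- the matrices of the frame -/
def gU (p q s : ℝ) : M3 := !![1, 0, 0; 0, p, q; 0, q, s]

/-- the normal derivative -/
def gN (a b c : ℝ) : M3 := !![0, 0, 0; 0, a, b; 0, b, c]

/-- the first tangential derivative -/
def gA (t p q p1 q1 s1 : ℝ) : M3 :=
  !![0, t * (1 - p), -(t * q); t * (1 - p), p1, q1; -(t * q), q1, s1]

/-- the second tangential derivative -/
def gB (t q s p2 q2 s2 : ℝ) : M3 :=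
  !![0, -(t * q), t * (1 - s); -(t * q), p2, q2; t * (1 - s), q2, s2]

/-- the derivatives of the inverse metric -/
def gL (t p q s p0 q0 s0 p1 q1 s1 p2 q2 s2 : ℝ) : Fin 3 → M3 :=
  ![gN p0 q0 s0, gA t p q p1 q1 s1, gB t q s p2 q2 s2]

/-- the derivatives of the metric -/
def gK (t D p q s a0 b0 c0 p1 q1 s1 p2 q2 s2 : ℝ) : Fin 3 → M3 :=
  ![gN a0 b0 c0, gA t (D * s) (-(D * q)) (D * s1) (-(D * q1)) (D * p1),
    gB t (-(D * q)) (D * p) (D * s2) (-(D * q2)) (D * p2)]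

/-- the complex structure over the density -/
def gj (p q s : ℝ) : M3 := !![0, 0, 0; 0, q, -p; 0, s, -q]

/-- its first derivative -/
def gj1 (t p q s p1 q1 s1 : ℝ) : M3 := !![0, -(t * q), t * p; -(t * q), q1, -p1; -(t * s), s1, -q1]

/-- its second derivative -/
def gj2 (t p q s p2 q2 s2 : ℝ) : M3 := !![0, -(t * s), t * q; t * p, q2, -p2; t * q, s2, -q2]

lemma F1_eq : F1 (gU p q s) (gL t p q s p0 q0 s0 p1 q1 s1 p2 q2 s2)
    (gK t D p q s a0 b0 c0 p1 q1 s1 p2 q2 s2) =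
    t * (p0 * (1 - D * s) + q0 * (D * q) + (q0 * (D * q) + s0 * (1 - D * p))) +
    t * ((1 - p) * (a0 * p + b0 * q) - q * (b0 * p + c0 * q) +
      (-q * (a0 * q + b0 * s) + (1 - s) * (b0 * q + c0 * s))) +
    t ^ 2 * ((1 - p) * ((1 - D * s) * p + D * q * q) - q * (D * q * p + (1 - D * p) * q) +
      (-q * ((1 - D * s) * q + D * q * s) + (1 - s) * (D * q * q + (1 - D * p) * s))) +
    D * ((p * p1 * s1 - p * q1 ^ 2 + p * q1 * s2 - p * s1 * q2) - 2 * q * q1 * q2 +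
      2 * q * s1 * p2 - s * q1 * p2 + s * p1 * q2 - s * q2 ^ 2 + s * p2 * s2) := by
  unfold F1 gU gL gK gN gA gB
  simp [Matrix.mul_apply, Fin.sum_univ_three]
  ring

lemma F2_eq : F2 (gU p q s) (gL t p q s p0 q0 s0 p1 q1 s1 p2 q2 s2)
    (gK t D p q s a0 b0 c0 p1 q1 s1 p2 q2 s2) =
    p0 * a0 + 2 * q0 * b0 + s0 * c0 +
    2 * t ^ 2 * ((1 - p) * ((1 - D * s) * p + D * q * q) - q * (D * q * p + (1 - D * p) * q) +
      (-q * ((1 - D * s) * q + D * q * s) + (1 - s) * (D * q * q + (1 - D * p) * s))) +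
    D * (2 * p * p1 * s1 - 2 * p * q1 ^ 2 + 2 * q * p1 * s2 - 4 * q * q1 * q2 +
      2 * q * s1 * p2 + 2 * s * p2 * s2 - 2 * s * q2 ^ 2) := by
  unfold F2 gU gL gK gN gA gB
  simp [Matrix.mul_apply, Matrix.trace_fin_three, Fin.sum_univ_three]
  ring

lemma b_eq : (gj p q s * (gj1 t p q s p1 q1 s1 * gj2 t p q s p2 q2 s2 -
    gj2 t p q s p2 q2 s2 * gj1 t p q s p1 q1 s1)).trace =
    -(t ^ 2 * (p * s - q ^ 2) * (p + s)) + (-2 * q * p1 * s2 + 2 * q * s1 * p2 -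
      2 * p * s1 * q2 + 2 * p * q1 * s2 - 2 * s * q1 * p2 + 2 * s * p1 * q2) := by
  unfold gj gj1 gj2
  simp [Matrix.mul_apply, Matrix.trace_fin_three, Fin.sum_univ_three]
  ring

/-- the square of the second fundamental form -/
def gAA (t D p q s a0 b0 c0 : ℝ) : M3 :=
  !![0, 0, 0; 0, a0 / 2 + t * (D * s), b0 / 2 + t * (-(D * q));
    0, b0 / 2 + t * (-(D * q)), c0 / 2 + t * (D * p)]

/-- **The identity in a frame.** -/
theorem core (hI : D * (p * s - q ^ 2) = 1) (ha : p ^ 2 * a0 + 2 * p * q * b0 + q ^ 2 * c0 = -p0)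
    (hb : p * q * a0 + (p * s + q ^ 2) * b0 + q * s * c0 = -q0)
    (hc : q ^ 2 * a0 + 2 * q * s * b0 + s ^ 2 * c0 = -s0) :
    ((gN p q s * gAA t D p q s a0 b0 c0) * (gN p q s * gAA t D p q s a0 b0 c0)).trace -
      2 * t ^ 2 + t * (p0 + s0) + t ^ 2 * (p + s) -
      (1 / 2) * F1 (gU p q s) (gL t p q s p0 q0 s0 p1 q1 s1 p2 q2 s2)
        (gK t D p q s a0 b0 c0 p1 q1 s1 p2 q2 s2) +
      (1 / 4) * F2 (gU p q s) (gL t p q s p0 q0 s0 p1 q1 s1 p2 q2 s2)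
        (gK t D p q s a0 b0 c0 p1 q1 s1 p2 q2 s2) =
    -(1 / 4) * (D * (gj p q s * (gj1 t p q s p1 q1 s1 * gj2 t p q s p2 q2 s2 -
      gj2 t p q s p2 q2 s2 * gj1 t p q s p1 q1 s1)).trace) + (3 / 4) * t ^ 2 * (p + s) := by
  rw [F1_eq, F2_eq, b_eq]
  have e : ((gN p q s * gAA t D p q s a0 b0 c0) * (gN p q s * gAA t D p q s a0 b0 c0)).trace =
      (1 / 4) * ((p * a0 + q * b0) ^ 2 + 2 * (p * b0 + q * c0) * (q * a0 + s * b0) +
        (q * b0 + s * c0) ^ 2) +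
      t * (D * (p * s - q ^ 2)) * (p * a0 + 2 * q * b0 + s * c0) +
      2 * t ^ 2 * (D * (p * s - q ^ 2)) ^ 2 := by
    unfold gN gAA
    simp [Matrix.mul_apply, Matrix.trace_fin_three, Fin.sum_univ_three]
    ring
  rw [e]
  linear_combination (1 / 4) * (a0 * ha + 2 * b0 * hb + c0 * hc) + (t / 2) * (ha + hc) +
    (t / 2) * (D * (s * ha - 2 * q * hb + p * hc)) +
    (2 * t ^ 2 * (D * (p * s - q ^ 2) + 1) - (1 / 4) * t ^ 2 * (p + s) +
      (t / 2) * (p * a0 + 2 * q * b0 + s * c0)) * hI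

end

end Vale.Agent.H177
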