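import Vale.Agent.P366.H177.GB5

/-! The Gauss-Bonnet theorem for the leaves, `n = 3`: rotations. -/

open MeasureTheory Metric Filter Topology Set
open scoped ContDiff ENNReal Matrix

noncomputable section
namespace Vale.Agent.H177

/-- the derivative in the direction of the `c`-th row of `O`, in the frame `O` -/
def rot (O : M3) (K : Fin 3 → M3) (c : Fin 3) : M3 := O * (∑ k, O c k • K k) * Oᵀ

section

variable {O U : M3} {L K : Fin 3 → M3}

lemma sum_conj (hO : Oᵀ * O = 1) (T : M3) (i k : Fin 3) :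
    ∑ c, ∑ a, O c k * O a i * (O * T * Oᵀ) a c = T i k := by
  have h : Oᵀ * (O * T * Oᵀ) * O = T := by
    calc Oᵀ * (O * T * Oᵀ) * O = (Oᵀ * O) * T * (Oᵀ * O) := by simp only [Matrix.mul_assoc]
      _ = T := by rw [hO, one_mul, mul_one]
  have h2 := congrFun (congrFun h i) k
  rw [← h2, Matrix.mul_apply]
  refine Finset.sum_congr rfl fun c _ => ?_
  rw [Matrix.mul_apply, Finset.sum_mul]
  refine Finset.sum_congr rfl fun a _ => ?_
  rw [Matrix.transpose_apply]
  ring

lemma rot_mul (hO : Oᵀ * O = 1) (c a : Fin 3) : rot O L c * (rot O K a * (O * U * Oᵀ)) =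
    ∑ k, ∑ i, (O c k * O a i) • (O * (L k * (K i * U)) * Oᵀ) := by
  unfold rot
  have e : O * (∑ k, O c k • L k) * Oᵀ * (O * (∑ k, O a k • K k) * Oᵀ * (O * U * Oᵀ)) =
      O * ((∑ k, O c k • L k) * ((Oᵀ * O) * ((∑ k, O a k • K k) * ((Oᵀ * O) * U)))) * Oᵀ := by
    simp only [Matrix.mul_assoc]
  rw [e, hO, one_mul, one_mul]
  simp only [Finset.sum_mul, Finset.mul_sum, Matrix.smul_mul, Matrix.mul_smul, smul_smul]
  rw [Finset.sum_comm]
  refine Finset.sum_congr rfl fun k _ => Finset.sum_congr rfl fun i _ => ?_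
  rw [mul_comm (O a i)]

lemma F1_rot (hO : Oᵀ * O = 1) : F1 (O * U * Oᵀ) (rot O L) (rot O K) = F1 U L K := by
  unfold F1
  simp only [rot_mul hO, Matrix.sum_apply, Matrix.smul_apply, smul_eq_mul]
  calc ∑ c, ∑ a, ∑ k, ∑ i, O c k * O a i * (O * (L k * (K i * U)) * Oᵀ) a c
      = ∑ k, ∑ i, ∑ c, ∑ a, O c k * O a i * (O * (L k * (K i * U)) * Oᵀ) a c := by
        have e1 : ∀ c, ∑ a, ∑ k, ∑ i, O c k * O a i * (O * (L k * (K i * U)) * Oᵀ) a c =
            ∑ k, ∑ i, ∑ a, O c k * O a i * (O * (L k * (K i * U)) * Oᵀ) a c := by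
          intro c
          rw [Finset.sum_comm]
          exact Finset.sum_congr rfl fun k _ => Finset.sum_comm
        simp only [e1]
        rw [Finset.sum_comm]
        exact Finset.sum_congr rfl fun k _ => Finset.sum_comm
    _ = ∑ k, ∑ i, (L k * (K i * U)) i k := by
        simp only [sum_conj hO]

lemma F2_rot (hO : Oᵀ * O = 1) : F2 (O * U * Oᵀ) (rot O L) (rot O K) = F2 U L K := by
  unfold F2
  have e : ∀ c d, (rot O L c * rot O K d).trace =
      ∑ k, ∑ l, O c k * O d l * (L k * K l).trace := by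
    intro c d
    unfold rot
    have e1 : O * (∑ k, O c k • L k) * Oᵀ * (O * (∑ k, O d k • K k) * Oᵀ) =
        O * (((∑ k, O c k • L k) * (Oᵀ * O)) * (∑ k, O d k • K k) * Oᵀ) := by
      simp only [Matrix.mul_assoc]
    rw [e1, hO, mul_one, Matrix.trace_mul_comm, Matrix.mul_assoc, hO, mul_one]
    simp only [Finset.sum_mul, Finset.mul_sum, Matrix.smul_mul, Matrix.mul_smul, smul_smul,
      Matrix.trace_sum, Matrix.trace_smul, smul_eq_mul]
    rw [Finset.sum_comm]
    refine Finset.sum_congr rfl fun k _ => Finset.sum_congr rfl fun l _ => ?_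
    rw [mul_comm (O d l)]
  simp only [e, Finset.mul_sum]
  calc ∑ c, ∑ d, ∑ k, ∑ l, (O * U * Oᵀ) c d * (O c k * O d l * (L k * K l).trace)
      = ∑ k, ∑ l, ∑ d, ∑ c, (O d l * O c k * (O * U * Oᵀ) c d) * (L k * K l).trace := by
        have e1 : ∀ c, ∑ d, ∑ k, ∑ l, (O * U * Oᵀ) c d * (O c k * O d l * (L k * K l).trace) =
            ∑ k, ∑ l, ∑ d, (O d l * O c k * (O * U * Oᵀ) c d) * (L k * K l).trace := by
          intro c
          rw [Finset.sum_comm]
          refine Finset.sum_congr rfl fun k _ => ?_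
          rw [Finset.sum_comm]
          refine Finset.sum_congr rfl fun l _ => Finset.sum_congr rfl fun d _ => ?_
          ring
        simp only [e1]
        rw [Finset.sum_comm]
        refine Finset.sum_congr rfl fun k _ => ?_
        rw [Finset.sum_comm]
        exact Finset.sum_congr rfl fun l _ => Finset.sum_comm
    _ = ∑ k, ∑ l, U k l * (L k * K l).trace := by
        refine Finset.sum_congr rfl fun k _ => Finset.sum_congr rfl fun l _ => ?_
        simp only [← Finset.sum_mul, sum_conj hO]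

/-- A frame with a given first vector. -/
theorem exists_frame {n : Fin 3 → ℝ} (hn : n 0 * n 0 + n 1 * n 1 + n 2 * n 2 = 1) :
    ∃ O : M3, O * Oᵀ = 1 ∧ Oᵀ * O = 1 ∧ O.det = 1 ∧ ∀ j, O 0 j = n j := by
  obtain ⟨u, hu1, hu2⟩ : ∃ u : Fin 3 → ℝ, u 0 * u 0 + u 1 * u 1 + u 2 * u 2 = 1 ∧
      u 0 * n 0 + u 1 * n 1 + u 2 * n 2 = 0 := by
    by_cases h : n 0 * n 0 + n 1 * n 1 = 0
    · refine ⟨![1, 0, 0], by simp, ?_⟩
      have h0 : n 0 = 0 := by nlinarith [mul_self_nonneg (n 0), mul_self_nonneg (n 1)]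
      simp [h0]
    · have hp : 0 < n 0 * n 0 + n 1 * n 1 :=
        lt_of_le_of_ne (add_nonneg (mul_self_nonneg _) (mul_self_nonneg _)) (Ne.symm h)
      set w := √(n 0 * n 0 + n 1 * n 1) with hw
      have hw2 : w * w = n 0 * n 0 + n 1 * n 1 := Real.mul_self_sqrt hp.le
      have hw0 : w ≠ 0 := (Real.sqrt_pos.2 hp).ne'
      refine ⟨![-n 1 / w, n 0 / w, 0], ?_, ?_⟩
      · simp only [Matrix.cons_val_zero, Matrix.cons_val_one, Matrix.cons_val]
        field_simp
        linear_combination -hw2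
      · simp only [Matrix.cons_val_zero, Matrix.cons_val_one, Matrix.cons_val]
        ring
  set O : M3 := !![n 0, n 1, n 2; u 0, u 1, u 2;
    n 1 * u 2 - n 2 * u 1, n 2 * u 0 - n 0 * u 2, n 0 * u 1 - n 1 * u 0] with hOd
  have h1 : O * Oᵀ = 1 := by
    funext i j
    fin_cases i <;> fin_cases j <;>
      simp [hOd, Matrix.mul_apply, Fin.sum_univ_three]
    · linear_combination hn
    · linear_combination hu2
    · ring
    · linear_combination hu2
    · linear_combination hu1
    · ring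
    · ring
    · ring
    · linear_combination (u 0 * u 0 + u 1 * u 1 + u 2 * u 2) * hn + hu1 -
        (u 0 * n 0 + u 1 * n 1 + u 2 * n 2) * hu2
  refine ⟨O, h1, mul_eq_one_comm.1 h1, ?_, ?_⟩
  · rw [Matrix.det_fin_three]
    simp [hOd]
    linear_combination (u 0 * u 0 + u 1 * u 1 + u 2 * u 2) * hn + hu1 -
        (u 0 * n 0 + u 1 * n 1 + u 2 * n 2) * hu2
  · intro j
    fin_cases j <;> rfl

end

end Vale.Agent.H177
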