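import Vale.Agent.P366.H177.GB6

/-! The Gauss-Bonnet theorem for the leaves, `n = 3`: matrices in the frame. -/

open MeasureTheory Metric Filter Topology Set
open scoped ContDiff ENNReal Matrix

noncomputable section
namespace Vale.Agent.H177

/-- the cross product -/
def cr (v : Fin 3 → ℝ) : M3 := !![0, -v 2, v 1; v 2, 0, -v 0; -v 1, v 0, 0]

section

variable {O M : M3} {K L : Fin 3 → M3} {t : ℝ}

lemma conj_col (hO : O * Oᵀ = 1) (hn : ∀ i, ∑ j, M i j * O 0 j = O 0 i) (a : Fin 3) :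
    (O * M * Oᵀ) a 0 = (1 : M3) a 0 := by
  rw [← hO, Matrix.mul_assoc, Matrix.mul_apply, Matrix.mul_apply]
  refine Finset.sum_congr rfl fun i _ => ?_
  congr 1
  rw [Matrix.mul_apply]
  exact hn i

lemma conj_symm (hM : Mᵀ = M) : (O * M * Oᵀ)ᵀ = O * M * Oᵀ := by
  rw [Matrix.transpose_mul, Matrix.transpose_mul, Matrix.transpose_transpose, hM,
    Matrix.mul_assoc]

lemma eq_gU {A : M3} (hs : Aᵀ = A) (h : ∀ a, A a 0 = (1 : M3) a 0) :
    A = gU (A 1 1) (A 1 2) (A 2 2) := by
  have s : ∀ i j, A i j = A j i := fun i j => by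
    have := congrFun (congrFun hs j) i
    rwa [Matrix.transpose_apply] at this
  have h0 := h 0
  have h1 := h 1
  have h2 := h 2
  simp at h0 h1 h2
  funext i j
  fin_cases i <;> fin_cases j <;> simp [gU, h0, h1, h2, s 0 1, s 0 2, s 2 1]

lemma rot_col (hO : O * Oᵀ = 1) (hK : ∀ k i, ∑ j, K k i j * O 0 j =
    t * ((1 : M3) i k - M i k)) (c a : Fin 3) :
    rot O K c a 0 = t * ((1 : M3) a c - (O * M * Oᵀ) a c) := by
  unfold rot
  have e : ∀ i, (((∑ k, O c k • K k) * Oᵀ) : M3) i 0 =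
      t * ((((1 : M3) - M) * Oᵀ : M3) i c) := by
    intro i
    rw [Matrix.mul_apply, Matrix.mul_apply]
    simp only [Matrix.sum_apply, Matrix.smul_apply, smul_eq_mul, Matrix.transpose_apply,
      Finset.sum_mul]
    rw [Finset.sum_comm, Finset.mul_sum]
    refine Finset.sum_congr rfl fun k _ => ?_
    have e2 : ∀ j, O c k * K k i j * O 0 j = O c k * (K k i j * O 0 j) := fun j => by ring
    simp only [e2, ← Finset.mul_sum, hK, Matrix.sub_apply]
    ring
  rw [Matrix.mul_assoc, Matrix.mul_apply]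
  simp only [e]
  have e3 : ∀ i, O a i * (t * ((((1 : M3) - M) * Oᵀ : M3) i c)) =
      t * (O a i * (((1 : M3) - M) * Oᵀ : M3) i c) := fun i => by ring
  simp only [e3, ← Finset.mul_sum]
  rw [← Matrix.mul_apply, sub_mul, mul_sub, one_mul, hO, Matrix.sub_apply, Matrix.mul_assoc]

lemma rot_symm (hK : ∀ k, (K k)ᵀ = K k) (c : Fin 3) : (rot O K c)ᵀ = rot O K c := by
  unfold rot
  refine conj_symm ?_
  rw [Matrix.transpose_sum]
  exact Finset.sum_congr rfl fun k _ => by rw [Matrix.transpose_smul, hK]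

lemma eq_gN {A : M3} (hs : Aᵀ = A) (h : ∀ a, A a 0 = 0) :
    A = gN (A 1 1) (A 1 2) (A 2 2) := by
  have s : ∀ i j, A i j = A j i := fun i j => by
    have := congrFun (congrFun hs j) i
    rwa [Matrix.transpose_apply] at this
  funext i j
  fin_cases i <;> fin_cases j <;> simp [gN, h 0, h 1, h 2, s 0 1, s 0 2, s 2 1]

lemma eq_gA {A : M3} {p q : ℝ} (hs : Aᵀ = A) (h0 : A 0 0 = 0) (h1 : A 1 0 = t * (1 - p))
    (h2 : A 2 0 = -(t * q)) : A = gA t p q (A 1 1) (A 1 2) (A 2 2) := by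
  have s : ∀ i j, A i j = A j i := fun i j => by
    have := congrFun (congrFun hs j) i
    rwa [Matrix.transpose_apply] at this
  funext i j
  fin_cases i <;> fin_cases j <;> simp [gA, h0, h1, h2, s 0 1, s 0 2, s 2 1]

lemma eq_gB {A : M3} {q s' : ℝ} (hs : Aᵀ = A) (h0 : A 0 0 = 0) (h1 : A 1 0 = -(t * q))
    (h2 : A 2 0 = t * (1 - s')) : A = gB t q s' (A 1 1) (A 1 2) (A 2 2) := by
  have s : ∀ i j, A i j = A j i := fun i j => by
    have := congrFun (congrFun hs j) i
    rwa [Matrix.transpose_apply] at this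
  funext i j
  fin_cases i <;> fin_cases j <;> simp [gB, h0, h1, h2, s 0 1, s 0 2, s 2 1]

/-- a form built from commutators, in the frame -/
lemma comm_rot (hO : Oᵀ * O = 1) (hd : O.det = 1) (J : M3) (X : Fin 3 → M3) :
    O 0 0 * (J * (X 1 * X 2 - X 2 * X 1)).trace + O 0 1 * (J * (X 2 * X 0 - X 0 * X 2)).trace +
      O 0 2 * (J * (X 0 * X 1 - X 1 * X 0)).trace =
    ((O * J * Oᵀ) * (rot O X 1 * rot O X 2 - rot O X 2 * rot O X 1)).trace := by
  have ha : O.adjugate = Oᵀ := by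
    have h1 : O * O.adjugate = 1 := by rw [Matrix.mul_adjugate, hd, one_smul]
    calc O.adjugate = (Oᵀ * O) * O.adjugate := by rw [hO, one_mul]
      _ = Oᵀ := by rw [Matrix.mul_assoc, h1, mul_one]
  have h0 := congrFun (congrFun ha 0) 0
  have h1 := congrFun (congrFun ha 1) 0
  have h2 := congrFun (congrFun ha 2) 0
  rw [Matrix.adjugate_fin_three] at h0 h1 h2
  simp only [Matrix.transpose_apply] at h0 h1 h2
  simp at h0 h1 h2
  have e : ∀ c d, ((O * J * Oᵀ) * (rot O X c * rot O X d)).trace =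
      (J * ((∑ k, O c k • X k) * (∑ k, O d k • X k))).trace := by
    intro c d
    unfold rot
    have e1 : O * J * Oᵀ * (O * (∑ k, O c k • X k) * Oᵀ * (O * (∑ k, O d k • X k) * Oᵀ)) =
        O * (J * ((Oᵀ * O) * (∑ k, O c k • X k) * (Oᵀ * O) * (∑ k, O d k • X k)) * Oᵀ) := by
      simp only [Matrix.mul_assoc]
    rw [e1, hO, one_mul, mul_one, Matrix.trace_mul_comm, Matrix.mul_assoc, hO, mul_one]
  rw [mul_sub (O * J * Oᵀ), Matrix.trace_sub, e, e, ← h0, ← h1, ← h2]
  simp only [Fin.sum_univ_three, mul_add, add_mul, mul_sub, Matrix.smul_mul, Matrix.mul_smul,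
    Matrix.trace_add, Matrix.trace_sub, Matrix.trace_smul, smul_eq_mul]
  ring

lemma conj_cr (hd : O.det = 1) (c : Fin 3) :
    O * cr (O c) * Oᵀ = cr (fun i => if i = c then 1 else 0) := by
  rw [Matrix.det_fin_three] at hd
  funext i j
  fin_cases c <;> fin_cases i <;> fin_cases j <;>
    simp [cr, Matrix.mul_apply, Fin.sum_univ_three] <;>
    first
    | ring1
    | linear_combination hd
    | linear_combination -hd

end

end Vale.Agent.H177
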