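import Vale.Agent.P366.H177.GB7

/-! The Gauss-Bonnet theorem for the leaves, `n = 3`: derivatives of the fields. -/

open MeasureTheory Metric Filter Topology Set
open scoped ContDiff ENNReal Matrix

noncomputable section
namespace Vale.Agent.H177
open Vale.Agent.P366.Stmt Vale.Agent.P366.T2 Vale.Agent.T4
open Vale.Agent.P366 (sphI sphM av norm_smul_sph integrable_sph sphI_congr sphI_continuousOn
  cont_smul_sph1)

/-- the inverse metric -/
def UF (G : Field 3) (y : E 3) : M3 := (mat G y)⁻¹

/-- the derivatives of the normal -/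
def dn (x : E 3) (k i : Fin 3) : ℝ := ((1 : M3) i k - nx i x * nx k x) * (1 / len x)

section

variable {G g : Field 3} {R : ℝ} {x : E 3}

lemma HP_nx' (hx : x ≠ 0) (k i : Fin 3) : HP k (nx i) (dn x k i) x := by
  have h1 := HP_nx hx k i
  have e : ((if i = k then (1 : ℝ) else 0) - nx i x * nx k x) / len x = dn x k i := by
    unfold dn
    rw [Matrix.one_apply]
    ring
  rw [e] at h1
  exact h1

lemma nX_eq : nX x = cr (fun i => nx i x) := rfl

lemma dM_nX (hx : x ≠ 0) (k : Fin 3) : HPM k nX (cr (dn x k)) x := by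
  intro i j
  have e : ∀ l, HP k (nx (n := 3) l) (dn x k l) x := fun l => HP_nx' hx k l
  fin_cases i <;> fin_cases j
  · exact HP.const k 0 x
  · exact (e 2).neg
  · exact e 1
  · exact e 2
  · exact HP.const k 0 x
  · exact (e 0).neg
  · exact (e 1).neg
  · exact e 0
  · exact HP.const k 0 x

lemma dM_PM (hx : x ≠ 0) (k : Fin 3) :
    HPM k PM (fun i j => -(dn x k i * nx j x + nx i x * dn x k j)) x := by
  intro i j
  have h1 := (HP.const k ((1 : M3) i j) x).sub ((HP_nx' hx k i).mul (HP_nx' hx k j))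
  rw [zero_sub] at h1
  exact h1

variable (h : Lapse G g R)
include h

lemma smooth_UF (hx : R < len x) : SMat (UF G) x := fun i j => h.contDiffAt_up hx i j

lemma smooth_mat : SMat (mat G) x := fun i j => (h.Gs i j).contDiffAt

lemma UF_symm (hx : R ≤ len x) : (UF G x)ᵀ = UF G x := by
  funext i j
  rw [Matrix.transpose_apply]
  exact h.up_symm hx j i

lemma mat_symm (hx : R ≤ len x) : (mat G x)ᵀ = mat G x := by
  funext i j
  rw [Matrix.transpose_apply]
  exact h.symm x hx j i

omit h in
lemma dM_symm {F : E 3 → M3} (hF : ∀ᶠ y in 𝓝 x, (F y)ᵀ = F y) (hs : SMat F x) (k : Fin 3) :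
    (dM k F x)ᵀ = dM k F x := by
  funext i j
  rw [Matrix.transpose_apply]
  have hev : (fun y => F y i j) =ᶠ[𝓝 x] fun y => F y j i := by
    filter_upwards [hF] with y hy
    have := congrFun (congrFun hy j) i
    rwa [Matrix.transpose_apply] at this
  exact ((HPM.of_smooth (k := k) hs j i).congr hev).pd.symm

lemma ev_out (hx : R < len x) : ∀ᶠ y : E 3 in 𝓝 x, R < len y := (isOpen_out R).mem_nhds hx

/-- the normal components of the derivatives -/
lemma dM_col {F : E 3 → M3} (hx : R < len x)
    (hF : ∀ᶠ y in 𝓝 x, ∀ i, ∑ j, F y i j * nx j y = nx i y) (hs : SMat F x) (k i : Fin 3) :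
    ∑ j, dM k F x i j * nx j x = 1 / len x * ((1 : M3) i k - F x i k) := by
  have hx0 := h.ne_zero hx.le
  have h1 : HP k (fun y => ∑ j, F y i j * nx j y) (∑ j, (dM k F x i j * nx j x +
      F x i j * dn x k j)) x :=
    HP.sum Finset.univ fun j _ => (HPM.of_smooth (k := k) hs i j).mul (HP_nx' hx0 k j)
  have hev : (nx i : E 3 → ℝ) =ᶠ[𝓝 x] fun y => ∑ j, F y i j * nx j y := by
    filter_upwards [hF] with y hy
    exact (hy i).symm
  have h2 := (h1.congr hev).pd.symm.trans (HP_nx' hx0 k i).pd
  rw [Finset.sum_add_distrib] at h2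
  have h3 : ∑ j, F x i j * dn x k j = 1 / len x * (F x i k - nx i x * nx k x) := by
    have e : ∀ j, F x i j * dn x k j = 1 / len x * (F x i j * (1 : M3) j k) -
        1 / len x * nx k x * (F x i j * nx j x) := by
      intro j
      unfold dn
      ring
    simp only [e, Finset.sum_sub_distrib, ← Finset.mul_sum, hF.self_of_nhds i]
    rw [← Matrix.mul_apply, mul_one]
    ring
  rw [h3] at h2
  unfold dn at h2
  linarith

lemma mat_nx (hx : R ≤ len x) (i : Fin 3) : ∑ j, mat G x i j * nx j x = nx i x := h.G_nx hx i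

lemma UF_nx (hx : R ≤ len x) (i : Fin 3) : ∑ j, UF G x i j * nx j x = nx i x := h.up_nx hx i

lemma mat_UF (hx : R ≤ len x) : mat G x * UF G x = 1 :=
  Matrix.mul_nonsing_inv _ (h.det_ne hx).isUnit

/-- the derivative of the inverse -/
lemma K_L (hx : R < len x) (k : Fin 3) :
    dM k (mat G) x * UF G x + mat G x * dM k (UF G) x = 0 := by
  have h1 : HPM k (fun y => mat G y * UF G y) (dM k (mat G) x * UF G x +
      mat G x * dM k (UF G) x) x :=
    (HPM.of_smooth (smooth_mat h)).mul (HPM.of_smooth (smooth_UF h hx))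
  have h2 : HPM k (fun _ : E 3 => (1 : M3)) 0 x := fun i j => HP.const k _ x
  refine (h1.congr (F1 := fun _ => (1 : M3)) ?_).unique h2
  filter_upwards [ev_out h hx] with y hy
  exact (mat_UF h (le_of_lt hy)).symm

/-- the derivative of the complex structure -/
lemma dM_JM (hx : R < len x) {d' : ℝ} (hden : ∀ k, pd k (den G) x = d' * nx k x) (k : Fin 3) :
    dM k (JM G) x = (d' * nx k x) • (UF G x * nX x) +
      den G x • (dM k (UF G) x * nX x + UF G x * cr (dn x k)) := by
  have hx0 := h.ne_zero hx.le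
  have h1 : HP k (den G) (d' * nx k x) x := by
    rw [← hden k]
    exact HP.of_diff ((smooth_den h hx.le).differentiableAt (by simp))
  have h2 := (HPM.of_smooth (k := k) (smooth_UF h hx)).mul (dM_nX hx0 k)
  have h3 : HPM k (JM G) ((d' * nx k x) • (UF G x * nX x) +
      den G x • (dM k (UF G) x * nX x + UF G x * cr (dn x k))) x :=
    fun i j => h1.mul (h2 i j)
  exact h3.eq

end

end Vale.Agent.H177
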