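import Vale.Agent.P366.H177.GB8

/-! The Gauss-Bonnet theorem for the leaves, `n = 3`: the pointwise identity. -/

open MeasureTheory Metric Filter Topology Set
open scoped ContDiff ENNReal Matrix

noncomputable section
namespace Vale.Agent.H177

section

variable {O A B U M : M3} {L K : Fin 3 → M3} {n : Fin 3 → ℝ} {t d d' ℓ : ℝ}

lemma conj_mul (hO : Oᵀ * O = 1) : O * (A * B) * Oᵀ = (O * A * Oᵀ) * (O * B * Oᵀ) := by
  calc O * (A * B) * Oᵀ = O * A * (Oᵀ * O) * B * Oᵀ := by
        rw [hO, mul_one]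
        simp only [Matrix.mul_assoc]
    _ = _ := by simp only [Matrix.mul_assoc]

lemma conj_trace (hO : Oᵀ * O = 1) : (O * A * Oᵀ).trace = A.trace := by
  rw [Matrix.trace_mul_comm, ← Matrix.mul_assoc, hO, one_mul]

lemma row_n (hO : O * Oᵀ = 1) (h0 : ∀ j, O 0 j = n j) (c : Fin 3) :
    ∑ k, O c k * n k = (1 : M3) c 0 := by
  rw [← hO, Matrix.mul_apply]
  exact Finset.sum_congr rfl fun k _ => by rw [Matrix.transpose_apply, h0]

lemma rot_KL (hO : Oᵀ * O = 1) (hKL : ∀ k, K k * U + M * L k = 0) (c : Fin 3) :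
    rot O K c * (O * U * Oᵀ) + (O * M * Oᵀ) * rot O L c = 0 := by
  have e : (∑ k, O c k • K k) * U + M * (∑ k, O c k • L k) = 0 := by
    rw [Finset.sum_mul, Finset.mul_sum, ← Finset.sum_add_distrib]
    refine Finset.sum_eq_zero fun k _ => ?_
    rw [Matrix.smul_mul, Matrix.mul_smul, ← smul_add, hKL, smul_zero]
  unfold rot
  rw [← conj_mul hO, ← conj_mul hO, ← add_mul, ← mul_add, e, mul_zero, zero_mul]

lemma rot_tr (hO : O * Oᵀ = 1) (hO' : Oᵀ * O = 1) (h0 : ∀ j, O 0 j = n j)
    (htr : ∀ k, (M * L k).trace = ℓ * n k) (c : Fin 3) :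
    ((O * M * Oᵀ) * rot O L c).trace = ℓ * (1 : M3) c 0 := by
  unfold rot
  rw [← conj_mul hO', conj_trace hO', Finset.mul_sum, Matrix.trace_sum, ← row_n hO h0 c,
    Finset.mul_sum]
  refine Finset.sum_congr rfl fun k _ => ?_
  rw [Matrix.mul_smul, Matrix.trace_smul, htr, smul_eq_mul]
  ring

/-- the shape of the derivatives in the frame -/
structure Shape (O U M : M3) (L K : Fin 3 → M3) (t D p q s a0 b0 c0 p0 q0 s0 p1 q1 s1 p2 q2 s2 : ℝ) :
    Prop where
  U : O * U * Oᵀ = gU p q s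
  M : O * M * Oᵀ = gU (D * s) (-(D * q)) (D * p)
  L : rot O L = gL t p q s p0 q0 s0 p1 q1 s1 p2 q2 s2
  K : rot O K = gK t D p q s a0 b0 c0 p1 q1 s1 p2 q2 s2
  hI : D * (p * s - q ^ 2) = 1
  ha : p ^ 2 * a0 + 2 * p * q * b0 + q ^ 2 * c0 = -p0
  hb : p * q * a0 + (p * s + q ^ 2) * b0 + q * s * c0 = -q0
  hc : q ^ 2 * a0 + 2 * q * s * b0 + s ^ 2 * c0 = -s0

lemma gU_col (p q s : ℝ) : ∀ e : Fin 3, gU p q s e 0 = (1 : M3) e 0
  | 0 => by simp [gU]
  | 1 => by simp [gU]
  | 2 => by simp [gU]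

theorem exists_shape (hO : O * Oᵀ = 1) (hO' : Oᵀ * O = 1) (hdO : O.det = 1)
    (h0 : ∀ j, O 0 j = n j) (hU : Uᵀ = U) (hM : Mᵀ = M) (hMU : M * U = 1)
    (hUn : ∀ i, ∑ j, U i j * n j = n i) (hMn : ∀ i, ∑ j, M i j * n j = n i)
    (hLs : ∀ k, (L k)ᵀ = L k) (hKs : ∀ k, (K k)ᵀ = K k)
    (hLn : ∀ k i, ∑ j, L k i j * n j = t * ((1 : M3) i k - U i k))
    (hKn : ∀ k i, ∑ j, K k i j * n j = t * ((1 : M3) i k - M i k))
    (hKL : ∀ k, K k * U + M * L k = 0) (htr : ∀ k, (M * L k).trace = ℓ * n k) :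
    ∃ p q s a0 b0 c0 p0 q0 s0 p1 q1 s1 p2 q2 s2 : ℝ,
      Shape O U M L K t M.det p q s a0 b0 c0 p0 q0 s0 p1 q1 s1 p2 q2 s2 := by
  have eU : O * U * Oᵀ = gU _ _ _ :=
    eq_gU (conj_symm hU) (conj_col hO fun i => by simp only [h0]; exact hUn i)
  have eM : O * M * Oᵀ = gU _ _ _ :=
    eq_gU (conj_symm hM) (conj_col hO fun i => by simp only [h0]; exact hMn i)
  have cL : ∀ c a, rot O L c a 0 = t * ((1 : M3) a c - (O * U * Oᵀ) a c) :=
    rot_col hO fun k i => by simp only [h0]; exact hLn k i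
  have cK : ∀ c a, rot O K c a 0 = t * ((1 : M3) a c - (O * M * Oᵀ) a c) :=
    rot_col hO fun k i => by simp only [h0]; exact hKn k i
  have sL := rot_symm (O := O) hLs
  have sK := rot_symm (O := O) hKs
  have hMU' : (O * M * Oᵀ) * (O * U * Oᵀ) = 1 := by
    rw [← conj_mul hO', hMU, mul_one, hO]
  have hUM' : (O * U * Oᵀ) * (O * M * Oᵀ) = 1 := mul_eq_one_comm.1 hMU'
  have hKL' := rot_KL hO' hKL
  have htr' := rot_tr hO hO' h0 htr
  have hdet : (O * M * Oᵀ).det = M.det := by
    rw [Matrix.det_mul, Matrix.det_mul, Matrix.det_transpose, hdO, one_mul, mul_one]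
  generalize (O * U * Oᵀ) 1 1 = p at *
  generalize (O * U * Oᵀ) 1 2 = q at *
  generalize (O * U * Oᵀ) 2 2 = s at *
  generalize (O * M * Oᵀ) 1 1 = a at *
  generalize (O * M * Oᵀ) 1 2 = b at *
  generalize (O * M * Oᵀ) 2 2 = c at *
  rw [eU] at hMU' hUM' hKL' cL
  rw [eM] at hMU' hUM' hKL' cK htr' hdet
  have L0 : rot O L 0 = gN _ _ _ := eq_gN (sL 0) fun e => by
    rw [cL, gU_col, sub_self, mul_zero]
  have K0 : rot O K 0 = gN _ _ _ := eq_gN (sK 0) fun e => by
    rw [cK, gU_col, sub_self, mul_zero]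
  have L1 : rot O L 1 = gA t p q _ _ _ := eq_gA (sL 1) (by rw [cL]; simp [gU])
    (by rw [cL]; simp [gU]) (by rw [cL]; simp [gU])
  have K1 : rot O K 1 = gA t a b _ _ _ := eq_gA (sK 1) (by rw [cK]; simp [gU])
    (by rw [cK]; simp [gU]) (by rw [cK]; simp [gU])
  have L2 : rot O L 2 = gB t q s _ _ _ := eq_gB (sL 2) (by rw [cL]; simp [gU])
    (by rw [cL]; simp [gU]) (by rw [cL]; simp [gU])
  have K2 : rot O K 2 = gB t b c _ _ _ := eq_gB (sK 2) (by rw [cK]; simp [gU])
    (by rw [cK]; simp [gU]) (by rw [cK]; simp [gU])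
  have k0 := hKL' 0
  have k1 := hKL' 1
  have k2 := hKL' 2
  have t1 := htr' 1
  have t2 := htr' 2
  generalize rot O L 0 1 1 = p0 at *
  generalize rot O L 0 1 2 = q0 at *
  generalize rot O L 0 2 2 = s0 at *
  generalize rot O K 0 1 1 = a0 at *
  generalize rot O K 0 1 2 = b0 at *
  generalize rot O K 0 2 2 = c0 at *
  generalize rot O L 1 1 1 = p1 at *
  generalize rot O L 1 1 2 = q1 at *
  generalize rot O L 1 2 2 = s1 at *
  generalize rot O K 1 1 1 = x1 at *
  generalize rot O K 1 1 2 = y1 at *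
  generalize rot O K 1 2 2 = z1 at *
  generalize rot O L 2 1 1 = p2 at *
  generalize rot O L 2 1 2 = q2 at *
  generalize rot O L 2 2 2 = s2 at *
  generalize rot O K 2 1 1 = x2 at *
  generalize rot O K 2 1 2 = y2 at *
  generalize rot O K 2 2 2 = z2 at *
  rw [L0, K0] at k0
  rw [L1, K1] at k1
  rw [L2, K2] at k2
  rw [L1] at t1
  rw [L2] at t2
  have g1 : a * p + b * q = 1 := by
    have := congrFun (congrFun hMU' 1) 1
    simpa [gU, Matrix.mul_apply, Fin.sum_univ_three] using this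
  have g2 : a * q + b * s = 0 := by
    have := congrFun (congrFun hMU' 1) 2
    simpa [gU, Matrix.mul_apply, Fin.sum_univ_three] using this
  have g3 : b * p + c * q = 0 := by
    have := congrFun (congrFun hMU' 2) 1
    simpa [gU, Matrix.mul_apply, Fin.sum_univ_three] using this
  have g4 : b * q + c * s = 1 := by
    have := congrFun (congrFun hMU' 2) 2
    simpa [gU, Matrix.mul_apply, Fin.sum_univ_three] using this
  have hD : M.det = a * c - b * b := by
    rw [← hdet, Matrix.det_fin_three]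
    simp [gU]
  have ea : a = M.det * s := by
    rw [hD]
    linear_combination -a * g4 + b * g2
  have eb : b = -(M.det * q) := by
    rw [hD]
    linear_combination -b * g1 + a * g3
  have ec : c = M.det * p := by
    rw [hD]
    linear_combination -c * g1 + b * g3
  have m11 : x1 * p + y1 * q + a * p1 + b * q1 = 0 := by
    have := congrFun (congrFun k1 1) 1
    simp [gU, gA] at this
    linarith
  have m12 : x1 * q + y1 * s + a * q1 + b * s1 = 0 := by
    have := congrFun (congrFun k1 1) 2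
    simp [gU, gA] at this
    linarith
  have m21 : y1 * p + z1 * q + b * p1 + c * q1 = 0 := by
    have := congrFun (congrFun k1 2) 1
    simp [gU, gA] at this
    linarith
  have m22 : y1 * q + z1 * s + b * q1 + c * s1 = 0 := by
    have := congrFun (congrFun k1 2) 2
    simp [gU, gA] at this
    linarith
  have n11 : x2 * p + y2 * q + a * p2 + b * q2 = 0 := by
    have := congrFun (congrFun k2 1) 1
    simp [gU, gB] at this
    linarith
  have n12 : x2 * q + y2 * s + a * q2 + b * s2 = 0 := by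
    have := congrFun (congrFun k2 1) 2
    simp [gU, gB] at this
    linarith
  have n21 : y2 * p + z2 * q + b * p2 + c * q2 = 0 := by
    have := congrFun (congrFun k2 2) 1
    simp [gU, gB] at this
    linarith
  have n22 : y2 * q + z2 * s + b * q2 + c * s2 = 0 := by
    have := congrFun (congrFun k2 2) 2
    simp [gU, gB] at this
    linarith
  have u1 : a * p1 + 2 * b * q1 + c * s1 = 0 := by
    simp [gU, gA, Matrix.mul_apply, Matrix.trace_fin_three, Fin.sum_univ_three] at t1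
    linarith
  have u2 : a * p2 + 2 * b * q2 + c * s2 = 0 := by
    simp [gU, gB, Matrix.mul_apply, Matrix.trace_fin_three, Fin.sum_univ_three] at t2
    linarith
  have X1 : x1 = M.det * s1 := by
    rw [hD]
    linear_combination a * m11 + b * m12 - x1 * g1 - y1 * g2 - a * u1
  have Y1 : y1 = -(M.det * q1) := by
    rw [hD]
    linear_combination b * m11 + c * m12 - x1 * g3 - y1 * g4 - b * u1
  have Z1 : z1 = M.det * p1 := by
    rw [hD]
    linear_combination b * m21 + c * m22 - y1 * g3 - z1 * g4 - c * u1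
  have X2 : x2 = M.det * s2 := by
    rw [hD]
    linear_combination a * n11 + b * n12 - x2 * g1 - y2 * g2 - a * u2
  have Y2 : y2 = -(M.det * q2) := by
    rw [hD]
    linear_combination b * n11 + c * n12 - x2 * g3 - y2 * g4 - b * u2
  have Z2 : z2 = M.det * p2 := by
    rw [hD]
    linear_combination b * n21 + c * n22 - y2 * g3 - z2 * g4 - c * u2
  have w : gU p q s * (gN a0 b0 c0 * gU p q s) = -gN p0 q0 s0 := by
    have e1 : gN a0 b0 c0 * gU p q s = -(gU a b c * gN p0 q0 s0) := eq_neg_of_add_eq_zero_left k0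
    rw [e1, mul_neg, ← Matrix.mul_assoc, hUM', one_mul]
  refine ⟨p, q, s, a0, b0, c0, p0, q0, s0, p1, q1, s1, p2, q2, s2, eU, ?_, ?_, ?_, ?_, ?_, ?_, ?_⟩
  · rw [eM, ← ea, ← eb, ← ec]
  · funext k
    fin_cases k
    · exact L0
    · exact L1
    · exact L2
  · funext k
    fin_cases k
    · exact K0
    · change rot O K 1 = gA t (M.det * s) (-(M.det * q)) (M.det * s1) (-(M.det * q1)) (M.det * p1)
      rw [K1, ← ea, ← eb, ← X1, ← Y1, ← Z1]
    · change rot O K 2 = gB t (-(M.det * q)) (M.det * p) (M.det * s2) (-(M.det * q2)) (M.det * p2)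
      rw [K2, ← eb, ← ec, ← X2, ← Y2, ← Z2]
  · linear_combination g1 - p * ea - q * eb
  · have := congrFun (congrFun w 1) 1
    simp [gU, gN, Matrix.mul_apply, Fin.sum_univ_three] at this
    linarith
  · have := congrFun (congrFun w 1) 2
    simp [gU, gN, Matrix.mul_apply, Fin.sum_univ_three] at this
    linarith
  · have := congrFun (congrFun w 2) 2
    simp [gU, gN, Matrix.mul_apply, Fin.sum_univ_three] at this
    linarith

end

end Vale.Agent.H177
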