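import Vale.Agent.P366.H177.Defs

/-! Time flat centred spheres: the averaged inequality. -/

open MeasureTheory Metric Filter Topology Set
open scoped ContDiff ENNReal Matrix

noncomputable section
namespace Vale.Agent.H177
open Vale.Agent.P366.Stmt Vale.Agent.P366.T2 Vale.Agent.T4
open Vale.Agent.P366 (sphI sphM av flux dvg norm_smul_sph integrable_sph sphI_hasDerivAt
  flux_hasDerivAt isOpen_outside sphI_congr sphI_continuousOn cont_smul_sph1)

variable {n : ℕ}

/-- all the compensating terms -/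
def slkZ (B : Bg n) (G g K : Field n) (x : E n) : ℝ :=
  slk B G g K x + 2 / B.H (len x) * (B.H (len x) ^ 2 * S2 G (glf g) (glf g) x +
    2 * B.H (len x) * kpf G g K x * S2 G (glf g) (bf g K) x +
    kpf G g K x ^ 2 * S2 G (bf g K) (bf g K) x)

/-- the bound of the torsion term -/
def TorZ (B : Bg n) (G g K : Field n) (r : ℝ) : Prop :=
  2 * sphI (tors G g K) r ≤ sphI (Fx B G g K r) r

section

variable {G g K : Field n} {B : Bg n}

/-- the pointwise inequality with the compensating terms -/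
theorem slkZ_le (hA : StA n) (hB : StB n) (h : Lapse G g B.R) (hF : B.Fits0 G)
    (hK : ∀ i j, Smooth (fun x => K x i j))
    (hKs : ∀ x, B.R ≤ len x → ∀ i j, K x i j = K x j i) {x : E n}
    (hx : B.R < len x) (hdec : covNorm g (mom g K) x ≤ mu g K x)
    (hlt : |kpf G g K x| < B.H (len x)) :
    2 / B.H (len x) * (B.H (len x) ^ 2 - kpf G g K x ^ 2) * S2 G (bf g K) (bf g K) x ≤
        slkZ B G g K x ∧ 0 ≤ slkZ B G g K x ∧ slkZ B G g K x ≤ ptX B G g K x := by
  have hp := h.ppos x hx.le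
  have hHp : 0 < B.H (len x) := (abs_nonneg _).trans_lt hlt
  rw [pointwiseX_id hA hB h hF hK hKs hx hHp]
  unfold slkZ slk
  obtain ⟨-, -, -, b4⟩ := hB G g K B.R h hK hKs x hx
  have hII2 := h.ctr_comb hx.le K (IIf G) (trT G K x / B.H (len x))
  have hS2 := h.S2_nonneg hx.le (fun i => bf g K i x)
  have hS2' : 0 ≤ S2 G (bf g K) (bf g K) x := hS2
  have hvp : 0 < 1 / rad g x := by positivity
  have hsp : 0 < √(1 / rad g x) := Real.sqrt_pos.2 hvp
  have hsq := h.S2_sq hx.le (glf g) (bf g K) (B.H (len x)) (kpf G g K x)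
  set s := √(1 / rad g x) with hs
  set H := B.H (len x) with hH
  set κ := kpf G g K x with hκ
  have hcov : 0 ≤ covNorm g (mom g K) x := Real.sqrt_nonneg _
  have hdec2 : s * |∑ j, nx j x * mom g K j x| ≤ covNorm g (mom g K) x := by
    calc s * |∑ j, nx j x * mom g K j x| ≤ s * (√(rad g x) * covNorm g (mom g K) x) :=
          mul_le_mul_of_nonneg_left (b4 (mom g K)) hsp.le
      _ = covNorm g (mom g K) x := by rw [← mul_assoc, sqrt_inv_mul hp, one_mul]
  have hmu0 : 0 ≤ mu g K x := hcov.trans hdec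
  have hT1 : 0 ≤ 2 * H * mu g K x - 2 * κ * (s * ∑ j, nx j x * mom g K j x) := by
    have h1 : κ * (s * ∑ j, nx j x * mom g K j x) ≤ |κ| * (s * |∑ j, nx j x * mom g K j x|) := by
      have := le_abs_self (κ * (s * ∑ j, nx j x * mom g K j x))
      rwa [abs_mul, abs_mul, abs_of_pos hsp] at this
    have h2 : |κ| * (s * |∑ j, nx j x * mom g K j x|) ≤ |κ| * mu g K x :=
      mul_le_mul_of_nonneg_left (hdec2.trans hdec) (abs_nonneg _)
    have h3 : |κ| * mu g K x ≤ H * mu g K x := mul_le_mul_of_nonneg_right hlt.le hmu0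
    linarith
  have hT2 : 2 / H * (H ^ 2 - κ ^ 2) * S2 G (bf g K) (bf g K) x +
      2 / H * (H ^ 2 * S2 G (glf g) (glf g) x + 2 * H * κ * S2 G (glf g) (bf g K) x +
          κ ^ 2 * S2 G (bf g K) (bf g K) x) =
      2 * H * (S2 G (glf g) (glf g) x + S2 G (bf g K) (bf g K) x) +
        4 * κ * S2 G (glf g) (bf g K) x := by
    field_simp
    ring
  have hT4 : 0 ≤ 2 / H * (H ^ 2 * S2 G (glf g) (glf g) x + 2 * H * κ * S2 G (glf g) (bf g K) x +
      κ ^ 2 * S2 G (bf g K) (bf g K) x) := mul_nonneg (by positivity) hsq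
  have hT3 := mul_nonneg hHp.le hII2
  have hκH : κ ^ 2 < H ^ 2 := by
    rw [← sq_abs κ]
    exact pow_lt_pow_left₀ hlt (abs_nonneg _) two_ne_zero
  have hT5 : 0 ≤ 2 / H * (H ^ 2 - κ ^ 2) * S2 G (bf g K) (bf g K) x :=
    mul_nonneg (mul_nonneg (by positivity) (by linarith)) hS2'
  refine ⟨?_, ?_, ?_⟩ <;> linarith

/-- the integral of the compensating terms -/
theorem sphI_slkZ_le [Nontrivial (E n)] (hA : StA n) (hB : StB n) (h : Lapse G g B.R)
    (hF : B.FitsW G) (hK : ∀ i j, Smooth (fun x => K x i j))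
    (hKs : ∀ x, B.R ≤ len x → ∀ i j, K x i j = K x j i) {r : ℝ} (hr : B.R < r)
    (hdec : ∀ x, B.R < len x → covNorm g (mom g K) x ≤ mu g K x)
    (hHp : 0 < B.H r) (hlt : ∀ x, len x = r → |kpf G g K x| < B.H r) :
    sphI (slkZ B G g K) r ≤ sphI (Fx B G g K r) r := by
  have h0 : 0 < r := B.hR.trans hr
  have hpt : ∀ x : E n, ‖x‖ = r → 0 ≤ slkZ B G g K x ∧ slkZ B G g K x ≤ Fx B G g K r x := by
    intro x hx
    have hx' : len x = r := hx
    have hxR : B.R < len x := by rw [hx']; exact hr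
    have hl : |kpf G g K x| < B.H (len x) := by rw [hx']; exact hlt x hx'
    rw [Fx_eq hHp hx']
    obtain ⟨-, h1, h1'⟩ := slkZ_le hA hB h hF.toFits0 hK hKs hxR (hdec x hxR) hl
    have h2 := hF.hII x hxR
    have h3 := w_pos h hxR.le hl
    have h4 : 0 < B.H (len x) := by rw [hx']; exact hHp
    have h5 : 0 ≤ (1 / rad g x * B.H (len x) ^ 2 - trT G K x ^ 2) / B.H (len x) *
        (ctr G (IIf G) (IIf G) x - B.II2 (len x)) :=
      mul_nonneg (div_nonneg h3.le h4.le) (by linarith)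
    exact ⟨h1, by linarith⟩
  obtain ⟨hFc, -⟩ := sphI_Fx (B := B) h hK hr
  unfold sphI
  refine integral_mono_of_nonneg (Eventually.of_forall fun θ =>
    (hpt _ (norm_smul_sph h0.le θ)).1) (integrable_sph h.hR.le hr hFc)
    (Eventually.of_forall fun θ => (hpt _ (norm_smul_sph h0.le θ)).2)

/-- the averaged inequality -/
theorem stZ1 [Nontrivial (E n)] (h : Lapse G g B.R) (hF : B.FitsW G)
    (hK : ∀ i j, Smooth (fun x => K x i j)) {r : ℝ} (hr : B.R < r)
    (hlt : ∀ x, len x = r → |kpf G g K x| < B.H r) (htors : TorZ B G g K r) :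
    Yav' B G g K r ≤ B.H r * B.Rh r - B.H r * Yav B G g K r -
      Yav B G g K r / B.H r * B.II2 r := by
  have h0 : 0 < r := B.hR.trans hr
  have hω : 0 < Vale.Agent.P366.omega n := Vale.Agent.P366.omega_pos'
  obtain ⟨x0, hx0⟩ : ∃ x0 : E n, len x0 = r := by
    obtain ⟨y, hy⟩ := exists_ne (0 : E n)
    refine ⟨(r / ‖y‖) • y, ?_⟩
    have : ‖y‖ ≠ 0 := norm_ne_zero_iff.2 hy
    unfold len
    rw [norm_smul, Real.norm_eq_abs, abs_of_nonneg (by positivity), div_mul_cancel₀ _ this]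
  have hHp : 0 < B.H r := (abs_nonneg _).trans_lt (hlt x0 hx0)
  obtain ⟨hFc, hI⟩ := sphI_Fx (B := B) h hK hr
  have hθ : 2 * sphI (tors G g K) r ≤ sphI (Fx B G g K r) r := htors
  have e6 : sphI (tors G g K) r = Vale.Agent.P366.omega n * av (tors G g K) r := by
    unfold av
    field_simp
  have h3 : B.H r * B.II2 r - B.II2 r / B.H r * B.H r ^ 2 = 0 := by field_simp; ring
  have h4 : Yav B G g K r / B.H r * B.II2 r = B.II2 r / B.H r * Yav B G g K r := by ring
  rw [h3, zero_mul, add_zero] at hI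
  have h2 : B.H r * av (leafScal G) r ≤ B.H r * B.Rh r :=
    mul_le_mul_of_nonneg_left (hF.hRh r hr) hHp.le
  have hI' : sphI (Fx B G g K r) r - 2 * sphI (tors G g K) r = Vale.Agent.P366.omega n *
      (B.H r * av (leafScal G) r - (Yav' B G g K r +
        B.H r * Yav B G g K r + B.II2 r / B.H r * (Yav B G g K r))) := by
    rw [hI, e6]; ring
  have hkey : 0 ≤ Vale.Agent.P366.omega n *
      (B.H r * av (leafScal G) r - (Yav' B G g K r +
        B.H r * Yav B G g K r + B.II2 r / B.H r * (Yav B G g K r))) := by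
    rw [← hI']; linarith
  rw [h4]
  have h6 := nonneg_of_mul_nonneg_right hkey hω
  linarith

end

end Vale.Agent.H177
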