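import Vale.Agent.P366.H177.EqPt

/-! Time flat centred spheres, equality case: the momentum constraint in tangential directions. -/

open MeasureTheory Metric Filter Topology Set
open scoped ContDiff ENNReal Matrix

noncomputable section
namespace Vale.Agent.H177
open Vale.Agent.P366.Stmt Vale.Agent.P366.T2 Vale.Agent.T4
open Vale.Agent.Mom68 (WX Lie Pu mom_X)

variable {n : ℕ}

/-- rotation fields -/
def XA (A : Fin n → Fin n → ℝ) (k : Fin n) (y : E n) : ℝ := ∑ l, A k l * y l

lemma HP_XA (A : Fin n → Fin n → ℝ) (k j : Fin n) (y : E n) : HP k (XA A j) (A j k) y := by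
  have h := HP.sum (k := k) (x := y) Finset.univ (f := fun l y => A j l * y l)
    (d := fun l => A j l * (if l = k then 1 else 0)) (fun l _ => (HP.coord k l y).const_mul _)
  have e : ∑ l, A j l * (if l = k then (1 : ℝ) else 0) = A j k := by simp
  rw [e] at h
  exact h

lemma sum_A_nx {A : Fin n → Fin n → ℝ} {y : E n} (hy : y ≠ 0) (k : Fin n) :
    ∑ l, A k l * nx l y = (len y)⁻¹ * XA A k y := by
  unfold XA
  rw [Finset.mul_sum]
  refine Finset.sum_congr rfl fun l _ => ?_
  rw [← nx_mul_len hy l]
  have := len_ne hy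
  field_simp

lemma nx_XA {A : Fin n → Fin n → ℝ} (hA : ∀ i j, A i j = -A j i) {y : E n} (hy : y ≠ 0) :
    ∑ k, nx k y * XA A k y = 0 := by
  have e : ∀ k, nx k y * XA A k y = ∑ l, len y * (nx k y * A k l * nx l y) := by
    intro k
    unfold XA
    rw [Finset.mul_sum]
    refine Finset.sum_congr rfl fun l _ => ?_
    rw [← nx_mul_len hy l]
    ring
  simp only [e, ← Finset.mul_sum]
  have h1 : ∑ k, ∑ l, nx k y * A k l * nx l y = -∑ k, ∑ l, nx k y * A k l * nx l y := by
    have h2 : ∑ k, ∑ l, nx k y * A k l * nx l y = ∑ k, ∑ l, nx l y * A l k * nx k y :=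
      Finset.sum_comm
    rw [h2, ← Finset.sum_neg_distrib]
    rw [Finset.sum_comm]
    refine Finset.sum_congr rfl fun k _ => ?_
    rw [← Finset.sum_neg_distrib]
    refine Finset.sum_congr rfl fun l _ => ?_
    rw [hA k l]
    ring
  have h3 : ∑ k, ∑ l, nx k y * A k l * nx l y = 0 := by linarith
  rw [h3, mul_zero]

/-- `k + τ (n - 2) / (n - 1)` -/
def sc (G g K : Field n) (y : E n) : ℝ :=
  (rad K y / rad g y - trT G K y / ((n : ℝ) - 1)) + trT G K y

/-- the potential of the tangential momentum density -/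
def Vf (G g K : Field n) (y : E n) : ℝ :=
  dN (sphereRapidity g K) y - √(rad g y) * (rad K y / rad g y - trT G K y / ((n : ℝ) - 1))

section

variable {G g K : Field n} {B : Bg n}

lemma G_XA (hro : B.RoundAt G) {A : Fin n → Fin n → ℝ} (hA : ∀ i j, A i j = -A j i) {y : E n}
    (hy0 : y ≠ 0) (hy : B.R < len y) (i : Fin n) :
    ∑ j, G y i j * XA A j y = (B.rho (len y) / len y) ^ 2 * XA A i y := by
  have e : ∀ j, G y i j * XA A j y = (B.rho (len y) / len y) ^ 2 * (if i = j then XA A j y else 0) +
      (1 - (B.rho (len y) / len y) ^ 2) * nx i y * (nx j y * XA A j y) := by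
    intro j
    rw [hro y hy i j]
    split_ifs <;> ring
  simp only [e, Finset.sum_add_distrib, ← Finset.mul_sum, nx_XA hA hy0, mul_zero, add_zero,
    Finset.sum_ite_eq, Finset.mem_univ, if_true]

lemma g_XA (h : Lapse G g B.R) (hro : B.RoundAt G) {A : Fin n → Fin n → ℝ}
    (hA : ∀ i j, A i j = -A j i) {y : E n} (hy : B.R < len y) (i : Fin n) :
    ∑ j, g y i j * XA A j y = (B.rho (len y) / len y) ^ 2 * XA A i y := by
  have hy0 := h.ne_zero hy.le
  have e : ∀ j, g y i j * XA A j y = G y i j * XA A j y +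
      (rad g y - 1) * nx i y * (nx j y * XA A j y) := by
    intro j
    rw [h.eq y hy.le i j]; ring
  simp only [e, Finset.sum_add_distrib, ← Finset.mul_sum, nx_XA hA hy0, mul_zero, add_zero]
  exact G_XA hro hA hy0 hy i

/-- the contraction of `K(ν, ·)` with a rotation field -/
lemma bf_XA (h : Lapse G g B.R) (hF : B.Fits0 G) (hK : ∀ i j, Smooth (fun x => K x i j))
    {A : Fin n → Fin n → ℝ} (hA : ∀ i j, A i j = -A j i) {y : E n} (hy : B.R < len y)
    (hp : PtEqZ B G g K y) (hlt : |kpf G g K y| < B.H (len y)) :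
    ∑ j, XA A j y * bf g K j y = ∑ j, XA A j y * pd j (sphereRapidity g K) y ∧
    ∑ j, XA A j y * pd j (kpf G g K) y =
      (B.H (len y) ^ 2 - kpf G g K y ^ 2) / B.H (len y) *
        ∑ j, XA A j y * pd j (sphereRapidity g K) y ∧
    B.H (len y) * ∑ j, XA A j y * glf g j y = -kpf G g K y *
      ∑ j, XA A j y * pd j (sphereRapidity g K) y := by
  have hy0 := h.ne_zero hy.le
  have hn := nx_XA hA hy0
  have hHp : 0 < B.H (len y) := (abs_nonneg _).trans_lt hlt
  have hw : 0 < B.H (len y) ^ 2 - kpf G g K y ^ 2 := by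
    have : kpf G g K y ^ 2 < B.H (len y) ^ 2 := by
      rw [← sq_abs (kpf G g K y)]
      exact pow_lt_pow_left₀ hlt (abs_nonneg _) two_ne_zero
    linarith
  have e1 : ∑ j, XA A j y * bf g K j y = B.H (len y) / (B.H (len y) ^ 2 - kpf G g K y ^ 2) *
      ∑ j, XA A j y * pd j (kpf G g K) y := by
    have e : ∀ j, XA A j y * bf g K j y = ((∑ k, nx k y * bf g K k y) -
        B.H (len y) / (B.H (len y) ^ 2 - kpf G g K y ^ 2) * dN (kpf G g K) y) *
          (nx j y * XA A j y) +
        B.H (len y) / (B.H (len y) ^ 2 - kpf G g K y ^ 2) *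
          (XA A j y * pd j (kpf G g K) y) := by
      intro j
      have h1 := hp.bf0 j
      unfold tg at h1
      rw [h1]
      ring
    rw [Finset.sum_congr rfl fun j _ => e j, Finset.sum_add_distrib, ← Finset.mul_sum,
      ← Finset.mul_sum, hn, mul_zero, zero_add]
  have e2 : ∑ j, XA A j y * pd j (sphereRapidity g K) y =
      B.H (len y) / (B.H (len y) ^ 2 - kpf G g K y ^ 2) *
      ∑ j, XA A j y * pd j (kpf G g K) y := by
    have e : ∀ j, XA A j y * pd j (sphereRapidity g K) y =
        B.H (len y) / (B.H (len y) ^ 2 - kpf G g K y ^ 2) *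
          (XA A j y * pd j (kpf G g K) y) -
        kpf G g K y * deriv B.H (len y) / (B.H (len y) ^ 2 - kpf G g K y ^ 2) *
          (nx j y * XA A j y) := by
      intro j
      rw [pd_rapidity h hF hK hy hlt]
      ring
    rw [Finset.sum_congr rfl fun j _ => e j, Finset.sum_sub_distrib, ← Finset.mul_sum,
      ← Finset.mul_sum, hn, mul_zero, sub_zero]
  refine ⟨e1.trans e2.symm, ?_, ?_⟩
  · rw [e2]
    field_simp
  · have e : ∀ j, B.H (len y) * (XA A j y * glf g j y) + kpf G g K y * (XA A j y * bf g K j y) =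
        (B.H (len y) * dN (lf g) y + kpf G g K y * (∑ k, nx k y * bf g K k y)) *
          (nx j y * XA A j y) := by
      intro j
      have h1 := hp.glf0 j
      linear_combination (XA A j y) * h1
    have h2 : B.H (len y) * ∑ j, XA A j y * glf g j y +
        kpf G g K y * ∑ j, XA A j y * bf g K j y = 0 := by
      rw [Finset.mul_sum, Finset.mul_sum, ← Finset.sum_add_distrib,
        Finset.sum_congr rfl fun j _ => e j, ← Finset.mul_sum, hn, mul_zero]
    rw [e1, ← e2] at h2
    linarith

/-- the flux field of a rotation field -/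
lemma WX_eq (h : Lapse G g B.R) (hF : B.Fits0 G) (hK : ∀ i j, Smooth (fun x => K x i j))
    (hro : B.RoundAt G) {A : Fin n → Fin n → ℝ} (hA : ∀ i j, A i j = -A j i) {y : E n}
    (hy : B.R < len y) (hp : PtEqZ B G g K y) (hlt : |kpf G g K y| < B.H (len y)) (k : Fin n) :
    WX g K (XA A) k y = √(1 / rad g y) * (∑ j, XA A j y * pd j (sphereRapidity g K) y) * nx k y -
      sc G g K y * XA A k y := by
  have hy0 := h.ne_zero hy.le
  have hn := nx_XA hA hy0
  have hHp : 0 < B.H (len y) := (abs_nonneg _).trans_lt hlt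
  have hpp := h.ppos y hy.le
  obtain ⟨hb, -, -⟩ := bf_XA h hF hK hA hy hp hlt
  set φ := (B.rho (len y) / len y) ^ 2 with hφ
  set ρX := ∑ j, row K j y * XA A j y with hρX
  -- the inner contraction
  have h1 : ∀ i, ∑ j, momT g K y i j * XA A j y = nx i y * ρX -
      (sc G g K y * φ) * XA A i y := by
    intro i
    have e : ∀ j, momT g K y i j * XA A j y = nx i y * (row K j y * XA A j y) +
        (row K i y - rad K y * nx i y - trT G K y / ((n : ℝ) - 1) * φ * nx i y) *
          (nx j y * XA A j y) +
        trT G K y / ((n : ℝ) - 1) * φ * (if i = j then XA A j y else 0) -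
        tr g K y * (g y i j * XA A j y) := by
      intro j
      unfold momT
      rw [hp.K0 i j, IIf_round hro hy i j]
      have : trT G K y / B.H (len y) * (B.H (len y) / ((n : ℝ) - 1) *
          ((B.rho (len y) / len y) ^ 2 * ((if i = j then 1 else 0) - nx i y * nx j y))) =
          trT G K y / ((n : ℝ) - 1) * φ * ((if i = j then 1 else 0) - nx i y * nx j y) := by
        rw [hφ]
        field_simp
      rw [this]
      split_ifs <;> ring
    rw [Finset.sum_congr rfl fun j _ => e j]
    simp only [Finset.sum_add_distrib, Finset.sum_sub_distrib, ← Finset.mul_sum, hn, mul_zero,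
      add_zero, Finset.sum_ite_eq, Finset.mem_univ, if_true]
    rw [g_XA h hro hA hy i, tr_lapse h hy.le]
    unfold sc
    ring
  -- the outer contraction
  have h2 : ∑ i, up g k i y * nx i y = nx k y / rad g y := by
    have e : ∀ i, up g k i y * nx i y = Sm G k i y * nx i y +
        nx k y / rad g y * (nx i y * nx i y) := by
      intro i; rw [h.up_g hy.le]; ring
    simp only [e, Finset.sum_add_distrib, ← Finset.mul_sum, h.Sm_nx hy.le, sum_nx_mul hy0]
    ring
  have h3 : ∑ i, up g k i y * (φ * XA A i y) = XA A k y := by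
    have e : ∀ i, up g k i y * (φ * XA A i y) = ∑ j, (up G k i y * G y i j) * XA A j y +
        (nx k y / rad g y - nx k y) * φ * (nx i y * XA A i y) := by
      intro i
      have e1 : ∑ j, (up G k i y * G y i j) * XA A j y = up G k i y * (φ * XA A i y) := by
        rw [← G_XA hro hA hy0 hy i, Finset.mul_sum]
        exact Finset.sum_congr rfl fun j _ => by ring
      rw [e1, h.up_g hy.le]
      unfold Sm
      ring
    simp only [e, Finset.sum_add_distrib, ← Finset.mul_sum, hn, mul_zero, add_zero]
    rw [Finset.sum_comm]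
    simp only [← Finset.sum_mul, h.up_G hy.le]
    simp
  have h4 : ρX / rad g y = √(1 / rad g y) *
      ∑ j, XA A j y * pd j (sphereRapidity g K) y := by
    rw [← hb, Finset.mul_sum, hρX, Finset.sum_div]
    refine Finset.sum_congr rfl fun j _ => ?_
    unfold bf
    have := Real.mul_self_sqrt (show 0 ≤ 1 / rad g y by positivity)
    have e : row K j y * XA A j y / rad g y = (1 / rad g y) * (row K j y * XA A j y) := by ring
    rw [e]
    linear_combination (-(row K j y * XA A j y)) * this
  unfold WX
  simp only [h1]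
  have e : ∀ i, up g k i y * (nx i y * ρX - sc G g K y * φ * XA A i y) =
      ρX * (up g k i y * nx i y) - sc G g K y * (up g k i y * (φ * XA A i y)) := by
    intro i; ring
  simp only [e, Finset.sum_sub_distrib, ← Finset.mul_sum, h2, h3]
  rw [← h4]
  ring

/-- the Lie derivative of the metric along a rotation field -/
lemma Lie_XA (h : Lapse G g B.R) (hro : B.RoundAt G) {A : Fin n → Fin n → ℝ}
    (hA : ∀ i j, A i j = -A j i) {x : E n} (hx : B.R < len x) (k m : Fin n) :
    Lie g (XA A) k m x = 2 * rad g x * (∑ j, XA A j x * glf g j x) * (nx k x * nx m x) := by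
  have hx0 := h.ne_zero hx.le
  have hl := len_ne hx0
  have hn := nx_XA hA hx0
  have hp := h.ppos x hx.le
  have hρ := B.rho_hasDerivAt hx.le
  obtain ⟨φ', ha⟩ : ∃ d, HasDerivAt (fun r => (B.rho r / r) ^ 2) d (len x) :=
    ⟨_, (hρ.fun_div (hasDerivAt_id' _) hl).fun_pow 2⟩
  set φ := (B.rho (len x) / len x) ^ 2 with hφ
  have hrad : ∀ j, HP j (rad g) (2 * rad g x * glf g j x) x := by
    intro j
    have h1 : HP j (rad g) (pd j (rad g) x) x :=
      HP.of_diff ((contDiffAt_rad h.gs hx0).differentiableAt (by simp))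
    have h2 := glf_eq h hx j
    have h3 : pd j (rad g) x = 2 * rad g x * glf g j x := by
      rw [h2]; field_simp
    rwa [h3] at h1
  have hev : ∀ k m, (fun y => g y k m) =ᶠ[𝓝 x] fun y => (B.rho (len y) / len y) ^ 2 *
      ((if k = m then 1 else 0) - nx k y * nx m y) + rad g y * (nx k y * nx m y) := by
    intro k m
    filter_upwards [(isOpen_out B.R).mem_nhds hx] with y hy
    rw [g_form92 h hro hy k m]
    ring
  have h1 : ∀ j, pd j (fun y => g y k m) x =
      (φ' / len x * x j * ((if k = m then 1 else 0) - nx k x * nx m x) +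
        φ * (0 - (((if k = j then 1 else 0) - nx k x * nx j x) / len x * nx m x +
          nx k x * (((if m = j then 1 else 0) - nx m x * nx j x) / len x)))) +
      (2 * rad g x * glf g j x * (nx k x * nx m x) +
        rad g x * ((((if k = j then 1 else 0) - nx k x * nx j x) / len x * nx m x +
          nx k x * (((if m = j then 1 else 0) - nx m x * nx j x) / len x)))) := fun j =>
    ((((HP.radial hx0 ha j).mul ((HP.const j (if k = m then (1 : ℝ) else 0) x).sub
      ((HP_nx hx0 j k).mul (HP_nx hx0 j m)))).add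
      ((hrad j).mul ((HP_nx hx0 j k).mul (HP_nx hx0 j m)))).congr (hev k m)).pd
  have hg : ∀ i j, g x i j = φ * (if i = j then 1 else 0) + (rad g x - φ) * (nx i x * nx j x) :=
    fun i j => g_form92 h hro hx i j
  have e : ∀ j, (XA A j x * pd j (fun y => g y k m) x + g x j m * pd k (XA A j) x +
      g x k j * pd m (XA A j) x) =
      (φ' * ((if k = m then 1 else 0) - nx k x * nx m x)) * (nx j x * XA A j x) +
      (rad g x - φ) / len x * nx m x * (if k = j then XA A j x else 0) +
      (rad g x - φ) / len x * nx k x * (if m = j then XA A j x else 0) -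
      2 * ((rad g x - φ) / len x * (nx k x * nx m x)) * (nx j x * XA A j x) +
      2 * rad g x * (nx k x * nx m x) * (XA A j x * glf g j x) +
      φ * (if j = m then A j k else 0) - (rad g x - φ) * nx m x * (A k j * nx j x) +
      φ * (if k = j then A j m else 0) - (rad g x - φ) * nx k x * (A m j * nx j x) := by
    intro j
    rw [h1 j, (HP_XA A k j x).pd, (HP_XA A m j x).pd, hg j m, hg k j, hA k j, hA m j]
    have : x j = nx j x * len x := (nx_mul_len hx0 j).symm
    rw [this]
    split_ifs <;> field_simp <;> ring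
  unfold Lie
  rw [Finset.sum_congr rfl fun j _ => e j]
  simp only [Finset.sum_add_distrib, Finset.sum_sub_distrib, ← Finset.mul_sum, hn,
    sum_A_nx hx0, mul_zero, Finset.sum_ite_eq, Finset.sum_ite_eq', Finset.mem_univ, if_true]
  rw [hA m k]
  field_simp
  ring

/-- the flux of the momentum through the centred spheres -/
lemma Pu_nn (h : Lapse G g B.R) {x : E n} (hx : B.R < len x) :
    ∑ k, ∑ m, Pu g K k m x * (nx k x * nx m x) = -trT G K x / rad g x := by
  have hx0 := h.ne_zero hx.le
  have hp := h.ppos x hx.le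
  have hup : ∀ k, ∑ i, up g k i x * nx i x = nx k x / rad g x := by
    intro k
    have e : ∀ i, up g k i x * nx i x = Sm G k i x * nx i x +
        nx k x / rad g x * (nx i x * nx i x) := by
      intro i; rw [h.up_g hx.le]; ring
    simp only [e, Finset.sum_add_distrib, ← Finset.mul_sum, h.Sm_nx hx.le, sum_nx_mul hx0]
    ring
  have hups : ∀ i, ∑ k, nx k x * up g k i x = nx i x / rad g x := by
    intro i
    rw [← hup i]
    refine Finset.sum_congr rfl fun k _ => ?_
    rw [h.up_g hx.le, h.up_g hx.le, h.Sm_symm hx.le i k]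
    ring
  have e1 : ∀ k, ∑ m, Pu g K k m x * (nx k x * nx m x) =
      ∑ i, nx k x * up g k i x * ∑ l, momT g K x i l * (nx l x / rad g x) := by
    intro k
    have e : ∀ m, Pu g K k m x * (nx k x * nx m x) =
        ∑ i, ∑ l, nx k x * up g k i x * (momT g K x i l * (up g l m x * nx m x)) := by
      intro m
      unfold Pu
      rw [Finset.sum_mul]
      refine Finset.sum_congr rfl fun i _ => ?_
      rw [Finset.mul_sum, Finset.sum_mul]
      exact Finset.sum_congr rfl fun l _ => by ring
    simp only [e]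
    rw [Finset.sum_comm]
    refine Finset.sum_congr rfl fun i _ => ?_
    rw [Finset.sum_comm]
    simp only [← Finset.mul_sum, hup]
  simp only [e1]
  rw [Finset.sum_comm]
  simp only [← Finset.sum_mul, hups]
  have e2 : ∑ i, nx i x / rad g x * ∑ l, momT g K x i l * (nx l x / rad g x) =
      (∑ i, nx i x * ∑ l, momT g K x i l * nx l x) / rad g x ^ 2 := by
    rw [Finset.sum_div]
    refine Finset.sum_congr rfl fun i _ => ?_
    rw [Finset.mul_sum, Finset.mul_sum, Finset.sum_div]
    exact Finset.sum_congr rfl fun l _ => by field_simp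
  have e3 : ∀ i, ∑ l, momT g K x i l * nx l x = row K i x - tr g K x * (rad g x * nx i x) := by
    intro i
    have e : ∀ l, momT g K x i l * nx l x = K x i l * nx l x - tr g K x * (g x i l * nx l x) := by
      intro l; unfold momT; ring
    simp only [e, Finset.sum_sub_distrib, ← Finset.mul_sum, h.g_nx hx.le]
    rfl
  rw [e2]
  simp only [e3, mul_sub, Finset.sum_sub_distrib]
  have e4 : ∑ i, nx i x * row K i x = rad K x := (rad_eq K x).symm
  have e5 : ∑ i, nx i x * (tr g K x * (rad g x * nx i x)) = tr g K x * rad g x := by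
    have e : ∀ i, nx i x * (tr g K x * (rad g x * nx i x)) =
        tr g K x * rad g x * (nx i x * nx i x) := fun i => by ring
    simp only [e, ← Finset.mul_sum, sum_nx_mul hx0, mul_one]
  rw [e4, e5, tr_lapse h hx.le]
  field_simp
  ring

/-- **The momentum constraint in tangential directions.** -/
theorem XA_Vf (h : Lapse G g B.R) (hF : B.Fits0 G) (hK : ∀ i j, Smooth (fun x => K x i j))
    (hKs : ∀ x, B.R ≤ len x → ∀ i j, K x i j = K x j i) (hro : B.RoundAt G)
    (hpt : ∀ x, B.R < len x → PtEqZ B G g K x)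
    (hlt : ∀ x, B.R < len x → |kpf G g K x| < B.H (len x))
    {A : Fin n → Fin n → ℝ} (hA : ∀ i j, A i j = -A j i) {x : E n} (hx : B.R < len x) :
    ∑ j, XA A j x * pd j (Vf G g K) x = 0 := by
  have hx0 := h.ne_zero hx.le
  have hl := len_ne hx0
  have hn := nx_XA hA hx0
  have hp := h.ppos x hx.le
  have hHp : 0 < B.H (len x) := (abs_nonneg _).trans_lt (hlt x hx)
  obtain ⟨-, hκ, hgl⟩ := bf_XA h hF hK hA hx (hpt x hx) (hlt x hx)
  have hχ : ContDiffAt ℝ ∞ (sphereRapidity g K) x := contDiffAt_rapidity h hF hK hx.le (hlt x hx)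
  have hτ : ContDiffAt ℝ ∞ (trT G K) x := h.contDiffAt_trT hK hx
  have hr1 : ContDiffAt ℝ ∞ (fun y => rad K y / rad g y) x :=
    (contDiffAt_rad hK hx0).div (contDiffAt_rad h.gs hx0) hp.ne'
  have hk' : ContDiffAt ℝ ∞ (fun y => rad K y / rad g y - trT G K y / ((n : ℝ) - 1)) x :=
    hr1.sub (hτ.div_const _)
  set k' : E n → ℝ := fun y => rad K y / rad g y - trT G K y / ((n : ℝ) - 1) with hk'd
  set χ := sphereRapidity g K with hχd
  set N := √(rad g x) with hN
  have hNp : 0 < N := Real.sqrt_pos.2 hp
  have hsN : √(1 / rad g x) * N = 1 := sqrt_inv_mul hp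
  set s0 := √(1 / rad g x) with hs0
  -- the divergence of the flux field
  have hev : ∀ k, WX g K (XA A) k =ᶠ[𝓝 x] fun y => √(1 / rad g y) *
      (∑ j, XA A j y * pd j χ y) * nx k y - sc G g K y * XA A k y := by
    intro k
    filter_upwards [(isOpen_out B.R).mem_nhds hx] with y hy
    exact WX_eq h hF hK hro hA hy (hpt y hy) (hlt y hy) k
  have hsc : ∀ k, HP k (sc G g K) (pd k k' x + pd k (trT G K) x) x := fun k =>
    (HP.of_diff (hk'.differentiableAt (by simp))).add (HP.of_diff (hτ.differentiableAt (by simp)))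
  have hQ : ∀ k, HP k (fun y => ∑ j, XA A j y * pd j χ y)
      (∑ j, (A j k * pd j χ x + XA A j x * pd k (pd j χ) x)) x := fun k =>
    HP.sum Finset.univ fun j _ => (HP_XA A k j x).mul
      (HP.of_diff ((contDiffAt_pd hχ j).differentiableAt (by simp)))
  have hW : ∀ k, pd k (WX g K (XA A) k) x =
      ((-(s0 * glf g k x)) * (∑ j, XA A j x * pd j χ x) +
        s0 * (∑ j, (A j k * pd j χ x + XA A j x * pd k (pd j χ) x))) * nx k x +
      s0 * (∑ j, XA A j x * pd j χ x) * (((if k = k then 1 else 0) - nx k x * nx k x) / len x) -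
      ((pd k k' x + pd k (trT G K) x) * XA A k x + sc G g K x * A k k) := fun k =>
    ((((((h.HP_sqrt_inv hx.le k).mul (hQ k)).mul (HP_nx hx0 k k)).sub
      ((hsc k).mul (HP_XA A k k x)))).congr (hev k)).pd
  have hAkk : ∀ k, A k k = 0 := fun k => by have := hA k k; linarith
  set Q := ∑ j, XA A j x * pd j χ x with hQd
  -- the derivative of the radial derivative
  have hdN : ∑ j, XA A j x * pd j (dN χ) x =
      ∑ k, (∑ j, (A j k * pd j χ x + XA A j x * pd k (pd j χ) x)) * nx k x := by
    have e1 : ∀ j, pd j (dN χ) x = ∑ k, (((if k = j then 1 else 0) - nx k x * nx j x) / len x *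
        pd k χ x + nx k x * pd j (pd k χ) x) := fun j =>
      (HP.sum Finset.univ fun k _ => (HP_nx hx0 j k).mul
        (HP.of_diff (k := j) ((contDiffAt_pd hχ k).differentiableAt (by simp)))).pd
    have e2 : ∀ j, XA A j x * pd j (dN χ) x = (len x)⁻¹ * (XA A j x * pd j χ x) -
        (len x)⁻¹ * dN χ x * (nx j x * XA A j x) +
        ∑ k, XA A j x * (nx k x * pd k (pd j χ) x) := by
      intro j
      rw [e1 j, Finset.mul_sum]
      have e3 : ∀ k, XA A j x * (((if k = j then 1 else 0) - nx k x * nx j x) / len x *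
          pd k χ x + nx k x * pd j (pd k χ) x) =
          (len x)⁻¹ * XA A j x * (if k = j then pd k χ x else 0) -
          (len x)⁻¹ * (nx j x * XA A j x) * (nx k x * pd k χ x) +
          XA A j x * (nx k x * pd k (pd j χ) x) := by
        intro k
        rw [pd_comm' hχ j k]
        split_ifs <;> ring
      rw [Finset.sum_congr rfl fun k _ => e3 k]
      simp only [Finset.sum_add_distrib, Finset.sum_sub_distrib, ← Finset.mul_sum,
        Finset.sum_ite_eq', Finset.mem_univ, if_true]
      unfold dN
      ring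
    rw [Finset.sum_congr rfl fun j _ => e2 j, Finset.sum_add_distrib, Finset.sum_sub_distrib,
      ← Finset.mul_sum, ← Finset.mul_sum, hn, mul_zero, sub_zero]
    have e4 : ∀ k, (∑ j, (A j k * pd j χ x + XA A j x * pd k (pd j χ) x)) * nx k x =
        ∑ j, pd j χ x * (A j k * nx k x) + ∑ j, XA A j x * (nx k x * pd k (pd j χ) x) := by
      intro k
      rw [Finset.sum_add_distrib, add_mul, Finset.sum_mul, Finset.sum_mul]
      congr 1
      · exact Finset.sum_congr rfl fun j _ => by ring
      · exact Finset.sum_congr rfl fun j _ => by ring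
    rw [Finset.sum_congr rfl fun k _ => e4 k, Finset.sum_add_distrib]
    have e5 : ∑ k, ∑ j, pd j χ x * (A j k * nx k x) = (len x)⁻¹ * Q := by
      rw [Finset.sum_comm]
      simp only [← Finset.mul_sum, sum_A_nx hx0]
      rw [hQd, Finset.mul_sum]
      exact Finset.sum_congr rfl fun j _ => by ring
    rw [e5]
    congr 1
    exact Finset.sum_comm
  -- the divergence
  have hdiv : ∑ k, pd k (WX g K (XA A) k) x = -(s0 * Q) * dN (lf g) x +
      s0 * (∑ j, XA A j x * pd j (dN χ) x) + s0 * Q * (((n : ℝ) - 1) / len x) -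
      (∑ j, XA A j x * pd j k' x) - ∑ j, XA A j x * pd j (trT G K) x := by
    obtain ⟨M, hM⟩ : ∃ M : Fin n → ℝ, ∀ k, M k =
        ∑ j, (A j k * pd j χ x + XA A j x * pd k (pd j χ) x) := ⟨_, fun _ => rfl⟩
    have hdN' : ∑ j, XA A j x * pd j (dN χ) x = ∑ k, M k * nx k x := by
      rw [hdN]
      exact Finset.sum_congr rfl fun k _ => by rw [hM k]
    have e : ∀ k, pd k (WX g K (XA A) k) x = -(s0 * Q) * (nx k x * glf g k x) +
        s0 * (M k * nx k x) +
        s0 * Q * (len x)⁻¹ * (1 - nx k x * nx k x) -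
        XA A k x * pd k k' x - XA A k x * pd k (trT G K) x := by
      intro k
      rw [hW k, hAkk k, if_pos rfl, hM k]
      ring
    rw [Finset.sum_congr rfl fun k _ => e k]
    simp only [Finset.sum_sub_distrib, Finset.sum_add_distrib, ← Finset.mul_sum, sum_nx_mul hx0,
      Finset.sum_const, Finset.card_univ, Fintype.card_fin, nsmul_eq_mul, mul_one]
    rw [hdN']
    have e2 : ∑ k, nx k x * glf g k x = dN (lf g) x := rfl
    rw [e2]
    ring
  -- the logarithmic term
  have hWx : ∀ k, WX g K (XA A) k x = s0 * Q * nx k x - sc G g K x * XA A k x := fun k =>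
    WX_eq h hF hK hro hA hx (hpt x hx) (hlt x hx) k
  have hLg : ∑ k, Lg g k x * WX g K (XA A) k x = (B.H (len x) - ((n : ℝ) - 1) / len x) * (s0 * Q) +
      s0 * Q * dN (lf g) x - sc G g K x * ∑ j, XA A j x * glf g j x := by
    have e : ∀ k, Lg g k x * WX g K (XA A) k x =
        (B.H (len x) - ((n : ℝ) - 1) / len x) * (s0 * Q) * (nx k x * nx k x) +
        s0 * Q * (nx k x * glf g k x) -
        (B.H (len x) - ((n : ℝ) - 1) / len x) * sc G g K x * (nx k x * XA A k x) -
        sc G g K x * (XA A k x * glf g k x) := by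
      intro k
      rw [Lg_lapse h hx k, hF.hL x hx k, hWx k]
      ring
    rw [Finset.sum_congr rfl fun k _ => e k]
    simp only [Finset.sum_sub_distrib, Finset.sum_add_distrib, ← Finset.mul_sum, sum_nx_mul hx0,
      hn, mul_zero, mul_one, sub_zero]
    rfl
  -- the Lie term
  have hLie : ∑ k, ∑ m, Pu g K k m x * Lie g (XA A) k m x =
      -(2 * trT G K x * ∑ j, XA A j x * glf g j x) := by
    have e : ∀ k m, Pu g K k m x * Lie g (XA A) k m x =
        2 * rad g x * (∑ j, XA A j x * glf g j x) * (Pu g K k m x * (nx k x * nx m x)) := by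
      intro k m
      rw [Lie_XA h hro hA hx k m]
      ring
    simp only [e, ← Finset.mul_sum]
    rw [Pu_nn h hx]
    field_simp
  have hmom := mom_X (isOpen_out B.R) h.gs hK (fun y hy i j => h.g_symm (le_of_lt hy) i j)
    (fun y hy => hKs y (le_of_lt hy)) (fun y hy => h.g_det_ne (le_of_lt hy)) (X := XA A)
    (x := x) hx (fun j => by
      unfold XA
      exact (DifferentiableAt.fun_sum fun l _ => ((EuclideanSpace.proj (𝕜 := ℝ) l :
        E n →L[ℝ] ℝ).differentiableAt.const_mul _)))
  rw [hdiv, hLg, hLie] at hmom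
  simp only [(hpt x hx).mom0, mul_zero, Finset.sum_const_zero] at hmom
  -- the derivatives of `Vf` and `κ`
  have hVf : ∑ j, XA A j x * pd j (Vf G g K) x = (∑ j, XA A j x * pd j (dN χ) x) -
      N * k' x * (∑ j, XA A j x * glf g j x) - N * ∑ j, XA A j x * pd j k' x := by
    have e1 : ∀ j, pd j (Vf G g K) x = pd j (dN χ) x - (N * glf g j x * k' x +
        N * pd j k' x) := fun j =>
      ((HP.of_diff (k := j) ((contDiffAt_dN hx0 hχ).differentiableAt (by simp))).sub
        ((h.HP_sqrt hx.le j).mul (HP.of_diff (hk'.differentiableAt (by simp))))).pd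
    have e2 : ∀ j, XA A j x * pd j (Vf G g K) x = XA A j x * pd j (dN χ) x -
        N * k' x * (XA A j x * glf g j x) - N * (XA A j x * pd j k' x) := by
      intro j; rw [e1 j]; ring
    rw [Finset.sum_congr rfl fun j _ => e2 j]
    simp only [Finset.sum_sub_distrib, ← Finset.mul_sum]
  have hκe : ∑ j, XA A j x * pd j (kpf G g K) x = N * trT G K x *
      (∑ j, XA A j x * glf g j x) + N * ∑ j, XA A j x * pd j (trT G K) x := by
    have e2 : ∀ j, XA A j x * pd j (kpf G g K) x = N * trT G K x * (XA A j x * glf g j x) +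
        N * (XA A j x * pd j (trT G K) x) := by
      intro j
      rw [(h.HP_kpf hK hx j).pd]
      ring
    rw [Finset.sum_congr rfl fun j _ => e2 j]
    simp only [Finset.sum_add_distrib, ← Finset.mul_sum]
  have hκd : kpf G g K x = N * trT G K x := rfl
  have hscd : sc G g K x = k' x + trT G K x := rfl
  rw [hκe, hκd] at hκ
  rw [hκd] at hgl
  rw [hVf]
  rw [hscd] at hmom
  set L := ∑ j, XA A j x * glf g j x
  set T := ∑ j, XA A j x * pd j (trT G K) x
  set K1 := ∑ j, XA A j x * pd j k' x
  set D := ∑ j, XA A j x * pd j (dN χ) x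
  set τ := trT G K x
  have h1 : N * (-(s0 * Q) * dN (lf g) x + s0 * D + s0 * Q * (((n : ℝ) - 1) / len x) - K1 - T +
      ((B.H (len x) - ((n : ℝ) - 1) / len x) * (s0 * Q) + s0 * Q * dN (lf g) x -
        (k' x + τ) * L) - 1 / 2 * -(2 * τ * L)) = 0 := by
    rw [← hmom, mul_zero]
  have h2 : D + B.H (len x) * Q - N * K1 - N * T - N * k' x * L = 0 := by
    linear_combination h1 - (D + B.H (len x) * Q) * hsN
  have h3 : N * T = B.H (len x) * Q := by
    have h4 : B.H (len x) * (N * τ * L + N * T) = (B.H (len x) ^ 2 - (N * τ) ^ 2) * Q := by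
      rw [hκ]; field_simp
    have h5 : B.H (len x) * (N * T) = B.H (len x) * (B.H (len x) * Q) := by
      linear_combination h4 - (N * τ) * hgl
    exact mul_left_cancel₀ hHp.ne' h5
  linear_combination h2 + h3

/-- **The potential is constant on the centred spheres.** -/
theorem tg_Vf (h : Lapse G g B.R) (hF : B.Fits0 G) (hK : ∀ i j, Smooth (fun x => K x i j))
    (hKs : ∀ x, B.R ≤ len x → ∀ i j, K x i j = K x j i) (hro : B.RoundAt G)
    (hpt : ∀ x, B.R < len x → PtEqZ B G g K x)
    (hlt : ∀ x, B.R < len x → |kpf G g K x| < B.H (len x)) {x : E n} (hx : B.R < len x)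
    (a : Fin n) : tg (Vf G g K) a x = 0 := by
  have hx0 := h.ne_zero hx.le
  have hl := len_ne hx0
  have h1 := XA_Vf h hF hK hKs hro hpt hlt (A := fun j l => (if j = a then 1 else 0) * nx l x -
    nx j x * (if l = a then 1 else 0)) (fun i j => by ring) hx
  have e1 : ∀ j, XA (fun j l => (if j = a then 1 else 0) * nx l x -
      nx j x * (if l = a then 1 else 0)) j x = len x * ((if j = a then 1 else 0) -
        nx j x * nx a x) := by
    intro j
    unfold XA
    have e : ∀ l, ((if j = a then 1 else 0) * nx l x - nx j x * (if l = a then 1 else 0)) * x l =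
        len x * (if j = a then 1 else 0) * (nx l x * nx l x) -
        len x * nx j x * (if l = a then nx l x else 0) := by
      intro l
      rw [← nx_mul_len hx0 l]
      split_ifs <;> ring
    simp only [e, Finset.sum_sub_distrib, ← Finset.mul_sum, sum_nx_mul hx0,
      Finset.sum_ite_eq', Finset.mem_univ, if_true]
    ring
  have e2 : ∀ j, XA (fun j l => (if j = a then 1 else 0) * nx l x -
      nx j x * (if l = a then 1 else 0)) j x * pd j (Vf G g K) x =
      len x * (if j = a then pd j (Vf G g K) x else 0) -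
      len x * nx a x * (nx j x * pd j (Vf G g K) x) := by
    intro j
    rw [e1 j]
    split_ifs <;> ring
  rw [Finset.sum_congr rfl fun j _ => e2 j] at h1
  simp only [Finset.sum_sub_distrib, ← Finset.mul_sum, Finset.sum_ite_eq', Finset.mem_univ,
    if_true] at h1
  have h2 : len x * tg (Vf G g K) a x = 0 := by
    unfold tg dN
    linear_combination h1
  exact (mul_eq_zero.1 h2).resolve_left hl

end

end Vale.Agent.H177
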