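import Vale.Agent.P366.H177.Final

/-! The spectral gap of round spheres (Lichnerowicz), for solutions of `Δ f = -λ f + c`. -/

open MeasureTheory Metric Filter Topology Set
open scoped ContDiff ENNReal Matrix

noncomputable section
namespace Vale.Agent.H177
open Vale.Agent.P366.Stmt Vale.Agent.P366.T2 Vale.Agent.T4
open Vale.Agent.P366 (sphI sphM av norm_smul_sph integrable_sph sphI_congr sphI_continuousOn
  cont_smul_sph1)

variable {n : ℕ}

/-- the tangential gradient -/
def tg (f : E n → ℝ) (k : Fin n) (x : E n) : ℝ := pd k f x - dN f x * nx k x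

/-- the tangential Laplacian -/
def tL (f : E n → ℝ) (x : E n) : ℝ := ∑ k, pd k (tg f k) x

lemma contDiffAt_dN {f : E n → ℝ} {x : E n} (hx : x ≠ 0) (hf : ContDiffAt ℝ ∞ f x) :
    ContDiffAt ℝ ∞ (dN f) x :=
  ContDiffAt.sum fun k _ => (contDiffAt_nx k hx).mul (contDiffAt_pd hf k)

lemma contDiffAt_tg {f : E n → ℝ} {x : E n} (hx : x ≠ 0) (hf : ContDiffAt ℝ ∞ f x) (k : Fin n) :
    ContDiffAt ℝ ∞ (tg f k) x :=
  (contDiffAt_pd hf k).sub ((contDiffAt_dN hx hf).mul (contDiffAt_nx k hx))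

lemma sum_nx_tg {f : E n → ℝ} {x : E n} (hx : x ≠ 0) : ∑ k, nx k x * tg f k x = 0 := by
  have e : ∀ k, nx k x * tg f k x = nx k x * pd k f x - dN f x * (nx k x * nx k x) := by
    intro k; unfold tg; ring
  simp only [e, Finset.sum_sub_distrib, ← Finset.mul_sum, sum_nx_mul hx]
  unfold dN
  ring

/-- a function vanishing on a centred sphere has no tangential gradient there -/
lemma tg_zero {f : E n → ℝ} {x : E n} (hx : x ≠ 0) (hf : DifferentiableAt ℝ f x)
    (hc : ∀ y, len y = len x → f y = f x) (k : Fin n) : tg f k x = 0 := by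
  have h1 := tang_zero92 hx hf hc
    (w := WithLp.toLp 2 fun i => (if i = k then 1 else 0) - nx i x * nx k x) (by
      have e : ∀ i, nx i x * ((if i = k then (1 : ℝ) else 0) - nx i x * nx k x) =
          (if i = k then nx i x else 0) - nx k x * (nx i x * nx i x) := by
        intro i; split_ifs <;> ring
      simp only [e, Finset.sum_sub_distrib, ← Finset.mul_sum, sum_nx_mul hx]
      simp)
  have e : ∀ i, ((if i = k then (1 : ℝ) else 0) - nx i x * nx k x) * pd i f x =
      (if i = k then pd i f x else 0) - nx k x * (nx i x * pd i f x) := by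
    intro i; split_ifs <;> ring
  simp only [e, Finset.sum_sub_distrib, ← Finset.mul_sum] at h1
  unfold tg dN
  simp only [Finset.sum_ite_eq', Finset.mem_univ, if_true] at h1
  linarith

/-- the tangential gradient and Laplacian depend only on the values on the sphere: vanishing -/
lemma tL_zero {f : E n → ℝ} {x : E n} (hx : x ≠ 0)
    (hf : ∀ y, len y = len x → ContDiffAt ℝ ∞ f y) (h0 : ∀ y, len y = len x → f y = 0) :
    tL f x = 0 := by
  have hne : ∀ y : E n, len y = len x → y ≠ 0 := by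
    intro y hy h0
    rw [h0] at hy
    simp only [len, norm_zero] at hy
    exact hx (norm_eq_zero.1 hy.symm)
  have ht : ∀ (k : Fin n) (y : E n), len y = len x → tg f k y = 0 := fun k y hy =>
    tg_zero (hne y hy) ((hf y hy).differentiableAt (by simp))
      (fun z hz => by rw [h0 z (by rw [hz, hy]), h0 y hy]) k
  have hfx := hf x rfl
  have htt : ∀ k i : Fin n, pd i (tg f k) x = dN (tg f k) x * nx i x := by
    intro k i
    have h1 := tg_zero hx ((contDiffAt_tg hx hfx k).differentiableAt (by simp))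
      (fun y hy => by rw [ht k y hy, ht k x rfl]) i
    unfold tg at h1
    unfold tg
    linarith
  have h2 : ∀ i, ∑ k, nx k x * pd i (tg f k) x = 0 := by
    intro i
    have hev : (fun y : E n => ∑ k, nx k y * tg f k y) =ᶠ[𝓝 x] fun _ => (0 : ℝ) := by
      filter_upwards [isOpen_ne.mem_nhds hx] with y hy
      exact sum_nx_tg hy
    have h3 := (HP.congr (HP.const i (0 : ℝ) x) hev).pd
    have h4 := (HP.sum Finset.univ (k := i) (x := x) fun k _ => (HP_nx hx i k).mul
      (HP.of_diff (k := i) ((contDiffAt_tg hx hfx k).differentiableAt (by simp)))).pd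
    rw [h4] at h3
    simp only [ht _ x rfl, mul_zero, zero_add] at h3
    exact h3
  unfold tL
  have h5 : ∑ k, pd k (tg f k) x = ∑ i, nx i x * ∑ k, nx k x * pd i (tg f k) x := by
    have e : ∀ i, nx i x * ∑ k, nx k x * pd i (tg f k) x =
        ∑ k, (nx i x * nx i x) * (dN (tg f k) x * nx k x) := by
      intro i
      rw [Finset.mul_sum]
      refine Finset.sum_congr rfl fun k _ => ?_
      rw [htt k i]; ring
    simp only [e]
    rw [Finset.sum_comm]
    refine Finset.sum_congr rfl fun k _ => ?_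
    rw [← Finset.sum_mul, sum_nx_mul hx, one_mul, htt k k]
  rw [h5]
  simp only [h2, mul_zero, Finset.sum_const_zero]

lemma tg_sub {f g : E n → ℝ} {x : E n} (hf : DifferentiableAt ℝ f x)
    (hg : DifferentiableAt ℝ g x) (k : Fin n) :
    tg (fun y => f y - g y) k x = tg f k x - tg g k x := by
  have h1 : ∀ i, pd i (fun y => f y - g y) x = pd i f x - pd i g x := fun i =>
    ((HP.of_diff hf).sub (HP.of_diff hg)).pd
  unfold tg dN
  simp only [h1, mul_sub, Finset.sum_sub_distrib, sub_mul]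
  ring

lemma tL_sub {f g : E n → ℝ} {x : E n} (hx : x ≠ 0) (hf : ContDiffAt ℝ ∞ f x)
    (hg : ContDiffAt ℝ ∞ g x) : tL (fun y => f y - g y) x = tL f x - tL g x := by
  unfold tL
  rw [← Finset.sum_sub_distrib]
  refine Finset.sum_congr rfl fun k _ => ?_
  have hev : tg (fun y => f y - g y) k =ᶠ[𝓝 x] fun y => tg f k y - tg g k y := by
    have h1 : ∀ᶠ y in 𝓝 x, ContDiffAt ℝ 1 f y := (hf.of_le (by simp)).eventually (by simp)
    have h2 : ∀ᶠ y in 𝓝 x, ContDiffAt ℝ 1 g y := (hg.of_le (by simp)).eventually (by simp)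
    filter_upwards [h1, h2] with y hy1 hy2
    exact tg_sub (hy1.differentiableAt (by simp)) (hy2.differentiableAt (by simp)) k
  exact (((HP.of_diff ((contDiffAt_tg hx hf k).differentiableAt (by simp))).sub
    (HP.of_diff ((contDiffAt_tg hx hg k).differentiableAt (by simp)))).congr hev).pd

/-- functions agreeing on a centred sphere have the same tangential gradient and Laplacian -/
lemma tL_congr {f g : E n → ℝ} {x : E n} (hx : x ≠ 0)
    (hf : ∀ y, len y = len x → ContDiffAt ℝ ∞ f y) (hg : ∀ y, len y = len x → ContDiffAt ℝ ∞ g y)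
    (h0 : ∀ y, len y = len x → f y = g y) :
    (∀ k, tg f k x = tg g k x) ∧ tL f x = tL g x := by
  have h1 : tL (fun y => f y - g y) x = 0 := tL_zero hx (fun y hy => (hf y hy).sub (hg y hy))
    fun y hy => by rw [h0 y hy, sub_self]
  rw [tL_sub hx (hf x rfl) (hg x rfl)] at h1
  refine ⟨fun k => ?_, by linarith⟩
  have h2 := tg_zero (f := fun y => f y - g y) hx
    (((hf x rfl).sub (hg x rfl)).differentiableAt (by simp))
    (fun y hy => by rw [h0 y hy, h0 x rfl, sub_self, sub_self]) k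
  rw [tg_sub ((hf x rfl).differentiableAt (by simp)) ((hg x rfl).differentiableAt (by simp))] at h2
  linarith

/-- Equality of mixed partial derivatives. -/
lemma pd_comm' {f : E n → ℝ} {x : E n} (hf : ContDiffAt ℝ ∞ f x) (i j : Fin n) :
    pd i (pd j f) x = pd j (pd i f) x := by
  have hf2 : ContDiffAt ℝ 2 f x := hf.of_le (WithTop.coe_le_coe.2 le_top)
  have hf' : DifferentiableAt ℝ (fderiv ℝ f) x :=
    (hf2.fderiv_right (m := 1) (by norm_num)).differentiableAt (by norm_num)
  have h : ∀ i j : Fin n, pd i (pd j f) x = fderiv ℝ (fderiv ℝ f) x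
      (EuclideanSpace.single i 1) (EuclideanSpace.single j 1) := by
    intro i j
    have h3 : HasFDerivAt (fun y => fderiv ℝ f y (EuclideanSpace.single j (1 : ℝ)))
        ((fderiv ℝ (fderiv ℝ f) x).flip (EuclideanSpace.single j 1)) x := by
      have := hf'.hasFDerivAt.clm_apply (hasFDerivAt_const (EuclideanSpace.single j (1 : ℝ)) x)
      rw [ContinuousLinearMap.comp_zero, zero_add] at this
      exact this
    have hev : pd j f =ᶠ[𝓝 x] fun y => fderiv ℝ f y (EuclideanSpace.single j (1 : ℝ)) := by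
      have h4 : ∀ᶠ y in 𝓝 x, ContDiffAt ℝ 1 f y := (hf.of_le (by simp)).eventually (by simp)
      filter_upwards [h4] with y hy
      show lineDeriv ℝ f y (EuclideanSpace.single j (1 : ℝ)) = _
      exact (hy.differentiableAt (by simp)).lineDeriv_eq_fderiv
    exact ((h3.congr_of_eventuallyEq hev).hasLineDerivAt
      (EuclideanSpace.single i (1 : ℝ))).lineDeriv
  rw [h, h]
  exact (hf2.isSymmSndFDerivAt (by simp)).eq _ _

/-- the algebraic inequality -/
lemma sq_trace_le {M : Fin n → Fin n → ℝ} {ν v : Fin n → ℝ} {c : ℝ} (hn : 2 ≤ n)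
    (hν : ∑ i, ν i * ν i = 1) (hv : ∑ i, ν i * v i = 0)
    (hM : ∀ j, ∑ i, ν i * M i j = -c * v j) (hs : ∀ i j, M i j = M j i) :
    (∑ i, M i i) ^ 2 / ((n : ℝ) - 1) + 2 * c ^ 2 * ∑ i, v i * v i ≤ ∑ i, ∑ j, M i j * M i j := by
  have hn1 : (0 : ℝ) < (n : ℝ) - 1 := by
    have : (2 : ℝ) ≤ n := by exact_mod_cast hn
    linarith
  set t := (∑ i, M i i) / ((n : ℝ) - 1) with ht
  have h0 : 0 ≤ ∑ i, ∑ j, (M i j + c * (ν i * v j + ν j * v i) -
      t * ((if i = j then 1 else 0) - ν i * ν j)) ^ 2 :=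
    Finset.sum_nonneg fun i _ => Finset.sum_nonneg fun j _ => sq_nonneg _
  have e : ∀ i j, (M i j + c * (ν i * v j + ν j * v i) -
      t * ((if i = j then 1 else 0) - ν i * ν j)) ^ 2 =
      M i j * M i j + c ^ 2 * ((ν i * ν i) * (v j * v j)) + c ^ 2 * ((v i * v i) * (ν j * ν j)) +
      2 * c ^ 2 * ((ν i * v i) * (ν j * v j)) + 2 * c * (v j * (ν i * M i j)) +
      2 * c * (v i * (ν j * M j i)) + (t ^ 2 + 2 * c * t * 0) * (if i = j then 1 else 0) +
      t ^ 2 * ((ν i * ν i) * (ν j * ν j)) - 2 * t ^ 2 * (if i = j then ν i * ν j else 0) -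
      2 * t * (if i = j then M i j else 0) + 2 * t * (ν j * (ν i * M i j)) -
      2 * c * t * (if i = j then ν i * v j + ν j * v i else 0) +
      2 * c * t * ((ν i * ν i) * (ν j * v j)) + 2 * c * t * ((ν i * v i) * (ν j * ν j)) := by
    intro i j
    rw [hs j i]
    split_ifs <;> ring
  have hM2 : ∑ i, ∑ j, v j * (ν i * M i j) = -c * ∑ i, v i * v i := by
    rw [Finset.sum_comm]
    simp only [← Finset.mul_sum, hM]
    rw [Finset.mul_sum]
    exact Finset.sum_congr rfl fun j _ => by ring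
  have hM3 : ∑ i, ∑ j, v i * (ν j * M j i) = -c * ∑ i, v i * v i := by
    simp only [← Finset.mul_sum, hM]
    rw [Finset.mul_sum]
    exact Finset.sum_congr rfl fun j _ => by ring
  have hM4 : ∑ i, ∑ j, ν j * (ν i * M i j) = 0 := by
    rw [Finset.sum_comm]
    simp only [← Finset.mul_sum, hM]
    have : ∀ j, ν j * (-c * v j) = -c * (ν j * v j) := fun j => by ring
    simp only [this, ← Finset.mul_sum, hv, mul_zero]
  have hP : ∀ a b : Fin n → ℝ, ∑ i, ∑ j, a i * b j = (∑ i, a i) * ∑ j, b j := by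
    intro a b
    rw [Finset.sum_mul_sum]
  have hC : ∀ (a : ℝ) (F : Fin n → Fin n → ℝ), ∑ i, ∑ j, a * F i j = a * ∑ i, ∑ j, F i j := by
    intro a F
    simp only [Finset.mul_sum]
  simp only [e, Finset.sum_add_distrib, Finset.sum_sub_distrib] at h0
  simp only [hC] at h0
  rw [hP (fun i => ν i * ν i) fun j => v j * v j, hP (fun i => v i * v i) fun j => ν j * ν j,
    hP (fun i => ν i * v i) fun j => ν j * v j, hP (fun i => ν i * ν i) fun j => ν j * ν j,
    hP (fun i => ν i * ν i) fun j => ν j * v j, hP (fun i => ν i * v i) fun j => ν j * ν j,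
    hM2, hM3, hM4] at h0
  simp only [Finset.sum_ite_eq, Finset.mem_univ, if_true, hν, hv, Finset.sum_add_distrib,
    Finset.sum_const, Finset.card_univ, Fintype.card_fin, nsmul_eq_mul, mul_one] at h0
  have h1 : (∑ i, M i i) = t * ((n : ℝ) - 1) := by
    rw [ht]; field_simp
  rw [h1] at h0 ⊢
  have h2 : (t * ((n : ℝ) - 1)) ^ 2 / ((n : ℝ) - 1) = t ^ 2 * ((n : ℝ) - 1) := by
    field_simp
  rw [h2]
  linarith

/-- second partial derivatives -/
def U2 (U : E n → ℝ) (i k : Fin n) (x : E n) : ℝ := pd i (pd k U) x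

/-- the vector field of the Bochner formula -/
def Zf (U : E n → ℝ) (a b : ℝ) (k : Fin n) (x : E n) : ℝ :=
  (∑ i, pd i U x * U2 U i k x) + (∑ i, pd i U x * pd i U x) * ((len x)⁻¹ * nx k x) -
    (∑ i, U2 U i i x) * pd k U x + (a * (U x * pd k U x) + b * pd k U x)

section Hom

variable {U : E n → ℝ}

lemma contDiffAt_U2 {x : E n} (hU : ContDiffAt ℝ ∞ U x) (i k : Fin n) :
    ContDiffAt ℝ ∞ (U2 U i k) x := contDiffAt_pd (contDiffAt_pd hU k) i

lemma U2_nx (hU : ∀ x : E n, x ≠ 0 → ContDiffAt ℝ ∞ U x) (hN : ∀ x : E n, x ≠ 0 → dN U x = 0)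
    {x : E n} (hx : x ≠ 0) (i : Fin n) :
    ∑ k, nx k x * U2 U i k x = -(len x)⁻¹ * pd i U x := by
  have hev : dN U =ᶠ[𝓝 x] fun _ => (0 : ℝ) := by
    filter_upwards [isOpen_ne.mem_nhds hx] with y hy
    exact hN y hy
  have h1 := (HP.congr (HP.const i (0 : ℝ) x) hev).pd
  have h2 : HP i (dN U) _ x := HP.sum Finset.univ fun k _ => (HP_nx hx i k).mul
    (HP.of_diff (k := i) ((contDiffAt_pd (hU x hx) k).differentiableAt (by simp)))
  rw [h2.pd] at h1
  have e : ∀ k, ((if k = i then (1 : ℝ) else 0) - nx k x * nx i x) / len x * pd k U x +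
      nx k x * pd i (pd k U) x = (len x)⁻¹ * (if k = i then pd k U x else 0) -
      (len x)⁻¹ * nx i x * (nx k x * pd k U x) + nx k x * U2 U i k x := by
    intro k
    unfold U2
    split_ifs <;> ring
  simp only [e, Finset.sum_add_distrib, Finset.sum_sub_distrib, ← Finset.mul_sum] at h1
  have h3 : ∑ k, nx k x * pd k U x = 0 := hN x hx
  rw [h3] at h1
  simp only [Finset.sum_ite_eq', Finset.mem_univ, if_true] at h1
  linarith

/-- **The Bochner formula.** -/
theorem div_Zf (hU : ∀ x : E n, x ≠ 0 → ContDiffAt ℝ ∞ U x)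
    (hN : ∀ x : E n, x ≠ 0 → dN U x = 0) (a b : ℝ) {x : E n} (hx : x ≠ 0) :
    ∑ k, pd k (Zf U a b k) x = ∑ i, ∑ j, U2 U i j x * U2 U i j x - (∑ i, U2 U i i x) ^ 2 +
      ((n : ℝ) - 4) * ((∑ i, pd i U x * pd i U x) * ((len x)⁻¹) ^ 2) +
      a * ((∑ i, pd i U x * pd i U x) + U x * ∑ i, U2 U i i x) + b * ∑ i, U2 U i i x := by
  have hl := len_ne hx
  have hd : ∀ i k, HP k (pd i U) (U2 U k i x) x := fun i k =>
    HP.of_diff ((contDiffAt_pd (hU x hx) i).differentiableAt (by simp))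
  have hd2 : ∀ i j k, HP k (U2 U i j) (pd k (U2 U i j) x) x := fun i j k =>
    HP.of_diff ((contDiffAt_U2 (hU x hx) i j).differentiableAt (by simp))
  have hd0 : ∀ k, HP k U (pd k U x) x := fun k => HP.of_diff ((hU x hx).differentiableAt (by simp))
  have hs : ∀ i j, U2 U i j x = U2 U j i x := fun i j => pd_comm' (hU x hx) i j
  have hE := U2_nx hU hN hx
  have hnk : ∀ k : Fin n, HP k (nx k) ((1 - nx k x * nx k x) / len x) x := by
    intro k
    have := HP_nx hx k k
    rwa [if_pos rfl] at this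
  have h1 : ∀ k, pd k (Zf U a b k) x =
      (∑ i, (U2 U k i x * U2 U i k x + pd i U x * pd k (U2 U i k) x)) +
      ((∑ i, (U2 U k i x * pd i U x + pd i U x * U2 U k i x)) * ((len x)⁻¹ * nx k x) +
        (∑ i, pd i U x * pd i U x) * ((-(len x ^ 2)⁻¹ / len x * x k) * nx k x +
          (len x)⁻¹ * ((1 - nx k x * nx k x) / len x))) -
      ((∑ i, pd k (U2 U i i) x) * pd k U x + (∑ i, U2 U i i x) * U2 U k k x) +
      (a * (pd k U x * pd k U x + U x * U2 U k k x) + b * U2 U k k x) := fun k =>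
    ((((HP.sum Finset.univ fun i _ => (hd i k).mul (hd2 i k k)).add
      ((HP.sum Finset.univ fun i _ => (hd i k).mul (hd i k)).mul
        ((HP.radial hx (hasDerivAt_inv hl) k).mul (hnk k)))).sub
      ((HP.sum Finset.univ fun i _ => hd2 i i k).mul (hd k k))).add
      ((((hd0 k).mul (hd k k)).const_mul a).add ((hd k k).const_mul b))).pd
  simp only [h1]
  -- the third derivatives
  have t3 : ∑ k, ∑ i, pd i U x * pd k (U2 U i k) x = ∑ k, (∑ i, pd k (U2 U i i) x) * pd k U x := by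
    have e : ∀ k i, pd k (U2 U i k) x = pd i (U2 U k k) x := by
      intro k i
      have hc := pd_comm' (contDiffAt_pd (hU x hx) k) k i
      exact hc
    have e2 : ∑ k, ∑ i, pd i U x * pd k (U2 U i k) x = ∑ k, ∑ i, pd i U x * pd i (U2 U k k) x :=
      Finset.sum_congr rfl fun k _ => Finset.sum_congr rfl fun i _ => by rw [e k i]
    rw [e2, Finset.sum_comm]
    refine Finset.sum_congr rfl fun i _ => ?_
    rw [Finset.sum_mul]
    exact Finset.sum_congr rfl fun k _ => mul_comm _ _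
  have t1 : ∑ k, ∑ i, U2 U k i x * U2 U i k x = ∑ i, ∑ j, U2 U i j x * U2 U i j x :=
    Finset.sum_congr rfl fun k _ => Finset.sum_congr rfl fun i _ => by rw [hs i k]
  have t2 : ∑ k, (∑ i, (U2 U k i x * pd i U x + pd i U x * U2 U k i x)) *
      ((len x)⁻¹ * nx k x) = -2 * ((∑ i, pd i U x * pd i U x) * ((len x)⁻¹) ^ 2) := by
    have e : ∀ k, (∑ i, (U2 U k i x * pd i U x + pd i U x * U2 U k i x)) *
        ((len x)⁻¹ * nx k x) = ∑ i, 2 * (len x)⁻¹ * pd i U x * (nx k x * U2 U i k x) := by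
      intro k
      rw [Finset.sum_mul]
      refine Finset.sum_congr rfl fun i _ => ?_
      rw [hs k i]; ring
    simp only [e]
    rw [Finset.sum_comm]
    simp only [← Finset.mul_sum, hE]
    rw [Finset.sum_mul, Finset.mul_sum]
    exact Finset.sum_congr rfl fun i _ => by ring
  have t4 : ∑ k, ((-(len x ^ 2)⁻¹ / len x * x k) * nx k x +
      (len x)⁻¹ * ((1 - nx k x * nx k x) / len x)) =
      ((n : ℝ) - 2) * ((len x)⁻¹) ^ 2 := by
    have e : ∀ k : Fin n, (-(len x ^ 2)⁻¹ / len x * x k) * nx k x +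
        (len x)⁻¹ * ((1 - nx k x * nx k x) / len x) =
        (len x)⁻¹ ^ 2 * 1 - 2 * (len x)⁻¹ ^ 2 * (nx k x * nx k x) := by
      intro k
      rw [← nx_mul_len hx k]
      field_simp
      ring
    simp only [e, Finset.sum_sub_distrib, ← Finset.mul_sum, sum_nx_mul hx]
    simp
    ring
  simp only [Finset.sum_add_distrib, Finset.sum_sub_distrib, ← Finset.mul_sum] at t2 t4 t1 t3 ⊢
  rw [t1, t3, t2, t4]
  ring

end Hom

/-- **The spectral gap of round spheres.** -/
theorem lich (hn : 3 ≤ n) {b r : ℝ} (hb : 0 ≤ b) (hr : b < r) {f : E n → ℝ}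
    (hf : ∀ x, b < len x → ContDiffAt ℝ ∞ f x) {lam c : ℝ} (hlam : lam < ((n : ℝ) - 1) / r ^ 2)
    (hpde : ∀ x, len x = r → tL f x = -lam * f x + c) :
    ∀ x, len x = r → ∀ k, tg f k x = 0 := by
  have : Nonempty (Fin n) := ⟨⟨0, by omega⟩⟩
  have : Nontrivial (E n) := inferInstance
  have hr0 : 0 < r := hb.trans_lt hr
  have hn3 : (3 : ℝ) ≤ n := by exact_mod_cast hn
  set U : E n → ℝ := fun x => f ((r / ‖x‖) • x) with hUd
  have hφ : ∀ x : E n, x ≠ 0 → len ((r / ‖x‖) • x) = r := by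
    intro x hx
    have hx' : 0 < ‖x‖ := norm_pos_iff.2 hx
    unfold len
    rw [norm_smul, Real.norm_eq_abs, abs_of_pos (div_pos hr0 hx')]
    field_simp
  have hU : ∀ x : E n, x ≠ 0 → ContDiffAt ℝ ∞ U x := by
    intro x hx
    have h1 : ContDiffAt ℝ ∞ (fun x : E n => (r / ‖x‖) • x) x :=
      (contDiffAt_const.div (contDiffAt_norm ℝ hx) (norm_ne_zero_iff.2 hx)).smul contDiffAt_id
    exact ContDiffAt.comp x (hf _ (by rw [hφ x hx]; exact hr)) h1
  have hN : ∀ x : E n, x ≠ 0 → dN U x = 0 := by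
    intro x hx
    have hx' : 0 < ‖x‖ := norm_pos_iff.2 hx
    have he : ‖(1 / ‖x‖) • x‖ = 1 := by
      rw [norm_smul, Real.norm_eq_abs, abs_of_pos (by positivity)]
      field_simp
    have hxe : ‖x‖ • ((1 / ‖x‖) • x) = x := by
      rw [smul_smul, mul_one_div, div_self hx'.ne', one_smul]
    have h1 := hasDerivAt_ray92 (f := U) he hx' (by
      rw [hxe]; exact (hU x hx).differentiableAt (by simp))
    rw [hxe] at h1
    refine h1.unique ((hasDerivAt_const ‖x‖ (U x)).congr_of_eventuallyEq ?_)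
    filter_upwards [lt_mem_nhds hx'] with s hs
    have hs' : (0 : ℝ) < s := hs
    simp only [hUd]
    rw [norm_smul, he, mul_one, Real.norm_eq_abs, abs_of_pos hs', smul_smul, smul_smul]
    congr 2
    field_simp
  have heq : ∀ y : E n, len y = r → f y = U y := by
    intro y hy
    have hy' : ‖y‖ = r := hy
    simp only [hUd, hy', div_self hr0.ne', one_smul]
  have hne : ∀ y : E n, len y = r → y ≠ 0 := fun y hy => ne_zero_of_len hr0 hy.ge
  have hcg : ∀ x : E n, len x = r → (∀ k, tg f k x = tg U k x) ∧ tL f x = tL U x := by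
    intro x hx
    refine tL_congr (hne x hx) (fun y hy => hf y ?_) (fun y hy => hU y (hne y ?_))
      fun y hy => heq y ?_
    · rw [hy, hx]; exact hr
    · rw [hy, hx]
    · rw [hy, hx]
  have htg : ∀ (x : E n), x ≠ 0 → ∀ k, tg U k x = pd k U x := by
    intro x hx k
    unfold tg
    rw [hN x hx, zero_mul, sub_zero]
  have hL : ∀ x : E n, len x = r → ∑ i, U2 U i i x = -lam * U x + c := by
    intro x hx
    rw [← heq x hx, ← hpde x hx, (hcg x hx).2]
    unfold tL
    refine Finset.sum_congr rfl fun k _ => ?_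
    have hev : tg U k =ᶠ[𝓝 x] pd k U := by
      filter_upwards [isOpen_ne.mem_nhds (hne x hx)] with y hy
      exact htg y hy k
    exact ((HP.of_diff (k := k) ((contDiffAt_pd (hU x (hne x hx)) k).differentiableAt
      (by simp))).congr hev).pd.symm
  set a : ℝ := -lam * (((n : ℝ) - 2) / ((n : ℝ) - 1)) with ha
  set b' : ℝ := c * (((n : ℝ) - 2) / ((n : ℝ) - 1)) with hb'
  have hne0 : ∀ y : E n, 0 < ‖y‖ → y ≠ 0 := fun y hy => norm_pos_iff.1 hy
  have hZs : ∀ (k : Fin n) (x : E n), x ≠ 0 → ContDiffAt ℝ ∞ (Zf U a b' k) x := by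
    intro k x hx
    have h1 : ∀ i, ContDiffAt ℝ ∞ (pd i U) x := fun i => contDiffAt_pd (hU x hx) i
    have h2 : ∀ i j, ContDiffAt ℝ ∞ (U2 U i j) x := fun i j => contDiffAt_U2 (hU x hx) i j
    exact (((ContDiffAt.sum fun i _ => (h1 i).mul (h2 i k)).add
      ((ContDiffAt.sum fun i _ => (h1 i).mul (h1 i)).mul
        (((contDiffAt_len hx).inv (len_ne hx)).mul (contDiffAt_nx k hx)))).sub
      ((ContDiffAt.sum fun i _ => h2 i i).mul (h1 k))).add
      ((contDiffAt_const.mul ((hU x hx).mul (h1 k))).add (contDiffAt_const.mul (h1 k)))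
  have hZ1 : ∀ k, ContDiffOn ℝ 1 (Zf U a b' k) {x : E n | 0 < ‖x‖} := fun k x hx =>
    ((hZs k x (hne0 x hx)).of_le (by simp)).contDiffWithinAt
  have hZt : ∀ x : E n, 0 < ‖x‖ → ∑ k, Zf U a b' k x * nx k x = 0 := by
    intro x hx'
    have hx := hne0 x hx'
    have hNx : ∑ k, nx k x * pd k U x = 0 := hN x hx
    have e : ∀ k, Zf U a b' k x * nx k x = (∑ i, pd i U x * (nx k x * U2 U i k x)) +
        (∑ i, pd i U x * pd i U x) * (len x)⁻¹ * (nx k x * nx k x) +
        (-(∑ i, U2 U i i x) + a * U x + b') * (nx k x * pd k U x) := by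
      intro k
      unfold Zf
      rw [add_mul, sub_mul, add_mul, Finset.sum_mul]
      have e1 : ∑ i, pd i U x * U2 U i k x * nx k x = ∑ i, pd i U x * (nx k x * U2 U i k x) :=
        Finset.sum_congr rfl fun i _ => by ring
      rw [e1]
      ring
    simp only [e, Finset.sum_add_distrib, ← Finset.mul_sum, hNx, sum_nx_mul hx]
    rw [Finset.sum_comm]
    simp only [← Finset.mul_sum, U2_nx hU hN hx]
    have e2 : ∑ i, pd i U x * (-(len x)⁻¹ * pd i U x) =
        -(len x)⁻¹ * ∑ i, pd i U x * pd i U x := by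
      rw [Finset.mul_sum]
      exact Finset.sum_congr rfl fun i _ => by ring
    rw [e2]
    ring
  have hI : sphI (fun x => ∑ k, pd k (Zf U a b' k) x) r = 0 :=
    sphI_div_tangential le_rfl hZ1 hZt hr0
  -- the sign
  have hpt : ∀ x : E n, len x = r → ((n : ℝ) - 2) * (((len x)⁻¹) ^ 2 - lam / ((n : ℝ) - 1)) *
      (∑ i, pd i U x * pd i U x) ≤ ∑ k, pd k (Zf U a b' k) x := by
    intro x hx
    have hx0 := hne x hx
    rw [div_Zf hU hN a b' hx0]
    have h1 := sq_trace_le (M := fun i j => U2 U i j x) (ν := fun i => nx i x)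
      (v := fun i => pd i U x) (c := (len x)⁻¹) (by omega) (sum_nx_mul hx0) (hN x hx0)
      (fun j => by
        rw [← U2_nx hU hN hx0 j]
        exact Finset.sum_congr rfl fun i _ => by rw [show U2 U i j x = U2 U j i x from
          pd_comm' (hU x hx0) i j])
      (fun i j => pd_comm' (hU x hx0) i j)
    have h2 := hL x hx
    set L := ∑ i, U2 U i i x with hLd
    set q := ∑ i, pd i U x * pd i U x with hq
    set D := ∑ i, ∑ j, U2 U i j x * U2 U i j x with hD
    have hn1 : (n : ℝ) - 1 ≠ 0 := by linarith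
    have h3 : a * (q + U x * L) + b' * L = a * q + (((n : ℝ) - 2) / ((n : ℝ) - 1)) * L ^ 2 := by
      rw [ha, hb']
      have : L ^ 2 = L * (-lam * U x + c) := by rw [sq, ← h2]
      rw [this]
      ring
    have h4 : (((n : ℝ) - 2) / ((n : ℝ) - 1)) * L ^ 2 = L ^ 2 - L ^ 2 / ((n : ℝ) - 1) := by
      field_simp
      ring
    have h5 : ((n : ℝ) - 2) * (((len x)⁻¹) ^ 2 - lam / ((n : ℝ) - 1)) * q =
        ((n : ℝ) - 2) * ((len x)⁻¹) ^ 2 * q + a * q := by
      rw [ha]; ring
    have h6 : D - L ^ 2 + ((n : ℝ) - 4) * (q * ((len x)⁻¹) ^ 2) + a * (q + U x * L) + b' * L =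
        D - L ^ 2 / ((n : ℝ) - 1) + ((n : ℝ) - 4) * (q * ((len x)⁻¹) ^ 2) + a * q := by
      rw [add_assoc (D - L ^ 2 + _), h3, h4]; ring
    rw [h5, h6]
    nlinarith [h1]
  intro x hx k
  have hpos : 0 < ((n : ℝ) - 2) * ((r⁻¹) ^ 2 - lam / ((n : ℝ) - 1)) := by
    refine mul_pos (by linarith) ?_
    have h1 : lam / ((n : ℝ) - 1) < r⁻¹ ^ 2 := by
      rw [div_lt_iff₀ (by linarith)]
      refine hlam.trans_le (le_of_eq ?_)
      field_simp
    linarith
  have hq0 : ∀ x : E n, 0 ≤ ∑ i, pd i U x * pd i U x := fun x =>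
    Finset.sum_nonneg fun i _ => mul_self_nonneg _
  have hnn : ∀ x : E n, ‖x‖ = r → 0 ≤ ∑ k, pd k (Zf U a b' k) x := by
    intro x hx
    have hx' : len x = r := hx
    have h1 := hpt x hx'
    rw [hx'] at h1
    exact (mul_nonneg hpos.le (hq0 x)).trans h1
  have hz := eq_zero_of_sphI (f := fun x => ∑ k, pd k (Zf U a b' k) x) le_rfl hr0
    (contOn_div hZ1) hnn hI.le (x := x) hx
  have h1 := hpt x hx
  rw [hz, hx] at h1
  have h2 : ∑ i, pd i U x * pd i U x = 0 := by
    refine le_antisymm ?_ (hq0 x)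
    by_contra hcon
    push Not at hcon
    have := mul_pos hpos hcon
    linarith
  have h3 := (Finset.sum_eq_zero_iff_of_nonneg fun i _ => mul_self_nonneg (pd i U x)).1 h2 k
    (Finset.mem_univ k)
  rw [(hcg x hx).1 k, htg x (hne x hx) k]
  exact mul_self_eq_zero.1 h3

end Vale.Agent.H177
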