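import Vale.Agent.P366.H177.Final2

/-! Time flat centred spheres, equality case: the local version on an open set of radii. -/

open MeasureTheory Metric Filter Topology Set
open scoped ContDiff ENNReal Matrix

noncomputable section
namespace Vale.Agent.H177
open Vale.Agent.P366.Stmt Vale.Agent.P366.T2 Vale.Agent.T4
open Vale.Agent.P366 (sphI sphM av norm_smul_sph integrable_sph sphI_congr sphI_continuousOn
  cont_smul_sph1)
open Vale.Agent.Mom68 (WX Lie Pu mom_X)

variable {n : ℕ}

section

variable {G g K : Field n} {B : Bg n}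

lemma nhds_U {U : Set ℝ} (hU : IsOpen U) {x : E n} (hx : len x ∈ U) : ∀ᶠ y in 𝓝 x, len y ∈ U :=
  (continuous_norm.continuousAt (x := x)).eventually (hU.mem_nhds hx)

/-- **The momentum constraint in tangential directions.** -/
theorem XA_VfU (h : Lapse G g B.R) (hF : B.Fits0 G) (hK : ∀ i j, Smooth (fun x => K x i j))
    (hKs : ∀ x, B.R ≤ len x → ∀ i j, K x i j = K x j i) (hro : B.RoundAt G)
    {U : Set ℝ} (hU : IsOpen U) (hpt : ∀ x, B.R < len x → len x ∈ U → PtEqZ B G g K x)
    (hlt : ∀ x, B.R < len x → |kpf G g K x| < B.H (len x))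
    {A : Fin n → Fin n → ℝ} (hA : ∀ i j, A i j = -A j i) {x : E n} (hx : B.R < len x)
    (hxU : len x ∈ U) :
    ∑ j, XA A j x * pd j (Vf G g K) x = 0 := by
  have hx0 := h.ne_zero hx.le
  have hl := len_ne hx0
  have hn := nx_XA hA hx0
  have hp := h.ppos x hx.le
  have hHp : 0 < B.H (len x) := (abs_nonneg _).trans_lt (hlt x hx)
  obtain ⟨-, hκ, hgl⟩ := bf_XA h hF hK hA hx (hpt x hx hxU) (hlt x hx)
  have hχ : ContDiffAt ℝ ∞ (sphereRapidity g K) x := contDiffAt_rapidity h hF hK hx.le (hlt x hx)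
  have hτ : ContDiffAt ℝ ∞ (trT G K) x := h.contDiffAt_trT hK hx
  have hr1 : ContDiffAt ℝ ∞ (fun y => rad K y / rad g y) x :=
    (contDiffAt_rad hK hx0).div (contDiffAt_rad h.gs hx0) hp.ne'
  have hk' : ContDiffAt ℝ ∞ (fun y => rad K y / rad g y - trT G K y / ((n : ℝ) - 1)) x :=
    hr1.sub (hτ.div_const _)
  set k' : E n → ℝ := fun y => rad K y / rad g y - trT G K y / ((n : ℝ) - 1) with hk'd
  set χ := sphereRapidity g K with hχd
  set N := √(rad g x) with hN
  have hNp : 0 < N := Real.sqrt_pos.2 hp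
  have hsN : √(1 / rad g x) * N = 1 := sqrt_inv_mul hp
  set s0 := √(1 / rad g x) with hs0
  -- the divergence of the flux field
  have hev : ∀ k, WX g K (XA A) k =ᶠ[𝓝 x] fun y => √(1 / rad g y) *
      (∑ j, XA A j y * pd j χ y) * nx k y - sc G g K y * XA A k y := by
    intro k
    filter_upwards [(isOpen_out B.R).mem_nhds hx, nhds_U hU hxU] with y hy hyU
    exact WX_eq h hF hK hro hA hy (hpt y hy hyU) (hlt y hy) k
  have hsc : ∀ k, HP k (sc G g K) (pd k k' x + pd k (trT G K) x) x := fun k =>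
    (HP.of_diff (hk'.differentiableAt (by simp))).add (HP.of_diff (hτ.differentiableAt (by simp)))
  have hQ : ∀ k, HP k (fun y => ∑ j, XA A j y * pd j χ y)
      (∑ j, (A j k * pd j χ x + XA A j x * pd k (pd j χ) x)) x := fun k =>
    HP.sum Finset.univ fun j _ => (HP_XA A k j x).mul
      (HP.of_diff ((contDiffAt_pd hχ j).differentiableAt (by simp)))
  have hW : ∀ k, pd k (WX g K (XA A) k) x =
      ((-(s0 * glf g k x)) * (∑ j, XA A j x * pd j χ x) +
        s0 * (∑ j, (A j k * pd j χ x + XA A j x * pd k (pd j χ) x))) * nx k x +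
      s0 * (∑ j, XA A j x * pd j χ x) * (((if k = k then 1 else 0) - nx k x * nx k x) / len x) -
      ((pd k k' x + pd k (trT G K) x) * XA A k x + sc G g K x * A k k) := fun k =>
    ((((((h.HP_sqrt_inv hx.le k).mul (hQ k)).mul (HP_nx hx0 k k)).sub
      ((hsc k).mul (HP_XA A k k x)))).congr (hev k)).pd
  have hAkk : ∀ k, A k k = 0 := fun k => by have := hA k k; linarith
  set Q := ∑ j, XA A j x * pd j χ x with hQd
  -- the derivative of the radial derivative
  have hdN : ∑ j, XA A j x * pd j (dN χ) x =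
      ∑ k, (∑ j, (A j k * pd j χ x + XA A j x * pd k (pd j χ) x)) * nx k x := by
    have e1 : ∀ j, pd j (dN χ) x = ∑ k, (((if k = j then 1 else 0) - nx k x * nx j x) / len x *
        pd k χ x + nx k x * pd j (pd k χ) x) := fun j =>
      (HP.sum Finset.univ fun k _ => (HP_nx hx0 j k).mul
        (HP.of_diff (k := j) ((contDiffAt_pd hχ k).differentiableAt (by simp)))).pd
    have e2 : ∀ j, XA A j x * pd j (dN χ) x = (len x)⁻¹ * (XA A j x * pd j χ x) -
        (len x)⁻¹ * dN χ x * (nx j x * XA A j x) +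
        ∑ k, XA A j x * (nx k x * pd k (pd j χ) x) := by
      intro j
      rw [e1 j, Finset.mul_sum]
      have e3 : ∀ k, XA A j x * (((if k = j then 1 else 0) - nx k x * nx j x) / len x *
          pd k χ x + nx k x * pd j (pd k χ) x) =
          (len x)⁻¹ * XA A j x * (if k = j then pd k χ x else 0) -
          (len x)⁻¹ * (nx j x * XA A j x) * (nx k x * pd k χ x) +
          XA A j x * (nx k x * pd k (pd j χ) x) := by
        intro k
        rw [pd_comm' hχ j k]
        split_ifs <;> ring
      rw [Finset.sum_congr rfl fun k _ => e3 k]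
      simp only [Finset.sum_add_distrib, Finset.sum_sub_distrib, ← Finset.mul_sum,
        Finset.sum_ite_eq', Finset.mem_univ, if_true]
      unfold dN
      ring
    rw [Finset.sum_congr rfl fun j _ => e2 j, Finset.sum_add_distrib, Finset.sum_sub_distrib,
      ← Finset.mul_sum, ← Finset.mul_sum, hn, mul_zero, sub_zero]
    have e4 : ∀ k, (∑ j, (A j k * pd j χ x + XA A j x * pd k (pd j χ) x)) * nx k x =
        ∑ j, pd j χ x * (A j k * nx k x) + ∑ j, XA A j x * (nx k x * pd k (pd j χ) x) := by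
      intro k
      rw [Finset.sum_add_distrib, add_mul, Finset.sum_mul, Finset.sum_mul]
      congr 1
      · exact Finset.sum_congr rfl fun j _ => by ring
      · exact Finset.sum_congr rfl fun j _ => by ring
    rw [Finset.sum_congr rfl fun k _ => e4 k, Finset.sum_add_distrib]
    have e5 : ∑ k, ∑ j, pd j χ x * (A j k * nx k x) = (len x)⁻¹ * Q := by
      rw [Finset.sum_comm]
      simp only [← Finset.mul_sum, sum_A_nx hx0]
      rw [hQd, Finset.mul_sum]
      exact Finset.sum_congr rfl fun j _ => by ring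
    rw [e5]
    congr 1
    exact Finset.sum_comm
  -- the divergence
  have hdiv : ∑ k, pd k (WX g K (XA A) k) x = -(s0 * Q) * dN (lf g) x +
      s0 * (∑ j, XA A j x * pd j (dN χ) x) + s0 * Q * (((n : ℝ) - 1) / len x) -
      (∑ j, XA A j x * pd j k' x) - ∑ j, XA A j x * pd j (trT G K) x := by
    obtain ⟨M, hM⟩ : ∃ M : Fin n → ℝ, ∀ k, M k =
        ∑ j, (A j k * pd j χ x + XA A j x * pd k (pd j χ) x) := ⟨_, fun _ => rfl⟩
    have hdN' : ∑ j, XA A j x * pd j (dN χ) x = ∑ k, M k * nx k x := by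
      rw [hdN]
      exact Finset.sum_congr rfl fun k _ => by rw [hM k]
    have e : ∀ k, pd k (WX g K (XA A) k) x = -(s0 * Q) * (nx k x * glf g k x) +
        s0 * (M k * nx k x) +
        s0 * Q * (len x)⁻¹ * (1 - nx k x * nx k x) -
        XA A k x * pd k k' x - XA A k x * pd k (trT G K) x := by
      intro k
      rw [hW k, hAkk k, if_pos rfl, hM k]
      ring
    rw [Finset.sum_congr rfl fun k _ => e k]
    simp only [Finset.sum_sub_distrib, Finset.sum_add_distrib, ← Finset.mul_sum, sum_nx_mul hx0,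
      Finset.sum_const, Finset.card_univ, Fintype.card_fin, nsmul_eq_mul, mul_one]
    rw [hdN']
    have e2 : ∑ k, nx k x * glf g k x = dN (lf g) x := rfl
    rw [e2]
    ring
  -- the logarithmic term
  have hWx : ∀ k, WX g K (XA A) k x = s0 * Q * nx k x - sc G g K x * XA A k x := fun k =>
    WX_eq h hF hK hro hA hx (hpt x hx hxU) (hlt x hx) k
  have hLg : ∑ k, Lg g k x * WX g K (XA A) k x = (B.H (len x) - ((n : ℝ) - 1) / len x) * (s0 * Q) +
      s0 * Q * dN (lf g) x - sc G g K x * ∑ j, XA A j x * glf g j x := by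
    have e : ∀ k, Lg g k x * WX g K (XA A) k x =
        (B.H (len x) - ((n : ℝ) - 1) / len x) * (s0 * Q) * (nx k x * nx k x) +
        s0 * Q * (nx k x * glf g k x) -
        (B.H (len x) - ((n : ℝ) - 1) / len x) * sc G g K x * (nx k x * XA A k x) -
        sc G g K x * (XA A k x * glf g k x) := by
      intro k
      rw [Lg_lapse h hx k, hF.hL x hx k, hWx k]
      ring
    rw [Finset.sum_congr rfl fun k _ => e k]
    simp only [Finset.sum_sub_distrib, Finset.sum_add_distrib, ← Finset.mul_sum, sum_nx_mul hx0,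
      hn, mul_zero, mul_one, sub_zero]
    rfl
  -- the Lie term
  have hLie : ∑ k, ∑ m, Pu g K k m x * Lie g (XA A) k m x =
      -(2 * trT G K x * ∑ j, XA A j x * glf g j x) := by
    have e : ∀ k m, Pu g K k m x * Lie g (XA A) k m x =
        2 * rad g x * (∑ j, XA A j x * glf g j x) * (Pu g K k m x * (nx k x * nx m x)) := by
      intro k m
      rw [Lie_XA h hro hA hx k m]
      ring
    simp only [e, ← Finset.mul_sum]
    rw [Pu_nn h hx]
    field_simp
  have hmom := mom_X (isOpen_out B.R) h.gs hK (fun y hy i j => h.g_symm (le_of_lt hy) i j)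
    (fun y hy => hKs y (le_of_lt hy)) (fun y hy => h.g_det_ne (le_of_lt hy)) (X := XA A)
    (x := x) hx (fun j => by
      unfold XA
      exact (DifferentiableAt.fun_sum fun l _ => ((EuclideanSpace.proj (𝕜 := ℝ) l :
        E n →L[ℝ] ℝ).differentiableAt.const_mul _)))
  rw [hdiv, hLg, hLie] at hmom
  simp only [(hpt x hx hxU).mom0, mul_zero, Finset.sum_const_zero] at hmom
  -- the derivatives of `Vf` and `κ`
  have hVf : ∑ j, XA A j x * pd j (Vf G g K) x = (∑ j, XA A j x * pd j (dN χ) x) -
      N * k' x * (∑ j, XA A j x * glf g j x) - N * ∑ j, XA A j x * pd j k' x := by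
    have e1 : ∀ j, pd j (Vf G g K) x = pd j (dN χ) x - (N * glf g j x * k' x +
        N * pd j k' x) := fun j =>
      ((HP.of_diff (k := j) ((contDiffAt_dN hx0 hχ).differentiableAt (by simp))).sub
        ((h.HP_sqrt hx.le j).mul (HP.of_diff (hk'.differentiableAt (by simp))))).pd
    have e2 : ∀ j, XA A j x * pd j (Vf G g K) x = XA A j x * pd j (dN χ) x -
        N * k' x * (XA A j x * glf g j x) - N * (XA A j x * pd j k' x) := by
      intro j; rw [e1 j]; ring
    rw [Finset.sum_congr rfl fun j _ => e2 j]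
    simp only [Finset.sum_sub_distrib, ← Finset.mul_sum]
  have hκe : ∑ j, XA A j x * pd j (kpf G g K) x = N * trT G K x *
      (∑ j, XA A j x * glf g j x) + N * ∑ j, XA A j x * pd j (trT G K) x := by
    have e2 : ∀ j, XA A j x * pd j (kpf G g K) x = N * trT G K x * (XA A j x * glf g j x) +
        N * (XA A j x * pd j (trT G K) x) := by
      intro j
      rw [(h.HP_kpf hK hx j).pd]
      ring
    rw [Finset.sum_congr rfl fun j _ => e2 j]
    simp only [Finset.sum_add_distrib, ← Finset.mul_sum]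
  have hκd : kpf G g K x = N * trT G K x := rfl
  have hscd : sc G g K x = k' x + trT G K x := rfl
  rw [hκe, hκd] at hκ
  rw [hκd] at hgl
  rw [hVf]
  rw [hscd] at hmom
  set L := ∑ j, XA A j x * glf g j x
  set T := ∑ j, XA A j x * pd j (trT G K) x
  set K1 := ∑ j, XA A j x * pd j k' x
  set D := ∑ j, XA A j x * pd j (dN χ) x
  set τ := trT G K x
  have h1 : N * (-(s0 * Q) * dN (lf g) x + s0 * D + s0 * Q * (((n : ℝ) - 1) / len x) - K1 - T +
      ((B.H (len x) - ((n : ℝ) - 1) / len x) * (s0 * Q) + s0 * Q * dN (lf g) x -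
        (k' x + τ) * L) - 1 / 2 * -(2 * τ * L)) = 0 := by
    rw [← hmom, mul_zero]
  have h2 : D + B.H (len x) * Q - N * K1 - N * T - N * k' x * L = 0 := by
    linear_combination h1 - (D + B.H (len x) * Q) * hsN
  have h3 : N * T = B.H (len x) * Q := by
    have h4 : B.H (len x) * (N * τ * L + N * T) = (B.H (len x) ^ 2 - (N * τ) ^ 2) * Q := by
      rw [hκ]; field_simp
    have h5 : B.H (len x) * (N * T) = B.H (len x) * (B.H (len x) * Q) := by
      linear_combination h4 - (N * τ) * hgl
    exact mul_left_cancel₀ hHp.ne' h5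
  linear_combination h2 + h3

/-- **The potential is constant on the centred spheres.** -/
theorem tg_VfU (h : Lapse G g B.R) (hF : B.Fits0 G) (hK : ∀ i j, Smooth (fun x => K x i j))
    (hKs : ∀ x, B.R ≤ len x → ∀ i j, K x i j = K x j i) (hro : B.RoundAt G)
    {U : Set ℝ} (hU : IsOpen U) (hpt : ∀ x, B.R < len x → len x ∈ U → PtEqZ B G g K x)
    (hlt : ∀ x, B.R < len x → |kpf G g K x| < B.H (len x)) {x : E n} (hx : B.R < len x)
    (hxU : len x ∈ U) (a : Fin n) : tg (Vf G g K) a x = 0 := by
  have hx0 := h.ne_zero hx.le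
  have hl := len_ne hx0
  have h1 := XA_VfU h hF hK hKs hro hU hpt hlt (A := fun j l => (if j = a then 1 else 0) * nx l x -
    nx j x * (if l = a then 1 else 0)) (fun i j => by ring) hx hxU
  have e1 : ∀ j, XA (fun j l => (if j = a then 1 else 0) * nx l x -
      nx j x * (if l = a then 1 else 0)) j x = len x * ((if j = a then 1 else 0) -
        nx j x * nx a x) := by
    intro j
    unfold XA
    have e : ∀ l, ((if j = a then 1 else 0) * nx l x - nx j x * (if l = a then 1 else 0)) * x l =
        len x * (if j = a then 1 else 0) * (nx l x * nx l x) -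
        len x * nx j x * (if l = a then nx l x else 0) := by
      intro l
      rw [← nx_mul_len hx0 l]
      split_ifs <;> ring
    simp only [e, Finset.sum_sub_distrib, ← Finset.mul_sum, sum_nx_mul hx0,
      Finset.sum_ite_eq', Finset.mem_univ, if_true]
    ring
  have e2 : ∀ j, XA (fun j l => (if j = a then 1 else 0) * nx l x -
      nx j x * (if l = a then 1 else 0)) j x * pd j (Vf G g K) x =
      len x * (if j = a then pd j (Vf G g K) x else 0) -
      len x * nx a x * (nx j x * pd j (Vf G g K) x) := by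
    intro j
    rw [e1 j]
    split_ifs <;> ring
  rw [Finset.sum_congr rfl fun j _ => e2 j] at h1
  simp only [Finset.sum_sub_distrib, ← Finset.mul_sum, Finset.sum_ite_eq', Finset.mem_univ,
    if_true] at h1
  have h2 : len x * tg (Vf G g K) a x = 0 := by
    unfold tg dN
    linear_combination h1
  exact (mul_eq_zero.1 h2).resolve_left hl

/-- `(H² - κ²) / p` equals its average on the centred spheres -/
theorem wq_eqU (hn : 2 ≤ n) (h : Lapse G g B.R) (hK : ∀ i j, Smooth (fun x => K x i j))
    {U : Set ℝ} (hpt : ∀ x, B.R < len x → len x ∈ U → PtEqZ B G g K x)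
    (hlt : ∀ x, B.R < len x → |kpf G g K x| < B.H (len x)) {x : E n} (hx : B.R < len x)
    (hxU : len x ∈ U) :
    wq B G g K x = Yav B G g K (len x) := by
  have hr0 : 0 < len x := B.hR.trans hx
  have hc : ∀ y, len y = len x → wq B G g K y = wq B G g K x := by
    intro y hy
    refine const_on_sphere hn (f := wq B G g K) hr0 (fun z hz => ?_)
      (fun z hz i => pd_wq h hK (by rw [hz]; exact hx) (hpt z (by rw [hz]; exact hx) (by rw [hz]; exact hxU))
        (hlt z (by rw [hz]; exact hx)) i) hy rfl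
    have hz' : B.R < len z := by rw [hz]; exact hx
    have h1 : DifferentiableAt ℝ (fun y : E n => B.H (len y)) z :=
      DifferentiableAt.comp (g := B.H) z (B.H_diff _ hz'.le)
        ((contDiffAt_len (m := 1) (h.ne_zero hz'.le)).differentiableAt (by norm_num))
    exact ((h.contDiffAt_v hz'.le).differentiableAt (by simp)).mul ((h1.pow 2).sub
      ((diff_kpf92 h hK hz'.le).pow 2))
  have h1 : av (wq B G g K) (len x) = wq B G g K x := av_eq (by omega) hr0.le hc
  rw [← h1]
  have c1 : ContinuousOn (fun y : E n => 1 / rad g y) {y : E n | B.R < ‖y‖} :=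
    h.contDiffOn_v.continuousOn
  have c2 : ContinuousOn (fun y : E n => trT G K y ^ 2) {y : E n | B.R < ‖y‖} := fun y hy =>
    ((h.contDiffAt_trT hK hy).pow 2).continuousAt.continuousWithinAt
  have h2 : sphI (wq B G g K) (len x) =
      sphI (fun y => B.H (len x) ^ 2 * (1 / rad g y) - trT G K y ^ 2) (len x) := by
    refine sphI_congr hr0.le fun y hy => ?_
    have hy' : len y = len x := hy
    have hp := h.ppos y (by rw [hy']; exact hx.le)
    unfold wq kpf
    rw [hy', mul_pow, Real.sq_sqrt hp.le]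
    field_simp
  unfold Yav Vav av
  rw [h2, Vale.Agent.P366.sphI_sub (u := fun y => B.H (len x) ^ 2 * (1 / rad g y))
    (v := fun y => trT G K y ^ 2) h.hR.le hx (continuousOn_const.mul c1) c2,
    Vale.Agent.P366.sphI_const_mul]
  ring


/-- **The linear equation for `√p tr_S K`.** -/
theorem tL_kpfU (hn : 3 ≤ n) (h : Lapse G g B.R) (hF : B.Fits0 G)
    (hK : ∀ i j, Smooth (fun x => K x i j))
    (hKs : ∀ x, B.R ≤ len x → ∀ i j, K x i j = K x j i) (hro : B.RoundAt G)
    {U : Set ℝ} (hU : IsOpen U) (hpt : ∀ x, B.R < len x → len x ∈ U → PtEqZ B G g K x)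
    (hlt : ∀ x, B.R < len x → |kpf G g K x| < B.H (len x)) {x : E n} (hx : B.R < len x)
    (hxU : len x ∈ U) :
    tL (kpf G g K) x = (B.rho (len x) / len x) ^ 2 * Yav' B G g K (len x) /
      (2 * B.H (len x)) * kpf G g K x +
      (B.rho (len x) / len x) ^ 2 * Yav B G g K (len x) * Vf G g K x := by
  have : Nonempty (Fin n) := ⟨⟨0, by omega⟩⟩
  have : Nontrivial (E n) := inferInstance
  have hn3 : (3 : ℝ) ≤ n := by exact_mod_cast hn
  have hn1 : (n : ℝ) - 1 ≠ 0 := by linarith
  have hx0 := h.ne_zero hx.le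
  have hl := len_ne hx0
  have hρ := B.rho_pos hx.le
  have hp := h.ppos x hx.le
  have hHp : ∀ y : E n, B.R < len y → 0 < B.H (len y) := fun y hy =>
    (abs_nonneg _).trans_lt (hlt y hy)
  have hwp : ∀ y, B.R < len y → 0 < B.H (len y) ^ 2 - kpf G g K y ^ 2 := by
    intro y hy
    have : kpf G g K y ^ 2 < B.H (len y) ^ 2 := by
      rw [← sq_abs (kpf G g K y)]
      exact pow_lt_pow_left₀ (hlt y hy) (abs_nonneg _) two_ne_zero
    linarith
  have hw : ∀ y, B.R < len y → len y ∈ U → wq B G g K y = Yav B G g K (len y) :=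
    fun y hy hyU => wq_eqU (by omega) h hK hpt hlt hy hyU
  have hY : ∀ y : E n, B.R < len y → len y ∈ U → 0 < Yav B G g K (len y) := by
    intro y hy hyU
    rw [← hw y hy hyU]
    exact mul_pos (by have := h.ppos y hy.le; positivity) (hwp y hy)
  obtain ⟨-, hYd⟩ := stX1d h (B := B) hK
  have hκs : ContDiffAt ℝ ∞ (kpf G g K) x := h.contDiffAt_kpf68 hK hx
  -- the radial coefficient
  obtain ⟨a', ha'⟩ : ∃ d, HasDerivAt (fun r => (r / B.rho r) ^ 2 * (B.H r / Yav B G g K r)) d
      (len x) :=
    ⟨_, (((hasDerivAt_id' _).fun_div (B.rho_hasDerivAt hx.le) hρ.ne').fun_pow 2).fun_mul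
      ((B.H_diff _ hx.le).hasDerivAt.fun_div (hYd _ hx) (hY x hx hxU).ne')⟩
  -- the tangential part of the row
  have hrow : ∀ y, B.R < len y → len y ∈ U → ∀ k, ∑ l, Sm G k l y * row K l y =
      (len y / B.rho (len y)) ^ 2 * (B.H (len y) / Yav B G g K (len y)) * √(1 / rad g y) *
        tg (kpf G g K) k y := by
    intro y hy hyU k
    have hpy := h.ppos y hy.le
    have hsy : 0 < √(1 / rad g y) := Real.sqrt_pos.2 (by positivity)
    have hss : √(1 / rad g y) * √(1 / rad g y) = 1 / rad g y :=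
      Real.mul_self_sqrt (by positivity)
    have h1 : ∀ l, Sm G k l y * bf g K l y =
        (∑ k, nx k y * bf g K k y) * (Sm G k l y * nx l y) +
        B.H (len y) / (B.H (len y) ^ 2 - kpf G g K y ^ 2) *
          (Sm G k l y * tg (kpf G g K) l y) := by
      intro l
      rw [(hpt y hy hyU).bf0 l]
      ring
    have h2 : ∑ l, Sm G k l y * bf g K l y = B.H (len y) /
        (B.H (len y) ^ 2 - kpf G g K y ^ 2) * ((len y / B.rho (len y)) ^ 2 *
          tg (kpf G g K) k y) := by
      rw [Finset.sum_congr rfl fun l _ => h1 l, Finset.sum_add_distrib, ← Finset.mul_sum,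
        ← Finset.mul_sum, h.Sm_nx hy.le, mul_zero, zero_add,
        Sm_tang h hro hy (sum_nx_tg (h.ne_zero hy.le))]
    have h3 : √(1 / rad g y) * ∑ l, Sm G k l y * row K l y = ∑ l, Sm G k l y * bf g K l y := by
      rw [Finset.mul_sum]
      refine Finset.sum_congr rfl fun l _ => ?_
      unfold bf; ring
    have h4 : Yav B G g K (len y) = 1 / rad g y * (B.H (len y) ^ 2 - kpf G g K y ^ 2) :=
      (hw y hy hyU).symm
    refine mul_left_cancel₀ hsy.ne' ?_
    rw [h3, h2, h4]
    have h5 := (hwp y hy).ne'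
    have h6 : √(1 / rad g y) * ((len y / B.rho (len y)) ^ 2 *
        (B.H (len y) / (1 / rad g y * (B.H (len y) ^ 2 - kpf G g K y ^ 2))) *
          √(1 / rad g y) * tg (kpf G g K) k y) = (√(1 / rad g y) * √(1 / rad g y)) *
        ((len y / B.rho (len y)) ^ 2 *
        (B.H (len y) / (1 / rad g y * (B.H (len y) ^ 2 - kpf G g K y ^ 2))) *
          tg (kpf G g K) k y) := by ring
    rw [h6, hss]
    field_simp
  set a := (len x / B.rho (len x)) ^ 2 * (B.H (len x) / Yav B G g K (len x)) with ha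
  set s0 := √(1 / rad g x) with hs0
  set N := √(rad g x) with hN
  have hsN : s0 * N = 1 := sqrt_inv_mul hp
  -- the divergence of the row
  have hDS : DS G (row K) x = a * s0 * tL (kpf G g K) x -
      a * s0 * ∑ k, glf g k x * tg (kpf G g K) k x := by
    have e1 : ∀ k, pd k (fun y => ∑ l, Sm G k l y * row K l y) x =
        (a' / len x * x k * s0 + a * (-(s0 * glf g k x))) * tg (kpf G g K) k x +
          a * s0 * pd k (tg (kpf G g K) k) x := by
      intro k
      have hev : (fun y => ∑ l, Sm G k l y * row K l y) =ᶠ[𝓝 x] fun y =>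
          (len y / B.rho (len y)) ^ 2 * (B.H (len y) / Yav B G g K (len y)) * √(1 / rad g y) *
            tg (kpf G g K) k y := by
        filter_upwards [(isOpen_out B.R).mem_nhds hx, nhds_U hU hxU] with y hy hyU
        exact hrow y hy hyU k
      exact ((((HP.radial hx0 ha' k).mul (h.HP_sqrt_inv hx.le k)).mul
        (HP.of_diff ((contDiffAt_tg hx0 hκs k).differentiableAt (by simp)))).congr hev).pd
    have e2 : ∀ k, pd k (fun y => ∑ l, Sm G k l y * row K l y) x =
        a' * s0 * (nx k x * tg (kpf G g K) k x) - a * s0 * (glf g k x * tg (kpf G g K) k x) +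
          a * s0 * pd k (tg (kpf G g K) k) x := by
      intro k
      rw [e1 k, ← nx_mul_len hx0 k]
      field_simp
      ring
    unfold DS tL
    rw [Finset.sum_congr rfl fun k _ => e2 k]
    simp only [Finset.sum_add_distrib, Finset.sum_sub_distrib, ← Finset.mul_sum,
      sum_nx_tg hx0, mul_zero]
    ring
  have hS2 : S2 G (glf g) (row K) x = a * s0 * ∑ k, glf g k x * tg (kpf G g K) k x := by
    unfold S2
    rw [Finset.mul_sum]
    refine Finset.sum_congr rfl fun k _ => ?_
    have e : ∀ l, Sm G k l x * glf g k x * row K l x = glf g k x * (Sm G k l x * row K l x) := by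
      intro l; ring
    rw [Finset.sum_congr rfl fun l _ => e l, ← Finset.mul_sum, hrow x hx hxU k]
    ring
  -- the momentum constraint
  obtain ⟨-, -, b3, -⟩ := stB n G g K B.R h hK hKs x hx
  have hctr : ctr G K (IIf G) x = trT G K x / B.H (len x) * (B.H (len x) ^ 2 / ((n : ℝ) - 1)) := by
    have e1 : ctr G K (IIf G) x =
        ctr G (fun _ i j => nx i x * (row K j x - rad K x * nx j x) + row K i x * nx j x)
          (IIf G) x + trT G K x / B.H (len x) * ctr G (IIf G) (IIf G) x := by
      unfold ctr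
      simp only [Finset.mul_sum, ← Finset.sum_add_distrib]
      refine Finset.sum_congr rfl fun i _ => Finset.sum_congr rfl fun j _ =>
        Finset.sum_congr rfl fun k _ => Finset.sum_congr rfl fun l _ => ?_
      rw [(hpt x hx hxU).K0 i j]; ring
    rw [e1, ctr_cross h hx.le, zero_add, ctr_II_round h hF hro hx]
  rw [h.S2_radial hx.le (hF.hL x hx), hDS, hS2, H1_eq0 hF hx, hctr] at b3
  simp only [(hpt x hx hxU).mom0, mul_zero, Finset.sum_const_zero] at b3
  -- the derivative of `Y`
  have hκe : ∀ i, pd i (kpf G g K) x = N * glf g i x * trT G K x + N * pd i (trT G K) x :=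
    fun i => (h.HP_kpf hK hx i).pd
  have hdκ : dN (kpf G g K) x = kpf G g K x * dN (lf g) x + N * dN (trT G K) x := by
    unfold dN
    have e : ∀ i, nx i x * pd i (kpf G g K) x = kpf G g K x * (nx i x * pd i (lf g) x) +
        N * (nx i x * pd i (trT G K) x) := by
      intro i
      rw [hκe i]
      unfold kpf glf
      ring
    rw [Finset.sum_congr rfl fun i _ => e i]
    simp only [Finset.sum_add_distrib, ← Finset.mul_sum]
  have hYr : ∀ i, pd i (wq B G g K) x = Yav' B G g K (len x) * nx i x := by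
    intro i
    have hev : wq B G g K =ᶠ[𝓝 x] fun y => Yav B G g K (len y) := by
      filter_upwards [(isOpen_out B.R).mem_nhds hx, nhds_U hU hxU] with y hy hyU
      exact hw y hy hyU
    rw [((HP.radial hx0 (hYd _ hx) i).congr hev).pd]
    unfold nx
    ring
  have hY' : Yav' B G g K (len x) = -(2 * (1 / rad g x) * dN (lf g) x) *
      (B.H (len x) ^ 2 - kpf G g K x ^ 2) + 1 / rad g x * (2 * B.H (len x) * deriv B.H (len x) -
        2 * kpf G g K x * dN (kpf G g K) x) := by
    have h1 : ∀ i, Yav' B G g K (len x) * nx i x = (-(2 * (1 / rad g x) * dN (lf g) x) *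
      (B.H (len x) ^ 2 - kpf G g K x ^ 2) + 1 / rad g x * (2 * B.H (len x) * deriv B.H (len x) -
        2 * kpf G g K x * dN (kpf G g K) x)) * nx i x := by
      intro i
      rw [← hYr i, pd_wq h hK hx (hpt x hx hxU) (hlt x hx) i]
    have h2 : ∑ i, Yav' B G g K (len x) * nx i x * nx i x = ∑ i,
      (-(2 * (1 / rad g x) * dN (lf g) x) *
      (B.H (len x) ^ 2 - kpf G g K x ^ 2) + 1 / rad g x * (2 * B.H (len x) * deriv B.H (len x) -
        2 * kpf G g K x * dN (kpf G g K) x)) * nx i x * nx i x :=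
      Finset.sum_congr rfl fun i _ => by rw [h1 i]
    simp only [mul_assoc _ (nx _ x) (nx _ x), ← Finset.mul_sum, sum_nx_mul hx0, mul_one] at h2
    exact h2
  -- the radial derivative of the rapidity
  have hχ : dN (sphereRapidity g K) x = B.H (len x) / (B.H (len x) ^ 2 - kpf G g K x ^ 2) *
      dN (kpf G g K) x - kpf G g K x * deriv B.H (len x) /
        (B.H (len x) ^ 2 - kpf G g K x ^ 2) := by
    unfold dN
    have e : ∀ i, nx i x * pd i (sphereRapidity g K) x =
        B.H (len x) / (B.H (len x) ^ 2 - kpf G g K x ^ 2) * (nx i x * pd i (kpf G g K) x) -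
        kpf G g K x * deriv B.H (len x) /
        (B.H (len x) ^ 2 - kpf G g K x ^ 2) * (nx i x * nx i x) := by
      intro i
      rw [pd_rapidity h hF hK hx (hlt x hx)]
      ring
    rw [Finset.sum_congr rfl fun i _ => e i]
    simp only [Finset.sum_sub_distrib, ← Finset.mul_sum, sum_nx_mul hx0, mul_one]
  have hYx := hw x hx hxU
  unfold wq at hYx
  unfold Vf
  rw [hχ]
  have hHx := hHp x hx
  have hwx := hwp x hx
  have hYp := hY x hx hxU
  have hφ : (B.rho (len x) / len x) ^ 2 * (len x / B.rho (len x)) ^ 2 = 1 := by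
    field_simp
  set H := B.H (len x)
  set H' := deriv B.H (len x)
  set κ := kpf G g K x
  set Y := Yav B G g K (len x)
  set Y' := Yav' B G g K (len x)
  set p := rad g x
  set τ := trT G K x
  set kk := rad K x / p
  set Lr := dN (lf g) x
  set Dκ := dN (kpf G g K) x
  set Dτ := dN (trT G K) x
  set T := tL (kpf G g K) x
  set φ := (B.rho (len x) / len x) ^ 2
  set ψ := (len x / B.rho (len x)) ^ 2
  -- algebra
  have hNp : N * N = p := Real.mul_self_sqrt hp.le
  have hw2 : H ^ 2 - κ ^ 2 = p * Y := by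
    rw [← hYx]; field_simp
  have e1 : N * (a * s0 * T - a * s0 * (∑ k, glf g k x * tg (kpf G g K) k x) + 0 +
      a * s0 * (∑ k, glf g k x * tg (kpf G g K) k x) - Dτ + kk * H -
      τ / H * (H ^ 2 / ((n : ℝ) - 1))) = 0 := by
    rw [← b3, mul_zero]
  have e2 : a * T = N * Dτ - H * (N * (kk - τ / ((n : ℝ) - 1))) := by
    have e3 : τ / H * (H ^ 2 / ((n : ℝ) - 1)) = τ * H / ((n : ℝ) - 1) := by
      field_simp
    rw [e3] at e1
    linear_combination e1 - (a * T) * hsN
  have e3 : N * Dτ = H * (H / (H ^ 2 - κ ^ 2) * Dκ - κ * H' / (H ^ 2 - κ ^ 2)) +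
      κ * Y' / (2 * Y) := by
    have e4 : N * Dτ = Dκ - κ * Lr := by linarith
    have e5 : p * Y' = -(2 * Lr) * (H ^ 2 - κ ^ 2) + (2 * H * H' - 2 * κ * Dκ) := by
      rw [hY']; field_simp
    rw [e4, hw2]
    rw [hw2] at e5
    have hpp : p ≠ 0 := hp.ne'
    have e6 : (Dκ - κ * Lr) * (2 * (p * Y)) = (H * (H / (p * Y) * Dκ - κ * H' / (p * Y)) +
        κ * Y' / (2 * Y)) * (2 * (p * Y)) := by
      have e7 : (H * (H / (p * Y) * Dκ - κ * H' / (p * Y)) +
        κ * Y' / (2 * Y)) * (2 * (p * Y)) = 2 * H ^ 2 * Dκ - 2 * H * κ * H' + κ * (p * Y') := by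
        field_simp
      rw [e7, e5]
      linear_combination (-2 * Dκ) * hw2
    exact mul_right_cancel₀ (by positivity) e6
  have e4 : a * T = H * ((H / (H ^ 2 - κ ^ 2) * Dκ - κ * H' / (H ^ 2 - κ ^ 2)) -
      N * (kk - τ / ((n : ℝ) - 1))) + κ * Y' / (2 * Y) := by
    rw [e2, e3]; ring
  set V := H / (H ^ 2 - κ ^ 2) * Dκ - κ * H' / (H ^ 2 - κ ^ 2) - N * (kk - τ / ((n : ℝ) - 1))
  have e5 : T = φ * (Y / H) * (a * T) := by
    have e6 : φ * (Y / H) * (a * T) = (φ * ψ) * T := by
      rw [ha]; field_simp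
    rw [e6, hφ, one_mul]
  rw [e5, e4]
  field_simp
  ring

/-- in the equality case the tangential gradient of `√p tr_S K` vanishes -/
theorem tg_kpf_zeroU (hn : 3 ≤ n) (h : Lapse G g B.R) (hF : B.Fits0 G)
    (hK : ∀ i j, Smooth (fun x => K x i j))
    (hKs : ∀ x, B.R ≤ len x → ∀ i j, K x i j = K x j i) (hro : B.RoundAt G)
    (hlam : ∀ r, B.R < r → B.lam r = ((n : ℝ) - 1) / (2 * B.rho r))
    {U : Set ℝ} (hU : IsOpen U) (hpt : ∀ x, B.R < len x → len x ∈ U → PtEqZ B G g K x)
    (hlt : ∀ x, B.R < len x → |kpf G g K x| < B.H (len x))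
    (hkey : ∀ r, B.R < r → Yav' B G g K r = B.H r * B.Rh r - B.H r * Yav B G g K r -
      Yav B G g K r / B.H r * B.II2 r ∧ B.lam r ^ 2 = ((n : ℝ) - 1) * B.L2 r ∧
        B.Rh r / 4 + B.L2 r = B.lam r ^ 2)
    (hYlt : ∀ r, B.R < r → Yav B G g K r < 4 * B.lam r ^ 2) {x : E n} (hx : B.R < len x)
    (hxU : len x ∈ U) (k : Fin n) : tg (kpf G g K) k x = 0 := by
  have hn3 : (3 : ℝ) ≤ n := by exact_mod_cast hn
  have hn1 : (0 : ℝ) < (n : ℝ) - 1 := by linarith
  have hr0 : 0 < len x := B.hR.trans hx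
  have hρ := B.rho_pos hx.le
  have hH : 0 < B.H (len x) := (abs_nonneg _).trans_lt (hlt x hx)
  have hV : ∀ y : E n, len y = len x → Vf G g K y = Vf G g K x := by
    intro y hy
    refine const_on_sphere (by omega) (f := Vf G g K) (c := dN (Vf G g K)) hr0 (fun z hz => ?_)
      (fun z hz i => ?_) hy rfl
    · have hz' : B.R < len z := by rw [hz]; exact hx
      have hz0 := h.ne_zero hz'.le
      have hp := h.ppos z hz'.le
      have hχ : ContDiffAt ℝ ∞ (sphereRapidity g K) z :=
        contDiffAt_rapidity h hF hK hz'.le (hlt z hz')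
      have h1 : ContDiffAt ℝ ∞ (Vf G g K) z := (contDiffAt_dN hz0 hχ).sub
        (((contDiffAt_rad h.gs hz0).sqrt hp.ne').mul
          (((contDiffAt_rad hK hz0).div (contDiffAt_rad h.gs hz0) hp.ne').sub
            ((h.contDiffAt_trT hK hz').div_const _)))
      exact h1.differentiableAt (by simp)
    · have h1 := tg_VfU h hF hK hKs hro hU hpt hlt (x := z) (by rw [hz]; exact hx)
        (by rw [hz]; exact hxU) i
      unfold tg at h1
      linarith
  refine lich hn B.hR.le hx (f := kpf G g K) (fun y hy => h.contDiffAt_kpf68 hK hy)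
    (lam := -((B.rho (len x) / len x) ^ 2 * Yav' B G g K (len x) / (2 * B.H (len x))))
    (c := (B.rho (len x) / len x) ^ 2 * Yav B G g K (len x) * Vf G g K x) ?_ (fun y hy => ?_)
    x rfl k
  · obtain ⟨h1, h2, h3⟩ := hkey (len x) hx
    have h4 := hYlt (len x) hx
    have h5 : B.II2 (len x) = B.H (len x) ^ 2 / ((n : ℝ) - 1) := by
      rw [← (hpt x hx hxU).II0, ctr_II_round h hF hro hx]
    have h6 := hlam (len x) hx
    set ρ := B.rho (len x)
    set r := len x
    set Y := Yav B G g K r
    set H := B.H r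
    set L := B.lam r
    have h7 : B.Rh r = 4 * L ^ 2 * (((n : ℝ) - 2) / ((n : ℝ) - 1)) := by
      have h8 : B.L2 r = L ^ 2 / ((n : ℝ) - 1) := by
        rw [h2]; field_simp
      have h9 : B.Rh r = 4 * (L ^ 2 - B.L2 r) := by linarith
      rw [h9, h8]
      field_simp
      ring
    have h10 : Yav' B G g K r = H * (4 * L ^ 2 * (((n : ℝ) - 2) / ((n : ℝ) - 1)) -
        n / ((n : ℝ) - 1) * Y) := by
      rw [h1, h7, h5]
      field_simp
      ring
    have h11 : -((ρ / r) ^ 2 * Yav' B G g K r / (2 * H)) =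
        (ρ / r) ^ 2 / 2 * (n / ((n : ℝ) - 1) * Y -
          4 * L ^ 2 * (((n : ℝ) - 2) / ((n : ℝ) - 1))) := by
      rw [h10]
      field_simp
      ring
    have h12 : n / ((n : ℝ) - 1) * Y < n / ((n : ℝ) - 1) * (4 * L ^ 2) :=
      mul_lt_mul_of_pos_left h4 (by positivity)
    have h13 : (ρ / r) ^ 2 / 2 * (n / ((n : ℝ) - 1) * (4 * L ^ 2) -
          4 * L ^ 2 * (((n : ℝ) - 2) / ((n : ℝ) - 1))) = ((n : ℝ) - 1) / r ^ 2 := by
      rw [h6]
      field_simp
      ring
    rw [h11, ← h13]
    exact mul_lt_mul_of_pos_left (by linarith) (by positivity)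
  · rw [tL_kpfU hn h hF hK hKs hro hU hpt hlt (x := y) (by rw [hy]; exact hx)
      (by rw [hy]; exact hxU), hy, hV y hy]
    ring


end

end Vale.Agent.H177
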