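import Vale.Agent.P366.H177.Loc
import Vale.Agent.P366.H177.DefB

/-! Time flat or torsion bounded centred spheres: the equality case. -/

open MeasureTheory Metric Filter Topology Set
open scoped ContDiff ENNReal Matrix

noncomputable section
namespace Vale.Agent.H177
open Vale.Agent.P366.Stmt Vale.Agent.P366.T2 Vale.Agent.T4
open Vale.Agent.P366 (sphI sphM av norm_smul_sph integrable_sph sphI_congr sphI_continuousOn
  cont_smul_sph1)

variable {n : ℕ}

section

variable {G g K : Field n} {B : Bg n}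

/-- the bound of the torsion term -/
theorem tors_le_slkZ [Nontrivial (E n)] (h : Lapse G g B.R) (hF : B.FitsW G)
    (hK : ∀ i j, Smooth (fun x => K x i j))
    (hKs : ∀ x, B.R ≤ len x → ∀ i j, K x i j = K x j i) {r : ℝ} (hr : B.R < r)
    (hHp : 0 < B.H r) {θ : ℝ}
    (hT : sph (vol n) r (sphereTorsion g K) ≤
      θ * sph (vol n) r (fun x => sphereSlack g K x + sphereAccel g K x)) :
    2 * sphI (tors G g K) r ≤ θ * sphI (slkZ B G g K) r := by
  have h0 : 0 < r := B.hR.trans hr
  have h1 : sphI (sphereTorsion g K) r = (B.H r)⁻¹ * sphI (tors G g K) r := by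
    rw [sphI_congr (v := fun x => (B.H r)⁻¹ * tors G g K x) h0.le fun x hx => ?_]
    · unfold sphI
      exact integral_const_mul _ _
    · have hl : len x = r := hx
      rw [sphereTorsion_eq92 h hF.toFits0 hK hKs (by rw [hl]; exact hr.le)
        (by rw [hl]; exact hHp.ne'), hl]
      ring
  have h2 : sphI (fun x => sphereSlack g K x + sphereAccel g K x) r =
      (2 * B.H r)⁻¹ * sphI (slkZ B G g K) r := by
    rw [sphI_congr (v := fun x => (2 * B.H r)⁻¹ * slkZ B G g K x) h0.le fun x hx => ?_]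
    · unfold sphI
      exact integral_const_mul _ _
    · have hl : len x = r := hx
      rw [slack_accel_eq h hF.toFits0 hKs (by rw [hl]; exact hr.le) (by rw [hl]; exact hHp), hl]
  rw [sph_eq_sphI, sph_eq_sphI, h1, h2] at hT
  have h5 := mul_le_mul_of_nonneg_left hT (by positivity : (0 : ℝ) ≤ 2 * B.H r)
  have e1 : 2 * B.H r * ((B.H r)⁻¹ * sphI (tors G g K) r) = 2 * sphI (tors G g K) r := by
    field_simp
  have e2 : 2 * B.H r * (θ * ((2 * B.H r)⁻¹ * sphI (slkZ B G g K) r)) =
      θ * sphI (slkZ B G g K) r := by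
    field_simp
  rw [e1, e2] at h5
  exact h5

lemma sphI_slkZ_nonneg (hA : StA n) (hB : StB n) (h : Lapse G g B.R)
    (hF : B.FitsW G) (hK : ∀ i j, Smooth (fun x => K x i j))
    (hKs : ∀ x, B.R ≤ len x → ∀ i j, K x i j = K x j i) {r : ℝ} (hr : B.R < r)
    (hdec : ∀ x, B.R < len x → covNorm g (mom g K) x ≤ mu g K x)
    (hlt : ∀ x, len x = r → |kpf G g K x| < B.H r) : 0 ≤ sphI (slkZ B G g K) r := by
  have h0 : 0 < r := B.hR.trans hr
  refine integral_nonneg fun θ => ?_
  have hx : len (r • (θ : E n)) = r := norm_smul_sph h0.le θ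
  exact (slkZ_le hA hB h hF.toFits0 hK hKs (by rw [hx]; exact hr) (hdec _ (by rw [hx]; exact hr))
    (by rw [hx]; exact hlt _ hx)).2.1

/-- the condition of the averaged inequality -/
theorem dichM (hn : 1 ≤ n) (h : Lapse G g B.R) (hF : B.FitsW G)
    (hK : ∀ i j, Smooth (fun x => K x i j)) (hKs : ∀ x, B.R ≤ len x → ∀ i j, K x i j = K x j i)
    (hdec : ∀ x, B.R < len x → covNorm g (mom g K) x ≤ mu g K x) {θ : ℝ → ℝ}
    (hθ : ∀ r, B.R < r → θ r ≤ 1) (hT : TwistBound g K θ B.R) : DichZ B G g K := by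
  have : Nonempty (Fin n) := ⟨⟨0, by omega⟩⟩
  have : Nontrivial (E n) := inferInstance
  intro r hr
  have hl : ∀ x : E n, len x = r → B.R ≤ len x := fun x hx => by rw [hx]; exact hr
  rcases hT r hr with h1 | ⟨h1, h2⟩
  · refine Or.inl fun x hx => ?_
    have := (le_iff92 (K := K) h hF.toFits0 (hl x hx)).1 (h1 x hx)
    rwa [hx] at this
  · have h3 : ∀ x, len x = r → |kpf G g K x| < B.H r := by
      intro x hx
      have := (lt_iff92 (K := K) h hF.toFits0 (hl x hx)).1 (h1 x hx)
      rwa [hx] at this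
    have h0 : 0 < r := B.hR.trans_le hr
    have hH : 0 < B.H r :=
      (abs_nonneg _).trans_lt (h3 (ry ⟨0, by omega⟩ r) (len_ry _ h0))
    refine Or.inr ⟨h3, fun hr' => ?_⟩
    rcases h2 with h2 | h2
    · exact torZ_of_timeFlat h hF hK hKs hr' hdec h3 h2
    · have h4 := tors_le_slkZ h hF hK hKs hr' hH h2
      have h5 := sphI_slkZ_nonneg (stA n) (stB n) h hF hK hKs hr' hdec h3
      have h6 := sphI_slkZ_le (stA n) (stB n) h hF hK hKs hr' hdec hH h3
      have h7 := mul_le_mul_of_nonneg_right (hθ r hr') h5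
      unfold TorZ
      linarith

/-- equality in the averaged inequality, bounded torsion -/
theorem avg_eqM [Nontrivial (E n)] (h : Lapse G g B.R) (hF : B.FitsW G)
    (hK : ∀ i j, Smooth (fun x => K x i j))
    (hKs : ∀ x, B.R ≤ len x → ∀ i j, K x i j = K x j i) {r : ℝ} (hr : B.R < r)
    (hdec : ∀ x, B.R < len x → covNorm g (mom g K) x ≤ mu g K x)
    (hlt : ∀ x, len x = r → |kpf G g K x| < B.H r) {θ : ℝ} (hθ : θ < 1)
    (hT : sph (vol n) r (sphereTorsion g K) ≤
      θ * sph (vol n) r (fun x => sphereSlack g K x + sphereAccel g K x))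
    (heq : B.H r * B.Rh r - B.H r * Yav B G g K r - Yav B G g K r / B.H r * B.II2 r ≤
      Yav' B G g K r) : ∀ x : E n, len x = r → PtEqX B G g K x := by
  intro x₀ hx₀
  have h0 : 0 < r := B.hR.trans hr
  have hω : 0 < Vale.Agent.P366.omega n := Vale.Agent.P366.omega_pos'
  have hHp : 0 < B.H r := (abs_nonneg _).trans_lt (hlt x₀ hx₀)
  have hθF := tors_le_slkZ h hF hK hKs hr hHp hT
  have hs0 := sphI_slkZ_nonneg (stA n) (stB n) h hF hK hKs hr hdec hlt
  have hs1 := sphI_slkZ_le (stA n) (stB n) h hF hK hKs hr hdec hHp hlt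
  obtain ⟨hFc, hI⟩ := sphI_Fx (B := B) h hK hr
  have e6 : sphI (tors G g K) r = Vale.Agent.P366.omega n * av (tors G g K) r := by
    unfold av
    field_simp
  have h3 : B.H r * B.II2 r - B.II2 r / B.H r * B.H r ^ 2 = 0 := by field_simp; ring
  have h4 : Yav B G g K r / B.H r * B.II2 r = B.II2 r / B.H r * Yav B G g K r := by ring
  rw [h3, zero_mul, add_zero] at hI
  have h2 : B.H r * av (leafScal G) r ≤ B.H r * B.Rh r :=
    mul_le_mul_of_nonneg_left (hF.hRh r hr) hHp.le
  have hI' : sphI (Fx B G g K r) r - 2 * sphI (tors G g K) r = Vale.Agent.P366.omega n *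
      (B.H r * av (leafScal G) r - (Yav' B G g K r +
        B.H r * Yav B G g K r + B.II2 r / B.H r * (Yav B G g K r))) := by
    rw [hI, e6]; ring
  rw [h4] at heq
  have hle : sphI (Fx B G g K r) r - 2 * sphI (tors G g K) r ≤ 0 := by
    rw [hI']
    exact mul_nonpos_of_nonneg_of_nonpos hω.le (by linarith)
  have hI0 : sphI (Fx B G g K r) r ≤ 0 := by
    by_contra hcon
    push Not at hcon
    rcases le_or_gt θ 0 with h5 | h5
    · have := mul_nonpos_of_nonpos_of_nonneg h5 hs0
      linarith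
    · have h6 := mul_le_mul_of_nonneg_left hs1 h5.le
      have h7 := mul_lt_mul_of_pos_right hθ hcon
      linarith
  have hnn : ∀ x : E n, ‖x‖ = r → 0 ≤ Fx B G g K r x := by
    intro x hx
    have hx1 : len x = r := hx
    have hxR : B.R < len x := by rw [hx1]; exact hr
    have hl : |kpf G g K x| < B.H (len x) := by rw [hx1]; exact hlt _ hx1
    obtain ⟨-, h1, h1'⟩ := slkZ_le (stA n) (stB n) h hF.toFits0 hK hKs hxR (hdec _ hxR) hl
    rw [Fx_eq hHp hx1]
    have h2 := hF.hII x hxR
    have h3 := w_pos h hxR.le hl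
    have h4 : 0 < B.H (len x) := by rw [hx1]; exact hHp
    have h5 : 0 ≤ (1 / rad g x * B.H (len x) ^ 2 - trT G K x ^ 2) / B.H (len x) *
        (ctr G (IIf G) (IIf G) x - B.II2 (len x)) :=
      mul_nonneg (div_nonneg h3.le h4.le) (by linarith)
    linarith
  have hxr : ‖x₀‖ = r := hx₀
  have hz := eq_zero_of_sphI h.hR.le hr hFc hnn hI0 hxr
  rw [Fx_eq hHp hx₀] at hz
  have hxR : B.R < len x₀ := by rw [hx₀]; exact hr
  exact pointwise_eqX (stA n) (stB n) h hF.toFits0 hK hKs hxR (hdec x₀ hxR)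
    (by rw [hx₀]; exact hlt x₀ hx₀) (hF.hII x₀ hxR) hz.le

lemma freq_eq {f g : E n → ℝ} {x : E n} (hf : ContinuousAt f x) (hg : ContinuousAt g x)
    (h : ∃ᶠ y in 𝓝 x, f y = g y) : f x = g x := by
  by_contra hne
  have h1 : ∀ᶠ y in 𝓝 x, f y - g y ≠ 0 :=
    (hf.sub hg).eventually_ne (sub_ne_zero.2 hne)
  exact h (h1.mono fun y hy h2 => hy (sub_eq_zero.2 h2))

/-- the equality case of the pointwise inequality is a closed condition -/
theorem ptEqX_closed (h : Lapse G g B.R) (hK : ∀ i j, Smooth (fun x => K x i j))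
    {x : E n} (hx : B.R < len x) (hH : B.H (len x) ≠ 0) (hmu : mu g K x = 0)
    (hmom : ∀ j, mom g K j x = 0) (hII : ctr G (IIf G) (IIf G) x = B.II2 (len x))
    (hf : ∃ᶠ y in 𝓝 x, PtEqX B G g K y) : PtEqX B G g K x := by
  have hx0 := h.ne_zero hx.le
  have cnx : ∀ i : Fin n, ContinuousAt (nx i) x := fun i =>
    (contDiffAt_nx (m := 0) i hx0).continuousAt
  have crad : ContinuousAt (rad K) x := (contDiffAt_rad hK hx0).continuousAt
  have cH : ContinuousAt (fun y : E n => B.H (len y)) x :=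
    ContinuousAt.comp (f := fun y : E n => len y) (B.H_diff _ hx.le).continuousAt
      (continuous_norm.continuousAt)
  have cII : ∀ i j, ContinuousAt (fun y => IIf G y i j) x := by
    intro i j
    exact (((contDiffAt_dN hx0 (h.Gs i j).contDiffAt).div_const 2).add
      (((h.Gs i j).contDiffAt.sub ((contDiffAt_nx i hx0).mul (contDiffAt_nx j hx0))).div
        (contDiffAt_len hx0) (len_ne hx0))).continuousAt
  refine ⟨hmu, hmom, fun i => ?_, fun i => ?_, fun i j => ?_, hII⟩
  · exact freq_eq (f := glf g i) (g := fun y => dN (lf g) y * nx i y)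
      (h.contDiffAt_glf hx.le i).continuousAt
      ((contDiffAt_dN hx0 (contDiffAt_lf h.gs hx0 (h.ppos x hx.le))).continuousAt.mul (cnx i))
      (hf.mono fun y hy => hy.glf0 i)
  · exact freq_eq (f := row K i) (g := fun y => rad K y * nx i y)
      (contDiffAt_row hK i hx0).continuousAt (crad.mul (cnx i)) (hf.mono fun y hy => hy.row0 i)
  · exact freq_eq (f := fun y => K y i j) (g := fun y => rad K y * nx i y * nx j y +
      trT G K y / B.H (len y) * IIf G y i j) (hK i j).contDiffAt.continuousAt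
      (((crad.mul (cnx i)).mul (cnx j)).add (((h.contDiffAt_trT hK hx).continuousAt.div cH
        hH).mul (cII i j))) (hf.mono fun y hy => hy.K0 i j)

/-- **The equality case spreads from the torsion bounded to the time flat spheres.** -/
theorem ptEqX_all (hn : 3 ≤ n) (h : Lapse G g B.R) (hF : B.Fits0 G)
    (hK : ∀ i j, Smooth (fun x => K x i j))
    (hKs : ∀ x, B.R ≤ len x → ∀ i j, K x i j = K x j i) (hro : B.RoundAt G)
    (hlam : ∀ r, B.R < r → B.lam r = ((n : ℝ) - 1) / (2 * B.rho r))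
    (hpt : ∀ r, B.R < r → (∀ x, len x = r → PtEqZ B G g K x) ∨
      (∀ x, len x = r → PtEqX B G g K x))
    (hlt : ∀ x, B.R < len x → |kpf G g K x| < B.H (len x))
    (hkey : ∀ r, B.R < r → Yav' B G g K r = B.H r * B.Rh r - B.H r * Yav B G g K r -
      Yav B G g K r / B.H r * B.II2 r ∧ B.lam r ^ 2 = ((n : ℝ) - 1) * B.L2 r ∧
        B.Rh r / 4 + B.L2 r = B.lam r ^ 2)
    (hYlt : ∀ r, B.R < r → Yav B G g K r < 4 * B.lam r ^ 2) :
    ∀ x, B.R < len x → PtEqX B G g K x := by
  have hR := B.hR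
  set U : Set ℝ := {r | B.R < r ∧ ¬ ∀ x : E n, len x = r → PtEqX B G g K x} with hU
  have hopen : IsOpen U := by
    rw [isOpen_iff_mem_nhds]
    rintro r ⟨hr, hne⟩
    push Not at hne
    obtain ⟨x, hx, hnx⟩ := hne
    have hxR : B.R < len x := by rw [hx]; exact hr
    have hr0 : 0 < r := hR.trans hr
    have hbase : mu g K x = 0 ∧ (∀ j, mom g K j x = 0) ∧
        ctr G (IIf G) (IIf G) x = B.II2 (len x) := by
      rcases hpt r hr with h1 | h1
      · exact ⟨(h1 x hx).mu0, (h1 x hx).mom0, (h1 x hx).II0⟩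
      · exact absurd (h1 x hx) hnx
    have hev : ∀ᶠ y in 𝓝 x, ¬ PtEqX B G g K y := by
      by_contra hcon
      exact hnx (ptEqX_closed h hK hxR ((abs_nonneg _).trans_lt (hlt x hxR)).ne' hbase.1
        hbase.2.1 hbase.2.2 hcon)
    have hc : Tendsto (fun s : ℝ => (s / r) • x) (𝓝 r) (𝓝 x) := by
      have h1 : ContinuousAt (fun s : ℝ => (s / r) • x) r :=
        (continuousAt_id.div_const r).smul continuousAt_const
      have h2 := h1.tendsto
      simp only [id_eq, div_self hr0.ne', one_smul] at h2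
      exact h2
    filter_upwards [hc.eventually hev, Ioi_mem_nhds hr, Ioi_mem_nhds hr0] with s hs hsR hs0
    refine ⟨hsR, fun hall => hs (hall _ ?_)⟩
    have hs0' : (0 : ℝ) < s := hs0
    unfold len at hx ⊢
    rw [norm_smul, Real.norm_eq_abs, abs_of_pos (div_pos hs0' hr0), hx]
    field_simp
  have hZ : ∀ x : E n, B.R < len x → len x ∈ U → PtEqZ B G g K x := by
    intro x hx hxU
    rcases hpt (len x) hx with h1 | h1
    · exact h1 x rfl
    · exact absurd h1 hxU.2
  intro x hx
  by_contra hcon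
  have hxU : len x ∈ U := ⟨hx, fun hall => hcon (hall x rfl)⟩
  exact hcon (ptEqX_of_tg h hx (hZ x hx hxU) (hlt x hx) fun k =>
    tg_kpf_zeroU hn h hF hK hKs hro hlam hopen hZ hlt hkey hYlt hx hxU k)

end

end Vale.Agent.H177
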