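import Vale.Agent.P366.H177.Cond

/-! Time flat centred spheres: the momentum vanishes. -/

open MeasureTheory Metric Filter Topology Set Asymptotics
open scoped ContDiff ENNReal Matrix

noncomputable section
namespace Vale.Agent.H177
open Vale.Agent.P366.Stmt Vale.Agent.P366.T2 Vale.Agent.T4
open Vale.Agent.P366.T1.A919 (far far_iff far_of far_gt far_nhds O O_iff O_of_bigO O_const O_zero
  O_of_le)
open Vale.Agent.P366 (sphI sphM av norm_smul_sph integrable_sph sphI_congr sphI_continuousOn
  cont_smul_sph1 sphI_sub sphI_add omega_pos')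

variable {n : ℕ}

lemma artanh_bound {t : ℝ} (ht : |t| ≤ 1 / 2) :
    |Real.log ((1 + t) / (1 - t)) / 2 - t| ≤ 2 * t ^ 2 := by
  obtain ⟨h1, h2⟩ := abs_le.1 ht
  have h3 : 0 < 1 + t := by linarith
  have h4 : 0 < 1 - t := by linarith
  have a1 := Real.abs_log_sub_add_sum_range_le (x := t) (by linarith) 1
  have a2 := Real.abs_log_sub_add_sum_range_le (x := -t) (by rw [abs_neg]; linarith) 1
  simp only [Finset.range_one, Finset.sum_singleton, zero_add, pow_one, Nat.cast_zero,
    div_one, abs_neg, sub_neg_eq_add] at a1 a2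
  have h5 : |t| ^ (1 + 1) / (1 - |t|) ≤ 2 * t ^ 2 := by
    have h6 : 0 < 1 - |t| := by linarith
    rw [div_le_iff₀ h6]
    have h7 : |t| ^ (1 + 1) = t ^ 2 := by rw [← sq_abs t]
    rw [h7]
    nlinarith [sq_nonneg t]
  rw [Real.log_div h3.ne' h4.ne']
  have b1 := abs_le.1 (a1.trans h5)
  have b2 := abs_le.1 (a2.trans h5)
  rw [abs_le]
  constructor <;> linarith [b1.1, b1.2, b2.1, b2.2]

section

variable {G g K : Field n} {B : Bg n}

lemma lapse_mono {R R' : ℝ} (h : Lapse G g R) (hR : R ≤ R') : Lapse G g R' where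
  hR := h.hR.trans_le hR
  Gs := h.Gs
  gs := h.gs
  symm := fun x hx => h.symm x (hR.trans hx)
  pos := fun x hx => h.pos x (hR.trans hx)
  unit := fun x hx => h.unit x (hR.trans hx)
  ppos := fun x hx => h.ppos x (hR.trans hx)
  eq := fun x hx => h.eq x (hR.trans hx)

lemma contDiffAt_ratio (h : Lapse G g B.R) (hF : B.Fits0 G)
    (hK : ∀ i j, Smooth (fun x => K x i j)) {x : E n} (hx : B.R ≤ len x)
    (hH : B.H (len x) ≠ 0) : ContDiffAt ℝ ∞ (sphereRatio g K) x := by
  have hx0 := h.ne_zero hx
  have hs : 0 < √(rad g x) := Real.sqrt_pos.2 (h.ppos x hx)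
  have hd := h.g_det_ne hx
  have hc : covNorm g (fun j => pd j len) x ≠ 0 := by
    rw [h.cov_len hx]; positivity
  have hm : sphereMean g x ≠ 0 := by
    rw [sphereMean_eq92 h hF hx]
    exact div_ne_zero hH hs.ne'
  have h1 : ContDiffAt ℝ ∞ (sphereMean g) x :=
    (contDiffAt_trS92 h.gs hd hx0 hc (fun i j => contDiffAt_hess92 h.gs hd hx0 i j)).div
      (contDiffAt_cov92 h.gs hd hx0 hc) hc
  exact (contDiffAt_trS92 h.gs hd hx0 hc (fun i j => (hK i j).contDiffAt)).div h1 hm

lemma contDiffAt_rapidity (h : Lapse G g B.R) (hF : B.Fits0 G)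
    (hK : ∀ i j, Smooth (fun x => K x i j)) {x : E n} (hx : B.R ≤ len x)
    (hlt : |kpf G g K x| < B.H (len x)) : ContDiffAt ℝ ∞ (sphereRapidity g K) x := by
  have hH : 0 < B.H (len x) := (abs_nonneg _).trans_lt hlt
  have h1 := contDiffAt_ratio h hF hK hx hH.ne'
  have h2 : |sphereRatio g K x| < 1 := by
    rw [sphereRatio_eq92 h hF hx, abs_div, abs_of_pos hH, div_lt_one hH]
    exact hlt
  obtain ⟨h3, h4⟩ := abs_lt.1 h2
  have h5 : 0 < 1 - sphereRatio g K x := by linarith
  have h6 : 0 < 1 + sphereRatio g K x := by linarith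
  exact (((contDiffAt_const.add h1).div (contDiffAt_const.sub h1) h5.ne').log
    (div_pos h6 h5).ne').div_const 2

/-- the correction in the momentum -/
def Emom (G g K : Field n) (i : Fin n) (x : E n) : ℝ :=
  (∑ j, momT g K x i j * nx j x) - (∑ k, Sm G k i x * bf g K k x) -
    sphereRapidity g K x * ∑ k, pd k (Sm G k i) x

lemma O_up1 {q : ℝ} (h : Lapse G g B.R) (hq : 0 < q) (D : Dec g q) (k i j : Fin n) :
    O (q + 1) (pd k (up G i j)) := by
  have h1 : O (q + 1) (fun x => -∑ a, ∑ b, up G i a x * pd k (fun y => G y a b) x * up G b j x) := by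
    refine O.neg (O.sum fun a _ => O.sum fun b _ => ?_)
    have a1 : O 0 (up G i a) := (h.up0 hq D i a).bdd hq.le
    have a2 : O 0 (up G b j) := (h.up0 hq D b j).bdd hq.le
    exact (a1.mul' ((h.dec D).g1 a b k) (r := q + 1) (by linarith)).mul' a2 (by linarith)
  refine h1.congr ?_
  filter_upwards [far_gt (n := n) B.R] with x hx
  exact (Vale.Agent.Mom68.pd_up (isOpen_out B.R) h.Gs (fun y hy => h.symm y (le_of_lt hy))
    (fun _ hy => h.det_ne (le_of_lt hy)) (x := x) hx k i j).symm

/-- the divergence of the tangential projection -/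
lemma sum_pd_Sm (h : Lapse G g B.R) {x : E n} (hx : B.R < len x) (i : Fin n) :
    ∑ k, pd k (Sm G k i) x = ∑ k, pd k (up G k i) x - ((n : ℝ) - 1) / len x * nx i x := by
  have hx0 := h.ne_zero hx.le
  have e1 : ∀ k, pd k (Sm G k i) x = pd k (up G k i) x - (dnx k k x * nx i x +
      nx k x * dnx k i x) := by
    intro k
    have a1 : HP k (up G k i) (pd k (up G k i) x) x :=
      HP.of_diff ((h.contDiffAt_up hx k i).differentiableAt (by simp))
    exact (a1.sub ((HP_nx hx0 k k).mul (HP_nx hx0 k i))).pd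
  simp only [e1, Finset.sum_sub_distrib, Finset.sum_add_distrib, ← Finset.sum_mul, sum_dnx hx0]
  have e2 : ∑ k, nx k x * dnx k i x = 0 := by
    have : ∀ k, nx k x * dnx k i x = (nx k x * (if i = k then 1 else 0) -
        nx i x * (nx k x * nx k x)) / len x := by
      intro k; unfold dnx; ring
    simp only [this, ← Finset.sum_div, Finset.sum_sub_distrib, ← Finset.mul_sum,
      sum_nx_mul hx0]
    simp
  rw [e2, add_zero]

lemma O_row {q : ℝ} (hK : ∀ i j, O (q + 1) (fun x => K x i j)) (i : Fin n) :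
    O (q + 1) (row K i) :=
  O.sum fun j _ => (hK i j).mul' (O_nx j) (by linarith)

lemma O_rad {q : ℝ} (hK : ∀ i j, O (q + 1) (fun x => K x i j)) :
    O (q + 1) (rad K) :=
  O.sum fun i _ => O.sum fun j _ => ((hK i j).mul' (O_nx i) (r := q + 1) (by linarith)).mul'
    (O_nx j) (by linarith)

/-- the ratio is `O(q)` -/
lemma O_ratio {q : ℝ} (h : Lapse G g B.R) (hF : B.Fits0 G) (hn : 2 ≤ n) (hq : 0 < q)
    (D : Dec g q) (hK : ∀ i j, O (q + 1) (fun x => K x i j)) :
    O (q + q + 1) (fun x => ((n : ℝ) - 1) / len x * sphereRatio g K x - trT G K x) ∧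
      O q (sphereRatio g K) := by
  have hn1 : (0 : ℝ) < (n : ℝ) - 1 := by
    have : (2 : ℝ) ≤ n := by exact_mod_cast hn
    linarith
  have hT := h.trK0 hq D hK
  have hk : O (q + 1) (kpf G g K) := ((D.p0.sqrt).bdd hq.le).mul' hT (by linarith)
  have hy := h.yy0F hq D hF
  have hy1 : O q (fun x : E n => len x * B.H (len x) / ((n : ℝ) - 1) - 1) := by
    refine (hy.const_mul (1 / ((n : ℝ) - 1))).congr (Eventually.of_forall fun x => ?_)
    field_simp
  have hi : O 0 (fun x : E n => (len x * B.H (len x) / ((n : ℝ) - 1))⁻¹) := hy1.inv hq |>.bdd hq.le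
  have hlk : O q (fun x : E n => len x * kpf G g K x) := O_len_mul hk (by linarith)
  -- nonvanishing
  have hne : ∀ᶠ x in far n, 0 < len x ∧ B.R < len x ∧ 0 < B.H (len x) := by
    filter_upwards [far_gt (n := n) 0, far_gt (n := n) B.R,
      hy1.small hq (show (0 : ℝ) < 1 / 2 by norm_num)] with x h1 h2 h3
    have h4 := (abs_le.1 h3).1
    have h5 : 0 < len x * B.H (len x) / ((n : ℝ) - 1) := by linarith
    have h6 : 0 < len x * B.H (len x) := by
      have := mul_pos h5 hn1
      rwa [div_mul_cancel₀ _ hn1.ne'] at this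
    exact ⟨h1, h2, pos_of_mul_pos_right h6 (le_of_lt h1)⟩
  have hu : O q (sphereRatio g K) := by
    have h1 : O q (fun x : E n => 1 / ((n : ℝ) - 1) * (len x * kpf G g K x *
        (len x * B.H (len x) / ((n : ℝ) - 1))⁻¹)) := (hlk.mul' hi (by linarith)).const_mul _
    refine h1.congr ?_
    filter_upwards [hne] with x hx
    rw [sphereRatio_eq92 h hF hx.2.1.le]
    have := hx.1.ne'
    have := hx.2.2.ne'
    field_simp
  refine ⟨?_, hu⟩
  -- the difference
  have h1 : O (q + q + 1) (fun x : E n => -(1 / len x * (sphereRatio g K x *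
      (len x * B.H (len x) - ((n : ℝ) - 1))))) :=
    O.neg (O_inv_len.mul' (hu.mul' hy (r := q + q) le_rfl) (by linarith))
  have h2 : O (q + q + 1) (fun x => (√(rad g x) - 1) * trT G K x) :=
    (D.p0.sqrt).mul' hT (by linarith)
  refine (h1.add h2).congr ?_
  filter_upwards [hne] with x hx
  rw [sphereRatio_eq92 h hF hx.2.1.le]
  have := hx.1.ne'
  have := hx.2.2.ne'
  unfold kpf
  field_simp
  ring

/-- the correction is of second order -/
theorem O_Emom {q : ℝ} (h : Lapse G g B.R) (hF : B.Fits0 G) (hn : 2 ≤ n) (hq : 0 < q)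
    (D : Dec g q) (hK : ∀ i j, O (q + 1) (fun x => K x i j)) (i : Fin n) :
    O (q + q + 1) (Emom G g K i) := by
  obtain ⟨hu1, hu⟩ := O_ratio h hF hn hq D hK
  have hT := h.trK0 hq D hK
  -- the rapidity
  have hχ : O (q + q) (fun x => sphereRapidity g K x - sphereRatio g K x) := by
    refine O.of_abs ((hu.mul hu).const_mul 2) ?_
    filter_upwards [hu.small hq (show (0 : ℝ) < 1 / 2 by norm_num)] with x hx
    have h1 := artanh_bound hx
    refine h1.trans (le_of_eq ?_)
    rw [abs_mul, abs_two, abs_mul_self, sq]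
  have hχ0 : O q (sphereRapidity g K) := by
    refine ((hχ.mono (by linarith : q ≤ q + q)).add hu).congr (Eventually.of_forall fun x => ?_)
    ring
  have hU : O (q + 1) (fun x => ∑ k, pd k (up G k i) x) := O.sum fun k _ => O_up1 h hq D k k i
  have hs : O q (fun x => √(1 / rad g x) - 1) := by
    have h1 : O q (fun x => 1 / rad g x - 1) :=
      (D.p0.inv hq).congr (Eventually.of_forall fun x => by rw [one_div])
    exact h1.sqrt
  have hs0 : O 0 (fun x => √(1 / rad g x)) := hs.bdd hq.le
  -- the pieces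
  have A1 : O (q + q + 1) (fun x => -((rad g x - 1) * (trT G K x * nx i x))) :=
    O.neg (D.p0.mul' (hT.mul' (O_nx i) (r := q + 1) (by linarith)) (by linarith))
  have A2 : O (q + q + 1) (fun x => √(1 / rad g x) *
      (∑ k, (up G k i x - if k = i then 1 else 0) * row K k x) +
      (√(1 / rad g x) - 1) * (row K i x - rad K x * nx i x)) := by
    refine O.add (hs0.mul' (q := q + q + 1) (O.sum fun k _ => ?_) (by linarith)) ?_
    · exact (h.up0 hq D k i).mul' (O_row hK k) (by linarith)
    · exact hs.mul' (q := q + 1) ((O_row hK i).sub ((O_rad hK).mul' (O_nx i) (by linarith)))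
        (by linarith)
  have A3 : O (q + q + 1) (fun x => sphereRapidity g K x * (∑ k, pd k (up G k i) x) -
      nx i x * ((((n : ℝ) - 1) / len x * sphereRatio g K x - trT G K x) +
        ((n : ℝ) - 1) * (1 / len x * (sphereRapidity g K x - sphereRatio g K x)))) := by
    refine O.sub (hχ0.mul' hU (by linarith)) ((O_nx i).mul' (q := q + q + 1)
      (hu1.add ((O_inv_len.mul' hχ (r := q + q + 1) (by linarith)).const_mul _)) (by linarith))
  refine ((A1.sub A2).sub A3).congr ?_
  filter_upwards [far_gt (n := n) B.R, far_gt (n := n) 0] with x hx hx00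
  have hx' : B.R < len x := hx
  have hx0 := h.ne_zero hx'.le
  have hl : len x ≠ 0 := hx00.ne'
  have hp := (h.ppos x hx'.le).ne'
  unfold Emom
  rw [sum_pd_Sm h hx' i]
  -- the momentum tensor
  have e1 : ∑ j, momT g K x i j * nx j x = row K i x - (rad g x * trT G K x + rad K x) * nx i x := by
    have a1 : ∀ j, momT g K x i j * nx j x = K x i j * nx j x - tr g K x * (g x i j * nx j x) := by
      intro j; unfold momT; ring
    simp only [a1, Finset.sum_sub_distrib, ← Finset.mul_sum, h.g_nx hx'.le]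
    rw [tr_lapse h hx'.le]
    unfold row
    field_simp
  have e2 : ∑ k, Sm G k i x * bf g K k x = √(1 / rad g x) *
      (∑ k, (up G k i x - if k = i then 1 else 0) * row K k x) +
      √(1 / rad g x) * (row K i x - rad K x * nx i x) := by
    have a1 : ∀ k, Sm G k i x * bf g K k x = √(1 / rad g x) *
        ((up G k i x - if k = i then 1 else 0) * row K k x) +
        √(1 / rad g x) * ((if k = i then 1 else 0) * row K k x - nx i x * (nx k x * row K k x)) := by
      intro k; unfold Sm bf; ring
    simp only [a1, Finset.sum_add_distrib, ← Finset.mul_sum, Finset.sum_sub_distrib]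
    have a2 : ∑ k, nx k x * row K k x = rad K x := by
      unfold rad row
      refine Finset.sum_congr rfl fun k _ => ?_
      rw [Finset.mul_sum]
      exact Finset.sum_congr rfl fun l _ => by ring
    have a3 : ∑ k, (if k = i then (1 : ℝ) else 0) * row K k x = row K i x := by simp
    rw [a2, a3]
    ring
  rw [e1, e2]
  field_simp
  ring

/-- On time flat untrapped spheres the momentum flux is the integral of the correction. -/
theorem sphI_momT [Nontrivial (E n)] (h : Lapse G g B.R) (hF : B.Fits0 G)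
    (hK : ∀ i j, Smooth (fun x => K x i j))
    (hKs : ∀ x, B.R ≤ len x → ∀ i j, K x i j = K x j i) {R' : ℝ} (hR' : B.R ≤ R')
    (hlt : ∀ x, R' < len x → |kpf G g K x| < B.H (len x)) {r : ℝ} (hr : R' < r)
    (hT : TimeFlat g K r) (i : Fin n) :
    sphI (fun x => ∑ j, momT g K x i j * nx j x) r = sphI (Emom G g K i) r := by
  have h0 : 0 < r := B.hR.trans_le (hR'.trans hr.le)
  have hL : Lapse G g R' := lapse_mono h hR'
  have hχ : ∀ x, R' < len x → ContDiffAt ℝ ∞ (sphereRapidity g K) x := fun x hx =>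
    contDiffAt_rapidity h hF hK (hR'.trans hx.le) (hlt x hx)
  have hZ : ∀ l x, R' < len x → ContDiffAt ℝ ∞
      (fun y => sphereRapidity g K y * (if l = i then (1 : ℝ) else 0)) x := fun l x hx =>
    (hχ x hx).mul contDiffAt_const
  -- the twist term
  set tw : E n → ℝ := fun x => ∑ k, Sm G k i x * bf g K k x -
    ∑ k, Sm G k i x * pd k (sphereRapidity g K) x with htw
  set DZ : E n → ℝ := DS G (fun l y => sphereRapidity g K y * (if l = i then (1 : ℝ) else 0))
    with hDZ
  have hDZ_eq : ∀ x, R' < len x → DZ x = sphereRapidity g K x * ∑ k, pd k (Sm G k i) x +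
      ∑ k, Sm G k i x * pd k (sphereRapidity g K) x := by
    intro x hx
    have hxB : B.R < len x := hR'.trans_lt hx
    rw [hDZ]
    unfold DS
    have e1 : ∀ k, pd k (fun y => ∑ l, Sm G k l y *
        (sphereRapidity g K y * (if l = i then (1 : ℝ) else 0))) x =
        pd k (Sm G k i) x * sphereRapidity g K x +
          Sm G k i x * pd k (sphereRapidity g K) x := by
      intro k
      have a1 : (fun y => ∑ l, Sm G k l y *
          (sphereRapidity g K y * (if l = i then (1 : ℝ) else 0))) =
          fun y => Sm G k i y * sphereRapidity g K y := by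
        funext y
        simp
      rw [a1]
      exact ((HP.of_diff ((h.contDiffAt_Sm hxB k i).differentiableAt (by simp))).mul
        (HP.of_diff ((hχ x hx).differentiableAt (by simp)))).pd
    simp only [e1, Finset.sum_add_distrib, ← Finset.sum_mul]
    ring
  have htw0 : sphI tw r = 0 := by
    have h1 := hT (fun y => y i) (fun x _ =>
      ((EuclideanSpace.proj (𝕜 := ℝ) i : E n →L[ℝ] ℝ).contDiff).contDiffAt)
    rw [sph_eq_sphI] at h1
    rw [← h1]
    refine sphI_congr h0.le fun x hx => ?_
    have hx1 : len x = r := hx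
    have hx2 : R' < len x := by rw [hx1]; exact hr
    have hx3 : B.R < len x := hR'.trans_lt hx2
    have e0 : ∀ l, pd l (fun y : E n => y i) x = if i = l then 1 else 0 := fun l =>
      (HP.coord l i x).pd
    rw [sphereDot_eq h hx3.le]
    simp only [e0]
    have e1 : ∀ k, ∑ l, Sm G k l x * sphereTwist g K k x * (if i = l then (1 : ℝ) else 0) =
        Sm G k i x * sphereTwist g K k x := by
      intro k; simp
    simp only [e1]
    rw [htw]
    simp only
    rw [← Finset.sum_sub_distrib]
    refine Finset.sum_congr rfl fun k _ => ?_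
    unfold sphereTwist
    rw [sphereRow_eq h hKs hx3.le]
    ring
  -- continuity
  have cDZ : ContinuousOn DZ {x : E n | R' < ‖x‖} := hL.contOn_DS hZ
  have ctw : ContinuousOn tw {x : E n | R' < ‖x‖} := by
    intro x hx
    have hx' : R' < len x := hx
    have hx3 : B.R < len x := hR'.trans_lt hx'
    refine ContinuousAt.continuousWithinAt ?_
    exact ((ContDiffAt.sum fun k _ => (h.contDiffAt_Sm hx3 k i).mul
      (h.contDiffAt_bf hK hx3.le k)).sub (ContDiffAt.sum fun k _ =>
      (h.contDiffAt_Sm hx3 k i).mul (contDiffAt_pd (hχ x hx') k))).continuousAt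
  have cE : ContinuousOn (Emom G g K i) {x : E n | R' < ‖x‖} := by
    intro x hx
    have hx' : R' < len x := hx
    have hx3 : B.R < len x := hR'.trans_lt hx'
    have hx0 := h.ne_zero hx3.le
    refine ContinuousAt.continuousWithinAt ?_
    have a1 : ContDiffAt ℝ ∞ (tr g K) x := by
      unfold tr
      exact ContDiffAt.sum fun a _ => ContDiffAt.sum fun b _ =>
        (contDiffAt_up92 h.gs (h.g_det_ne hx3.le) a b).mul (hK a b).contDiffAt
    have a2 : ContDiffAt ℝ ∞ (fun x => ∑ j, momT g K x i j * nx j x) x := by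
      unfold momT
      exact ContDiffAt.sum fun j _ => ((hK i j).contDiffAt.sub
        (a1.mul (h.gs i j).contDiffAt)).mul (contDiffAt_nx j hx0)
    exact ((a2.sub (ContDiffAt.sum fun k _ => (h.contDiffAt_Sm hx3 k i).mul
      (h.contDiffAt_bf hK hx3.le k))).sub ((hχ x hx').mul (ContDiffAt.sum fun k _ =>
      contDiffAt_pd (h.contDiffAt_Sm hx3 k i) k))).continuousAt
  have hb : 0 ≤ R' := B.hR.le.trans hR'
  have e2 : sphI (fun x => ∑ j, momT g K x i j * nx j x) r =
      sphI (fun x => (Emom G g K i x + tw x) + DZ x) r := by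
    refine sphI_congr h0.le fun x hx => ?_
    have hx1 : len x = r := hx
    have hx2 : R' < len x := by rw [hx1]; exact hr
    rw [hDZ_eq x hx2, htw]
    unfold Emom
    ring
  rw [e2, sphI_add (u := fun x => Emom G g K i x + tw x) hb hr (cE.add ctw) cDZ,
    sphI_add hb hr cE ctw, htw0, hL.sphI_DS hZ hr]
  ring

end

/-- **The momentum vanishes** if the centred spheres of large radius are time flat. -/
theorem momentum_zero (hn : 3 ≤ n) {X : Exterior n} {G : Field n} {B : Bg n}
    (h : Lapse G X.g B.R) (hF : B.Fits0 G) (hAF : X.IsAF)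
    (hinf : ∀ᶠ r in atTop, ∀ x, len x = r → |kpf G X.g X.K x| < B.H r)
    (hT : ∀ᶠ r in atTop, TimeFlat X.g X.K r) {P : Fin n → ℝ} (hP : X.IsMomentum P) : P = 0 := by
  have : Nonempty (Fin n) := ⟨⟨0, by omega⟩⟩
  have : Nontrivial (E n) := inferInstance
  have hn3 : (3 : ℝ) ≤ n := by exact_mod_cast hn
  have hω : 0 < Vale.Agent.P366.omega n := omega_pos'
  obtain ⟨q, hq, hAFq⟩ := hAF
  have hq0 : 0 < q := by linarith
  have i0 : Fin n := ⟨0, by omega⟩
  have D : Dec X.g q := ⟨fun i j => O_of_bigO (hAFq i j i0 i0).1,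
    fun i j k => O_of_bigO (hAFq i j k i0).2.1⟩
  have hKO : ∀ i j, O (q + 1) (fun x => X.K x i j) := fun i j =>
    O_of_bigO (hAFq i j i0 i0).2.2.2.1
  have hK := fun i j => (X.smooth i j).2
  have hKs : ∀ x, B.R ≤ len x → ∀ i j, X.K x i j = X.K x j i := fun x _ i j => (X.symm x i j).2
  obtain ⟨R1, hR1⟩ := eventually_atTop.1 (hinf.and hT)
  set R' := max B.R R1 with hR'
  have hlt : ∀ x : E n, R' < len x → |kpf G X.g X.K x| < B.H (len x) := fun x hx =>
    (hR1 _ ((le_max_right _ _).trans hx.le)).1 x rfl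
  funext i
  refine tendsto_nhds_unique (hP i) ?_
  have h1 := av_O (O_Emom h hF (by omega) hq0 D hKO i)
  have h2 : Tendsto (fun r : ℝ => r ^ ((n : ℝ) - 1) * av (Emom G X.g X.K i) r) atTop (𝓝 0) := by
    have h3 := IsBigO.mul (isBigO_refl (fun r : ℝ => r ^ ((n : ℝ) - 1)) atTop) h1
    refine h3.trans_tendsto ?_
    refine (tendsto_rpow_neg_atTop (show 0 < 2 * q + 2 - n by linarith)).congr' ?_
    filter_upwards [eventually_gt_atTop 0] with r hr
    rw [← Real.rpow_add hr]
    congr 1
    ring
  have h4 := h2.mul_const (1 / ((n : ℝ) - 1))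
  rw [zero_mul] at h4
  refine h4.congr' ?_
  filter_upwards [eventually_gt_atTop R', eventually_gt_atTop 0] with r hr hr0
  have h5 := sphI_momT h hF hK hKs (le_max_left _ _) hlt hr
    (hR1 r ((le_max_right _ _).trans hr.le)).2 i
  unfold flx sphInt
  rw [Vale.Agent.P366.omega_eq, sph_eq_sphI]
  have e1 : sphI (fun x => ∑ j, momT X.g X.K x i j * (x j / len x)) r =
      sphI (Emom G X.g X.K i) r := h5
  rw [e1]
  unfold av
  have e2 : r ^ ((n : ℝ) - 1) = r ^ (n - 1) := by
    rw [← Real.rpow_natCast]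
    congr 1
    rw [Nat.cast_sub (by omega)]
    push_cast
    ring
  rw [e2]
  have hn1 : (n : ℝ) - 1 ≠ 0 := by linarith
  field_simp

end Vale.Agent.H177
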