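import Vale.Agent.P366.H177.Ineq

/-! Time flat centred spheres: the ODE argument. -/

open MeasureTheory Metric Filter Topology Set
open scoped ContDiff ENNReal Matrix

noncomputable section
namespace Vale.Agent.H177
open Vale.Agent.P366.Stmt Vale.Agent.P366.T2 Vale.Agent.T4
open Vale.Agent.P366 (sphI sphM av norm_smul_sph integrable_sph sphI_congr sphI_continuousOn)
open Vale.Agent.C92 (outside_nonneg theta_compare)

variable {n : ℕ}

/-- the hypothesis on `K` -/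
def DichZ (B : Bg n) (G g K : Field n) : Prop := ∀ r, B.R ≤ r →
  (∀ x, len x = r → B.H r ≤ |kpf G g K x|) ∨
    ((∀ x, len x = r → |kpf G g K x| < B.H r) ∧ (B.R < r → TorZ B G g K r))

section

variable {G g K : Field n} {B : Bg n}

/-- **The last radius without untrapped points.** -/
theorem exists_r0Z (hn : 0 < n) (h : Lapse G g B.R) (hK : ∀ i j, Smooth (fun x => K x i j))
    (hd : DichZ B G g K) (h0 : ∃ x, len x = B.R ∧ B.H B.R + kpf G g K x ≤ 0)
    (hinf : ∀ᶠ r in atTop, ∀ x, len x = r → |kpf G g K x| < B.H r) :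
    ∃ r0, B.R ≤ r0 ∧ (∀ x, len x = r0 → |kpf G g K x| = B.H r0) ∧
      ∀ r, r0 < r → (∀ x, len x = r → |kpf G g K x| < B.H r) ∧ TorZ B G g K r := by
  obtain ⟨R1, hR1⟩ := eventually_atTop.1 hinf
  set S : Set ℝ := {r | B.R ≤ r ∧ ∀ x, len x = r → B.H r ≤ |kpf G g K x|} with hS
  have hHc : ContinuousOn B.H (Ici B.R) := fun r hr =>
    (B.H_diff r hr).continuousAt.continuousWithinAt
  have hSc : IsClosed S := by
    have e : S = ⋂ θ : sphere (0 : E n) 1, {r | B.R ≤ r ∧ 0 ≤ |kpf G g K (r • (θ : E n))| - B.H r} ∩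
        {r | B.R ≤ r} := by
      ext r
      simp only [hS, mem_ofPred_eq, mem_iInter, mem_inter_iff]
      constructor
      · rintro ⟨h1, h2⟩ θ
        have hr0 : 0 ≤ r := B.hR.le.trans h1
        exact ⟨⟨h1, by have := h2 _ (len_smul_sph hr0 θ); linarith⟩, h1⟩
      · intro h1
        obtain ⟨y, hy⟩ := exists_len (n := n) hn (r := 1) zero_le_one
        have h2 := h1 ⟨y, by rw [mem_sphere_zero_iff_norm]; exact hy⟩
        refine ⟨h2.2, fun x hx => ?_⟩
        have hr0 : 0 < r := B.hR.trans_le h2.2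
        obtain ⟨θ, hθ⟩ := exists_theta (x := x) (by rw [hx]; exact hr0)
        have h3 := (h1 θ).1.2
        rw [hx] at hθ
        rw [← hθ] at h3
        linarith
    rw [e]
    refine isClosed_iInter fun θ => ?_
    have h1 : ContinuousOn (fun r : ℝ => |kpf G g K (r • (θ : E n))| - B.H r) (Ici B.R) :=
      (kpf_ray h hK θ).abs.sub hHc
    have h2 := h1.preimage_isClosed_of_isClosed isClosed_Ici (isClosed_Ici (a := (0 : ℝ)))
    have e2 : {r : ℝ | B.R ≤ r ∧ 0 ≤ |kpf G g K (r • (θ : E n))| - B.H r} ∩ {r : ℝ | B.R ≤ r} =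
        Ici B.R ∩ (fun r : ℝ => |kpf G g K (r • (θ : E n))| - B.H r) ⁻¹' Ici 0 := by
      ext r
      simp only [mem_ofPred_eq, mem_inter_iff, mem_Ici, mem_preimage]
      tauto
    rw [e2]
    exact h2
  have hSne : S.Nonempty := by
    refine ⟨B.R, le_rfl, ?_⟩
    rcases hd B.R le_rfl with h1 | h1
    · exact h1
    · obtain ⟨x, hx, h2⟩ := h0
      have h3 := h1.1 x hx
      have := neg_le_abs (kpf G g K x)
      linarith
  have hSb : BddAbove S := ⟨max B.R R1, fun r hr => by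
    by_contra hlt
    push Not at hlt
    have h1 := hR1 r ((le_max_right _ _).trans hlt.le)
    obtain ⟨x, hx⟩ := exists_len (n := n) hn (r := r) (B.hR.le.trans hr.1)
    exact absurd (hr.2 x hx) (not_le.2 (h1 x hx))⟩
  have hr0S : sSup S ∈ S := hSc.csSup_mem hSne hSb
  have hgt : ∀ r, sSup S < r → (∀ x, len x = r → |kpf G g K x| < B.H r) ∧
      TorZ B G g K r := by
    intro r hr
    rcases hd r (hr0S.1.trans hr.le) with h1 | h1
    · exact absurd (le_csSup hSb ⟨hr0S.1.trans hr.le, h1⟩) (not_le.2 hr)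
    · exact ⟨h1.1, h1.2 (hr0S.1.trans_lt hr)⟩
  refine ⟨sSup S, hr0S.1, fun x hx => le_antisymm ?_ (hr0S.2 x hx), hgt⟩
  have hr0 : 0 < sSup S := B.hR.trans_le hr0S.1
  obtain ⟨θ, hθ⟩ := exists_theta (x := x) (by rw [hx]; exact hr0)
  rw [hx] at hθ
  have hsub : Ioi (sSup S) ⊆ Ici B.R := fun r hr => hr0S.1.trans (le_of_lt hr)
  have h1 : Tendsto (fun r : ℝ => |kpf G g K (r • (θ : E n))|) (𝓝[>] (sSup S))
      (𝓝 |kpf G g K (sSup S • (θ : E n))|) := ((kpf_ray h hK θ (sSup S) hr0S.1).mono hsub).abs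
  have h2 : Tendsto B.H (𝓝[>] (sSup S)) (𝓝 (B.H (sSup S))) := (hHc _ hr0S.1).mono hsub
  rw [hθ]
  refine le_of_tendsto_of_tendsto h1 h2 ?_
  filter_upwards [self_mem_nhdsWithin] with r hr
  exact ((hgt r hr).1 _ (len_smul_sph (hr0.trans hr).le θ)).le

/-- **Monotonicity.** -/
theorem monoZ (hn : 3 ≤ n) (h : Lapse G g B.R) (hF : B.FitsW G)
    (hK : ∀ i j, Smooth (fun x => K x i j)) {r0 : ℝ} (hr0 : B.R ≤ r0)
    (hz : ∀ x, len x = r0 → |kpf G g K x| = B.H r0)
    (hgt : ∀ r, r0 < r → (∀ x, len x = r → |kpf G g K x| < B.H r) ∧ TorZ B G g K r) :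
    MonotoneOn (fun r => B.rho r ^ ((n : ℝ) - 2) *
        (1 - Yav B G g K r / (4 * B.lam r ^ 2))) (Ici r0) ∧
      ∀ r, r0 ≤ r → B.rho r0 ^ ((n : ℝ) - 2) ≤
        B.rho r ^ ((n : ℝ) - 2) * (1 - Yav B G g K r / (4 * B.lam r ^ 2)) := by
  have : Nontrivial (E n) := by
    have : Nonempty (Fin n) := ⟨⟨0, by omega⟩⟩
    infer_instance
  have hn3 : (3 : ℝ) ≤ n := by exact_mod_cast hn
  have hN : 1 < (n : ℝ) - 1 := by linarith
  obtain ⟨hYc, hYd⟩ := stX1d h (B := B) hK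
  have hR : ∀ r, r0 ≤ r → B.R ≤ r := fun r hr => hr0.trans hr
  have hHp : ∀ r, r0 < r → 0 < B.H r := by
    intro r hr
    obtain ⟨x, hx⟩ := exists_len (n := n) (by omega) (r := r) (B.hR.le.trans (hR r hr.le))
    exact (abs_nonneg _).trans_lt ((hgt r hr).1 x hx)
  have h1 := mono_main2 (N := (n : ℝ) - 1) (r0 := r0) hN (c := fun _ => 1) (H := B.H)
    (Y := Yav B G g K) (Y' := Yav' B G g K) (ρ := B.rho) (R := B.Rh)
    (II2 := B.II2) (lam := B.lam) (L2 := B.L2) (I := B.IT)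
    (fun r hr => one_pos) hHp (Yav_zero h hr0 hz)
    (fun r hr => Yav_nonneg h hK (hr0.trans_lt hr) (hgt r hr).1)
    (hYc.mono fun r hr => hR r hr)
    (fun r hr => (B.rho_hasDerivAt (hR r hr)).continuousAt.continuousWithinAt)
    (fun r hr => (B.lam_deriv r (hR r hr)).continuousAt.continuousWithinAt)
    (fun r hr => B.rho_pos (hR r hr))
    (fun r hr => B.lam_pos r (hR r hr))
    (fun r hr => B.rho_hasDerivAt (hR r hr.le))
    (fun r hr => hYd r (hr0.trans_lt hr))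
    (fun r hr => by
      rw [one_mul]
      exact stZ1 h hF hK (hr0.trans_lt hr) (hgt r hr).1 (hgt r hr).2)
    (fun r hr => (B.lam_deriv r (hR r hr.le)).congr_deriv (by rw [one_mul]))
    (fun r hr => B.hU r (hR r hr.le) _)
    (fun r hr => B.hL r (hR r hr.le))
    (fun r hr => B.hJ r (hR r hr.le))
  have e : (n : ℝ) - 1 - 1 = (n : ℝ) - 2 := by ring
  rw [e] at h1
  exact h1

end

/-- **The Penrose inequality for time flat spheres.** -/
theorem penroseZ (hn : 3 ≤ n) (hX3 : StX3 n) (hX4 : StX4 n) {X : Exterior n} {G : Field n}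
    {B : Bg n} (h : Lapse G X.g B.R) (hB : B.FitsW G) (hL : B.LamOK G) (hAF : X.IsAF)
    (hDEC : X.DEC) (hT : X.Trapped) {m : ℝ} (hm : X.IsEnergy m)
    (hR : IsGreatest {r | ∃ x, X.F x = 0 ∧ len x = r} B.R) (hd : DichZ B G X.g X.K) :
    X.Amin ≠ ⊤ ∧ 0 < m ∧
      (X.Amin.toReal / omega n) ^ (((n : ℝ) - 2) / (n - 1)) / 2 ≤ m := by
  have : Nonempty (Fin n) := ⟨⟨0, by omega⟩⟩
  have : Nontrivial (E n) := inferInstance
  have hout := outside_nonneg (by omega) X hR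
  have hKsm := fun i j => (X.smooth i j).2
  obtain ⟨hlim, hinf⟩ := hX3 h hB.toFits0 hL hAF hm
  obtain ⟨r0, hr0, hz, hgt⟩ := exists_r0Z (by omega) h hKsm hd (hX4 h hB.toFits0 hT hR) hinf
  obtain ⟨-, hbd⟩ := monoZ hn h hB hKsm hr0 hz hgt
  have hle : B.rho r0 ^ ((n : ℝ) - 2) ≤ 2 * m := by
    refine ge_of_tendsto hlim ?_
    filter_upwards [eventually_ge_atTop r0] with r hr
    exact hbd r hr
  have hρ := B.rho_pos hr0
  have hn1 : (n : ℝ) - 1 ≠ 0 := by
    have : (3 : ℝ) ≤ n := by exact_mod_cast hn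
    linarith
  have e : B.rho r0 ^ ((n : ℝ) - 1) = B.ar r0 := by
    unfold Bg.rho
    rw [← Real.rpow_mul (B.ar_pos r0 hr0).le, one_div, inv_mul_cancel₀ hn1, Real.rpow_one]
  have hAm : X.Amin ≤ ENNReal.ofReal (omega n * B.rho r0 ^ ((n : ℝ) - 1)) := by
    rw [e]
    exact areaF (by omega) h hB.toFits0 hR hr0
  obtain ⟨h1, h2, h3⟩ := Vale.Agent.P366.T2.conclude hn (P := fun _ : Fin n => 0) rfl hρ hAm hle
  simp only [ne_eq, OfNat.ofNat_ne_zero, not_false_eq_true, zero_pow, Finset.sum_const_zero,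
    Real.sqrt_zero, sub_zero] at h2 h3
  rw [Real.sqrt_sq h2.le] at h3
  exact ⟨h1, h2, h3⟩


end Vale.Agent.H177
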