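import Vale.Agent.P366.H177.JT

/-! Time flat centred spheres, equality case: the linear equation for `√p tr_S K`. -/

open MeasureTheory Metric Filter Topology Set
open scoped ContDiff ENNReal Matrix

noncomputable section
namespace Vale.Agent.H177
open Vale.Agent.P366.Stmt Vale.Agent.P366.T2 Vale.Agent.T4
open Vale.Agent.P366 (sphI sphM av norm_smul_sph integrable_sph sphI_congr sphI_continuousOn
  cont_smul_sph1)

variable {n : ℕ}

section

variable {G g K : Field n} {B : Bg n}

/-- `(H² - κ²) / p` -/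
def wq (B : Bg n) (G g K : Field n) (y : E n) : ℝ :=
  1 / rad g y * (B.H (len y) ^ 2 - kpf G g K y ^ 2)

lemma HP_wq (h : Lapse G g B.R) (hK : ∀ i j, Smooth (fun x => K x i j)) {x : E n}
    (hx : B.R < len x) (i : Fin n) :
    HP i (wq B G g K) (-(2 * (1 / rad g x) * glf g i x) * (B.H (len x) ^ 2 - kpf G g K x ^ 2) +
      1 / rad g x * (2 * B.H (len x) * deriv B.H (len x) * nx i x -
        2 * kpf G g K x * pd i (kpf G g K) x)) x := by
  have hx0 := h.ne_zero hx.le
  have hl := len_ne hx0
  have h1 : HasDerivAt (fun r => B.H r ^ 2) (2 * B.H (len x) * deriv B.H (len x)) (len x) := by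
    refine ((B.H_diff _ hx.le).hasDerivAt.fun_pow 2).congr_deriv ?_
    simp
  have h2 : HP i (kpf G g K) (pd i (kpf G g K) x) x := HP.of_diff (diff_kpf92 h hK hx.le)
  have h3 := (h2.mul h2).congr (g := fun y => kpf G g K y ^ 2)
    (Eventually.of_forall fun y => by simp only [sq])
  have h4 := (h.HP_inv_rad hx.le i).mul ((HP.radial hx0 h1 i).sub h3)
  have e : -(2 * (1 / rad g x) * glf g i x) * (B.H (len x) ^ 2 - kpf G g K x ^ 2) +
      1 / rad g x * (2 * B.H (len x) * deriv B.H (len x) / len x * x i -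
        (pd i (kpf G g K) x * kpf G g K x + kpf G g K x * pd i (kpf G g K) x)) =
      -(2 * (1 / rad g x) * glf g i x) * (B.H (len x) ^ 2 - kpf G g K x ^ 2) +
      1 / rad g x * (2 * B.H (len x) * deriv B.H (len x) * nx i x -
        2 * kpf G g K x * pd i (kpf G g K) x) := by
    unfold nx
    ring
  rw [e] at h4
  exact h4

/-- `(H² - κ²) / p` is constant on the centred spheres -/
lemma pd_wq (h : Lapse G g B.R) (hK : ∀ i j, Smooth (fun x => K x i j)) {x : E n}
    (hx : B.R < len x) (hp : PtEqZ B G g K x) (hlt : |kpf G g K x| < B.H (len x)) (i : Fin n) :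
    pd i (wq B G g K) x = (-(2 * (1 / rad g x) * dN (lf g) x) *
      (B.H (len x) ^ 2 - kpf G g K x ^ 2) + 1 / rad g x * (2 * B.H (len x) * deriv B.H (len x) -
        2 * kpf G g K x * dN (kpf G g K) x)) * nx i x := by
  have hHp : 0 < B.H (len x) := (abs_nonneg _).trans_lt hlt
  have hw : 0 < B.H (len x) ^ 2 - kpf G g K x ^ 2 := by
    have : kpf G g K x ^ 2 < B.H (len x) ^ 2 := by
      rw [← sq_abs (kpf G g K x)]
      exact pow_lt_pow_left₀ hlt (abs_nonneg _) two_ne_zero
    linarith
  rw [(HP_wq h hK hx i).pd]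
  have h1 := hp.glf0 i
  have h2 := hp.bf0 i
  have h3 : B.H (len x) * (glf g i x - dN (lf g) x * nx i x) +
      kpf G g K x * (B.H (len x) / (B.H (len x) ^ 2 - kpf G g K x ^ 2) * tg (kpf G g K) i x) =
      0 := by
    rw [← h1, h2]; ring
  have h4 : (B.H (len x) ^ 2 - kpf G g K x ^ 2) * (glf g i x - dN (lf g) x * nx i x) =
      -(kpf G g K x * tg (kpf G g K) i x) := by
    have h5 : B.H (len x) * ((B.H (len x) ^ 2 - kpf G g K x ^ 2) *
        (glf g i x - dN (lf g) x * nx i x) + kpf G g K x * tg (kpf G g K) i x) = 0 := by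
      have h6 : B.H (len x) * ((B.H (len x) ^ 2 - kpf G g K x ^ 2) *
        (glf g i x - dN (lf g) x * nx i x) + kpf G g K x * tg (kpf G g K) i x) =
        (B.H (len x) ^ 2 - kpf G g K x ^ 2) * (B.H (len x) * (glf g i x - dN (lf g) x * nx i x) +
      kpf G g K x * (B.H (len x) / (B.H (len x) ^ 2 - kpf G g K x ^ 2) *
        tg (kpf G g K) i x)) := by
        field_simp
      rw [h6, h3, mul_zero]
    rcases mul_eq_zero.1 h5 with h6 | h6
    · exact absurd h6 hHp.ne'
    · linarith
  unfold tg at h4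
  linear_combination (-(2 * (1 / rad g x))) * h4

/-- `(H² - κ²) / p` equals its average on the centred spheres -/
theorem wq_eq (hn : 2 ≤ n) (h : Lapse G g B.R) (hK : ∀ i j, Smooth (fun x => K x i j))
    (hpt : ∀ x, B.R < len x → PtEqZ B G g K x)
    (hlt : ∀ x, B.R < len x → |kpf G g K x| < B.H (len x)) {x : E n} (hx : B.R < len x) :
    wq B G g K x = Yav B G g K (len x) := by
  have hr0 : 0 < len x := B.hR.trans hx
  have hc : ∀ y, len y = len x → wq B G g K y = wq B G g K x := by
    intro y hy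
    refine const_on_sphere hn (f := wq B G g K) hr0 (fun z hz => ?_)
      (fun z hz i => pd_wq h hK (by rw [hz]; exact hx) (hpt z (by rw [hz]; exact hx))
        (hlt z (by rw [hz]; exact hx)) i) hy rfl
    have hz' : B.R < len z := by rw [hz]; exact hx
    have h1 : DifferentiableAt ℝ (fun y : E n => B.H (len y)) z :=
      DifferentiableAt.comp (g := B.H) z (B.H_diff _ hz'.le)
        ((contDiffAt_len (m := 1) (h.ne_zero hz'.le)).differentiableAt (by norm_num))
    exact ((h.contDiffAt_v hz'.le).differentiableAt (by simp)).mul ((h1.pow 2).sub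
      ((diff_kpf92 h hK hz'.le).pow 2))
  have h1 : av (wq B G g K) (len x) = wq B G g K x := av_eq (by omega) hr0.le hc
  rw [← h1]
  have c1 : ContinuousOn (fun y : E n => 1 / rad g y) {y : E n | B.R < ‖y‖} :=
    h.contDiffOn_v.continuousOn
  have c2 : ContinuousOn (fun y : E n => trT G K y ^ 2) {y : E n | B.R < ‖y‖} := fun y hy =>
    ((h.contDiffAt_trT hK hy).pow 2).continuousAt.continuousWithinAt
  have h2 : sphI (wq B G g K) (len x) =
      sphI (fun y => B.H (len x) ^ 2 * (1 / rad g y) - trT G K y ^ 2) (len x) := by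
    refine sphI_congr hr0.le fun y hy => ?_
    have hy' : len y = len x := hy
    have hp := h.ppos y (by rw [hy']; exact hx.le)
    unfold wq kpf
    rw [hy', mul_pow, Real.sq_sqrt hp.le]
    field_simp
  unfold Yav Vav av
  rw [h2, Vale.Agent.P366.sphI_sub (u := fun y => B.H (len x) ^ 2 * (1 / rad g y))
    (v := fun y => trT G K y ^ 2) h.hR.le hx (continuousOn_const.mul c1) c2,
    Vale.Agent.P366.sphI_const_mul]
  ring

/-- raising the index of a tangential covector on round spheres -/
lemma Sm_tang (h : Lapse G g B.R) (hro : B.RoundAt G) {y : E n} (hy : B.R < len y)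
    {u : Fin n → ℝ} (hu : ∑ j, nx j y * u j = 0) (k : Fin n) :
    ∑ l, Sm G k l y * u l = (len y / B.rho (len y)) ^ 2 * u k := by
  have hy0 := h.ne_zero hy.le
  have hl := len_ne hy0
  have hρ := (B.rho_pos hy.le).ne'
  have h1 : ∀ j, ∑ l, G y j l * u l = (B.rho (len y) / len y) ^ 2 * u j := by
    intro j
    have e : ∀ l, G y j l * u l = (B.rho (len y) / len y) ^ 2 * (if j = l then u l else 0) +
        (1 - (B.rho (len y) / len y) ^ 2) * nx j y * (nx l y * u l) := by
      intro l
      rw [hro y hy j l]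
      split_ifs <;> ring
    simp only [e, Finset.sum_add_distrib, ← Finset.mul_sum, hu, mul_zero, add_zero,
      Finset.sum_ite_eq, Finset.mem_univ, if_true]
  have h2 : ∑ j, up G k j y * ((B.rho (len y) / len y) ^ 2 * u j) = u k := by
    have e : ∀ j, up G k j y * ((B.rho (len y) / len y) ^ 2 * u j) =
        ∑ l, (up G k j y * G y j l) * u l := by
      intro j
      rw [← h1 j, Finset.mul_sum]
      exact Finset.sum_congr rfl fun l _ => by ring
    simp only [e]
    rw [Finset.sum_comm]
    simp only [← Finset.sum_mul, h.up_G hy.le]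
    simp
  have h3 : ∑ l, Sm G k l y * u l = ∑ l, up G k l y * u l := by
    have e : ∀ l, Sm G k l y * u l = up G k l y * u l - nx k y * (nx l y * u l) := by
      intro l; unfold Sm; ring
    simp only [e, Finset.sum_sub_distrib, ← Finset.mul_sum, hu, mul_zero, sub_zero]
  have h4 : (B.rho (len y) / len y) ^ 2 * ∑ l, up G k l y * u l = u k := by
    rw [← h2, Finset.mul_sum]
    exact Finset.sum_congr rfl fun l _ => by ring
  rw [h3, ← h4]
  field_simp

/-- contraction of tensors with a normal factor vanishes -/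
lemma ctr_cross (h : Lapse G g B.R) {x : E n} (hx : B.R ≤ len x) (v w : Fin n → ℝ) (C : Field n) :
    ctr G (fun _ i j => nx i x * v j + w i * nx j x) C x = 0 := by
  unfold ctr
  have e : ∀ i j k l, Sm G i k x * Sm G j l x * (nx i x * v j + w i * nx j x) * C x k l =
      Sm G j l x * v j * C x k l * (nx i x * Sm G i k x) +
      Sm G i k x * w i * C x k l * (nx j x * Sm G j l x) := by
    intro i j k l; ring
  simp only [e, Finset.sum_add_distrib]
  have e1 : ∑ i, ∑ j, ∑ k, ∑ l, Sm G j l x * v j * C x k l * (nx i x * Sm G i k x) = 0 := by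
    rw [Finset.sum_comm]
    refine Finset.sum_eq_zero fun j _ => ?_
    rw [Finset.sum_comm]
    refine Finset.sum_eq_zero fun k _ => ?_
    rw [Finset.sum_comm]
    refine Finset.sum_eq_zero fun l _ => ?_
    rw [← Finset.mul_sum, h.nx_Sm hx, mul_zero]
  have e2 : ∑ i, ∑ j, ∑ k, ∑ l, Sm G i k x * w i * C x k l * (nx j x * Sm G j l x) = 0 := by
    refine Finset.sum_eq_zero fun i _ => ?_
    rw [Finset.sum_comm]
    refine Finset.sum_eq_zero fun k _ => ?_
    rw [Finset.sum_comm]
    refine Finset.sum_eq_zero fun l _ => ?_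
    rw [← Finset.mul_sum, h.nx_Sm hx, mul_zero]
  rw [e1, e2, add_zero]

/-- **The linear equation for `√p tr_S K`.** -/
theorem tL_kpf (hn : 3 ≤ n) (h : Lapse G g B.R) (hF : B.Fits0 G)
    (hK : ∀ i j, Smooth (fun x => K x i j))
    (hKs : ∀ x, B.R ≤ len x → ∀ i j, K x i j = K x j i) (hro : B.RoundAt G)
    (hpt : ∀ x, B.R < len x → PtEqZ B G g K x)
    (hlt : ∀ x, B.R < len x → |kpf G g K x| < B.H (len x)) {x : E n} (hx : B.R < len x) :
    tL (kpf G g K) x = (B.rho (len x) / len x) ^ 2 * Yav' B G g K (len x) /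
      (2 * B.H (len x)) * kpf G g K x +
      (B.rho (len x) / len x) ^ 2 * Yav B G g K (len x) * Vf G g K x := by
  have : Nonempty (Fin n) := ⟨⟨0, by omega⟩⟩
  have : Nontrivial (E n) := inferInstance
  have hn3 : (3 : ℝ) ≤ n := by exact_mod_cast hn
  have hn1 : (n : ℝ) - 1 ≠ 0 := by linarith
  have hx0 := h.ne_zero hx.le
  have hl := len_ne hx0
  have hρ := B.rho_pos hx.le
  have hp := h.ppos x hx.le
  have hHp : ∀ y : E n, B.R < len y → 0 < B.H (len y) := fun y hy =>
    (abs_nonneg _).trans_lt (hlt y hy)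
  have hwp : ∀ y, B.R < len y → 0 < B.H (len y) ^ 2 - kpf G g K y ^ 2 := by
    intro y hy
    have : kpf G g K y ^ 2 < B.H (len y) ^ 2 := by
      rw [← sq_abs (kpf G g K y)]
      exact pow_lt_pow_left₀ (hlt y hy) (abs_nonneg _) two_ne_zero
    linarith
  have hw : ∀ y, B.R < len y → wq B G g K y = Yav B G g K (len y) := fun y hy =>
    wq_eq (by omega) h hK hpt hlt hy
  have hY : ∀ y : E n, B.R < len y → 0 < Yav B G g K (len y) := by
    intro y hy
    rw [← hw y hy]
    exact mul_pos (by have := h.ppos y hy.le; positivity) (hwp y hy)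
  obtain ⟨-, hYd⟩ := stX1d h (B := B) hK
  have hκs : ContDiffAt ℝ ∞ (kpf G g K) x := h.contDiffAt_kpf68 hK hx
  -- the radial coefficient
  obtain ⟨a', ha'⟩ : ∃ d, HasDerivAt (fun r => (r / B.rho r) ^ 2 * (B.H r / Yav B G g K r)) d
      (len x) :=
    ⟨_, (((hasDerivAt_id' _).fun_div (B.rho_hasDerivAt hx.le) hρ.ne').fun_pow 2).fun_mul
      ((B.H_diff _ hx.le).hasDerivAt.fun_div (hYd _ hx) (hY x hx).ne')⟩
  -- the tangential part of the row
  have hrow : ∀ y, B.R < len y → ∀ k, ∑ l, Sm G k l y * row K l y =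
      (len y / B.rho (len y)) ^ 2 * (B.H (len y) / Yav B G g K (len y)) * √(1 / rad g y) *
        tg (kpf G g K) k y := by
    intro y hy k
    have hpy := h.ppos y hy.le
    have hsy : 0 < √(1 / rad g y) := Real.sqrt_pos.2 (by positivity)
    have hss : √(1 / rad g y) * √(1 / rad g y) = 1 / rad g y :=
      Real.mul_self_sqrt (by positivity)
    have h1 : ∀ l, Sm G k l y * bf g K l y =
        (∑ k, nx k y * bf g K k y) * (Sm G k l y * nx l y) +
        B.H (len y) / (B.H (len y) ^ 2 - kpf G g K y ^ 2) *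
          (Sm G k l y * tg (kpf G g K) l y) := by
      intro l
      rw [(hpt y hy).bf0 l]
      ring
    have h2 : ∑ l, Sm G k l y * bf g K l y = B.H (len y) /
        (B.H (len y) ^ 2 - kpf G g K y ^ 2) * ((len y / B.rho (len y)) ^ 2 *
          tg (kpf G g K) k y) := by
      rw [Finset.sum_congr rfl fun l _ => h1 l, Finset.sum_add_distrib, ← Finset.mul_sum,
        ← Finset.mul_sum, h.Sm_nx hy.le, mul_zero, zero_add,
        Sm_tang h hro hy (sum_nx_tg (h.ne_zero hy.le))]
    have h3 : √(1 / rad g y) * ∑ l, Sm G k l y * row K l y = ∑ l, Sm G k l y * bf g K l y := by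
      rw [Finset.mul_sum]
      refine Finset.sum_congr rfl fun l _ => ?_
      unfold bf; ring
    have h4 : Yav B G g K (len y) = 1 / rad g y * (B.H (len y) ^ 2 - kpf G g K y ^ 2) :=
      (hw y hy).symm
    refine mul_left_cancel₀ hsy.ne' ?_
    rw [h3, h2, h4]
    have h5 := (hwp y hy).ne'
    have h6 : √(1 / rad g y) * ((len y / B.rho (len y)) ^ 2 *
        (B.H (len y) / (1 / rad g y * (B.H (len y) ^ 2 - kpf G g K y ^ 2))) *
          √(1 / rad g y) * tg (kpf G g K) k y) = (√(1 / rad g y) * √(1 / rad g y)) *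
        ((len y / B.rho (len y)) ^ 2 *
        (B.H (len y) / (1 / rad g y * (B.H (len y) ^ 2 - kpf G g K y ^ 2))) *
          tg (kpf G g K) k y) := by ring
    rw [h6, hss]
    field_simp
  set a := (len x / B.rho (len x)) ^ 2 * (B.H (len x) / Yav B G g K (len x)) with ha
  set s0 := √(1 / rad g x) with hs0
  set N := √(rad g x) with hN
  have hsN : s0 * N = 1 := sqrt_inv_mul hp
  -- the divergence of the row
  have hDS : DS G (row K) x = a * s0 * tL (kpf G g K) x -
      a * s0 * ∑ k, glf g k x * tg (kpf G g K) k x := by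
    have e1 : ∀ k, pd k (fun y => ∑ l, Sm G k l y * row K l y) x =
        (a' / len x * x k * s0 + a * (-(s0 * glf g k x))) * tg (kpf G g K) k x +
          a * s0 * pd k (tg (kpf G g K) k) x := by
      intro k
      have hev : (fun y => ∑ l, Sm G k l y * row K l y) =ᶠ[𝓝 x] fun y =>
          (len y / B.rho (len y)) ^ 2 * (B.H (len y) / Yav B G g K (len y)) * √(1 / rad g y) *
            tg (kpf G g K) k y := by
        filter_upwards [(isOpen_out B.R).mem_nhds hx] with y hy
        exact hrow y hy k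
      exact ((((HP.radial hx0 ha' k).mul (h.HP_sqrt_inv hx.le k)).mul
        (HP.of_diff ((contDiffAt_tg hx0 hκs k).differentiableAt (by simp)))).congr hev).pd
    have e2 : ∀ k, pd k (fun y => ∑ l, Sm G k l y * row K l y) x =
        a' * s0 * (nx k x * tg (kpf G g K) k x) - a * s0 * (glf g k x * tg (kpf G g K) k x) +
          a * s0 * pd k (tg (kpf G g K) k) x := by
      intro k
      rw [e1 k, ← nx_mul_len hx0 k]
      field_simp
      ring
    unfold DS tL
    rw [Finset.sum_congr rfl fun k _ => e2 k]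
    simp only [Finset.sum_add_distrib, Finset.sum_sub_distrib, ← Finset.mul_sum,
      sum_nx_tg hx0, mul_zero]
    ring
  have hS2 : S2 G (glf g) (row K) x = a * s0 * ∑ k, glf g k x * tg (kpf G g K) k x := by
    unfold S2
    rw [Finset.mul_sum]
    refine Finset.sum_congr rfl fun k _ => ?_
    have e : ∀ l, Sm G k l x * glf g k x * row K l x = glf g k x * (Sm G k l x * row K l x) := by
      intro l; ring
    rw [Finset.sum_congr rfl fun l _ => e l, ← Finset.mul_sum, hrow x hx k]
    ring
  -- the momentum constraint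
  obtain ⟨-, -, b3, -⟩ := stB n G g K B.R h hK hKs x hx
  have hctr : ctr G K (IIf G) x = trT G K x / B.H (len x) * (B.H (len x) ^ 2 / ((n : ℝ) - 1)) := by
    have e1 : ctr G K (IIf G) x =
        ctr G (fun _ i j => nx i x * (row K j x - rad K x * nx j x) + row K i x * nx j x)
          (IIf G) x + trT G K x / B.H (len x) * ctr G (IIf G) (IIf G) x := by
      unfold ctr
      simp only [Finset.mul_sum, ← Finset.sum_add_distrib]
      refine Finset.sum_congr rfl fun i _ => Finset.sum_congr rfl fun j _ =>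
        Finset.sum_congr rfl fun k _ => Finset.sum_congr rfl fun l _ => ?_
      rw [(hpt x hx).K0 i j]; ring
    rw [e1, ctr_cross h hx.le, zero_add, ctr_II_round h hF hro hx]
  rw [h.S2_radial hx.le (hF.hL x hx), hDS, hS2, H1_eq0 hF hx, hctr] at b3
  simp only [(hpt x hx).mom0, mul_zero, Finset.sum_const_zero] at b3
  -- the derivative of `Y`
  have hκe : ∀ i, pd i (kpf G g K) x = N * glf g i x * trT G K x + N * pd i (trT G K) x :=
    fun i => (h.HP_kpf hK hx i).pd
  have hdκ : dN (kpf G g K) x = kpf G g K x * dN (lf g) x + N * dN (trT G K) x := by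
    unfold dN
    have e : ∀ i, nx i x * pd i (kpf G g K) x = kpf G g K x * (nx i x * pd i (lf g) x) +
        N * (nx i x * pd i (trT G K) x) := by
      intro i
      rw [hκe i]
      unfold kpf glf
      ring
    rw [Finset.sum_congr rfl fun i _ => e i]
    simp only [Finset.sum_add_distrib, ← Finset.mul_sum]
  have hYr : ∀ i, pd i (wq B G g K) x = Yav' B G g K (len x) * nx i x := by
    intro i
    have hev : wq B G g K =ᶠ[𝓝 x] fun y => Yav B G g K (len y) := by
      filter_upwards [(isOpen_out B.R).mem_nhds hx] with y hy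
      exact hw y hy
    rw [((HP.radial hx0 (hYd _ hx) i).congr hev).pd]
    unfold nx
    ring
  have hY' : Yav' B G g K (len x) = -(2 * (1 / rad g x) * dN (lf g) x) *
      (B.H (len x) ^ 2 - kpf G g K x ^ 2) + 1 / rad g x * (2 * B.H (len x) * deriv B.H (len x) -
        2 * kpf G g K x * dN (kpf G g K) x) := by
    have h1 : ∀ i, Yav' B G g K (len x) * nx i x = (-(2 * (1 / rad g x) * dN (lf g) x) *
      (B.H (len x) ^ 2 - kpf G g K x ^ 2) + 1 / rad g x * (2 * B.H (len x) * deriv B.H (len x) -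
        2 * kpf G g K x * dN (kpf G g K) x)) * nx i x := by
      intro i
      rw [← hYr i, pd_wq h hK hx (hpt x hx) (hlt x hx) i]
    have h2 : ∑ i, Yav' B G g K (len x) * nx i x * nx i x = ∑ i,
      (-(2 * (1 / rad g x) * dN (lf g) x) *
      (B.H (len x) ^ 2 - kpf G g K x ^ 2) + 1 / rad g x * (2 * B.H (len x) * deriv B.H (len x) -
        2 * kpf G g K x * dN (kpf G g K) x)) * nx i x * nx i x :=
      Finset.sum_congr rfl fun i _ => by rw [h1 i]
    simp only [mul_assoc _ (nx _ x) (nx _ x), ← Finset.mul_sum, sum_nx_mul hx0, mul_one] at h2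
    exact h2
  -- the radial derivative of the rapidity
  have hχ : dN (sphereRapidity g K) x = B.H (len x) / (B.H (len x) ^ 2 - kpf G g K x ^ 2) *
      dN (kpf G g K) x - kpf G g K x * deriv B.H (len x) /
        (B.H (len x) ^ 2 - kpf G g K x ^ 2) := by
    unfold dN
    have e : ∀ i, nx i x * pd i (sphereRapidity g K) x =
        B.H (len x) / (B.H (len x) ^ 2 - kpf G g K x ^ 2) * (nx i x * pd i (kpf G g K) x) -
        kpf G g K x * deriv B.H (len x) /
        (B.H (len x) ^ 2 - kpf G g K x ^ 2) * (nx i x * nx i x) := by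
      intro i
      rw [pd_rapidity h hF hK hx (hlt x hx)]
      ring
    rw [Finset.sum_congr rfl fun i _ => e i]
    simp only [Finset.sum_sub_distrib, ← Finset.mul_sum, sum_nx_mul hx0, mul_one]
  have hYx := hw x hx
  unfold wq at hYx
  unfold Vf
  rw [hχ]
  have hHx := hHp x hx
  have hwx := hwp x hx
  have hYp := hY x hx
  have hφ : (B.rho (len x) / len x) ^ 2 * (len x / B.rho (len x)) ^ 2 = 1 := by
    field_simp
  set H := B.H (len x)
  set H' := deriv B.H (len x)
  set κ := kpf G g K x
  set Y := Yav B G g K (len x)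
  set Y' := Yav' B G g K (len x)
  set p := rad g x
  set τ := trT G K x
  set kk := rad K x / p
  set Lr := dN (lf g) x
  set Dκ := dN (kpf G g K) x
  set Dτ := dN (trT G K) x
  set T := tL (kpf G g K) x
  set φ := (B.rho (len x) / len x) ^ 2
  set ψ := (len x / B.rho (len x)) ^ 2
  -- algebra
  have hNp : N * N = p := Real.mul_self_sqrt hp.le
  have hw2 : H ^ 2 - κ ^ 2 = p * Y := by
    rw [← hYx]; field_simp
  have e1 : N * (a * s0 * T - a * s0 * (∑ k, glf g k x * tg (kpf G g K) k x) + 0 +
      a * s0 * (∑ k, glf g k x * tg (kpf G g K) k x) - Dτ + kk * H -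
      τ / H * (H ^ 2 / ((n : ℝ) - 1))) = 0 := by
    rw [← b3, mul_zero]
  have e2 : a * T = N * Dτ - H * (N * (kk - τ / ((n : ℝ) - 1))) := by
    have e3 : τ / H * (H ^ 2 / ((n : ℝ) - 1)) = τ * H / ((n : ℝ) - 1) := by
      field_simp
    rw [e3] at e1
    linear_combination e1 - (a * T) * hsN
  have e3 : N * Dτ = H * (H / (H ^ 2 - κ ^ 2) * Dκ - κ * H' / (H ^ 2 - κ ^ 2)) +
      κ * Y' / (2 * Y) := by
    have e4 : N * Dτ = Dκ - κ * Lr := by linarith
    have e5 : p * Y' = -(2 * Lr) * (H ^ 2 - κ ^ 2) + (2 * H * H' - 2 * κ * Dκ) := by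
      rw [hY']; field_simp
    rw [e4, hw2]
    rw [hw2] at e5
    have hpp : p ≠ 0 := hp.ne'
    have e6 : (Dκ - κ * Lr) * (2 * (p * Y)) = (H * (H / (p * Y) * Dκ - κ * H' / (p * Y)) +
        κ * Y' / (2 * Y)) * (2 * (p * Y)) := by
      have e7 : (H * (H / (p * Y) * Dκ - κ * H' / (p * Y)) +
        κ * Y' / (2 * Y)) * (2 * (p * Y)) = 2 * H ^ 2 * Dκ - 2 * H * κ * H' + κ * (p * Y') := by
        field_simp
      rw [e7, e5]
      linear_combination (-2 * Dκ) * hw2
    exact mul_right_cancel₀ (by positivity) e6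
  have e4 : a * T = H * ((H / (H ^ 2 - κ ^ 2) * Dκ - κ * H' / (H ^ 2 - κ ^ 2)) -
      N * (kk - τ / ((n : ℝ) - 1))) + κ * Y' / (2 * Y) := by
    rw [e2, e3]; ring
  set V := H / (H ^ 2 - κ ^ 2) * Dκ - κ * H' / (H ^ 2 - κ ^ 2) - N * (kk - τ / ((n : ℝ) - 1))
  have e5 : T = φ * (Y / H) * (a * T) := by
    have e6 : φ * (Y / H) * (a * T) = (φ * ψ) * T := by
      rw [ha]; field_simp
    rw [e6, hφ, one_mul]
  rw [e5, e4]
  field_simp
  ring

end

end Vale.Agent.H177
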